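import Mathlib.LinearAlgebra.Matrix.NonsingularInverse
import Mathlib.LinearAlgebra.Matrix.Determinant.Basic
import Mathlib.LinearAlgebra.LinearIndependent.Lemmas
import Mathlib.LinearAlgebra.Basis.VectorSpace
import Mathlib.LinearAlgebra.Matrix.Nondegenerate

/-!
# Minors: pointwise linear algebra for the wedge products of tensors
-/

noncomputable section

namespace Vale.Agent.P299.H212

open Matrix

variable {K κ : Type*} [Field K] [Fintype κ] {r : ℕ}

/-- expansion of the determinant of a product -/
theorem det_mul_expand [DecidableEq κ] (A : Matrix (Fin r) κ K) (B : Matrix κ (Fin r) K) :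
    (A * B).det = ∑ J : Fin r → κ, (∏ b, B (J b) b) * (Matrix.of fun a b => A a (J b)).det := by
  rw [← Matrix.det_transpose]
  have h : (A * B).transpose =
      Matrix.of (fun b => ∑ k : κ, B k b • (fun a => A a k : Fin r → K)) := by
    ext b a
    simp only [Matrix.transpose_apply, Matrix.mul_apply, Matrix.of_apply, Finset.sum_apply,
      Pi.smul_apply, smul_eq_mul]
    exact Finset.sum_congr rfl fun k _ => mul_comm _ _
  rw [h]
  have h2 := (Matrix.detRowAlternating (R := K) (n := Fin r)).toMultilinearMap.map_sum
    (g := fun (b : Fin r) (k : κ) => B k b • (fun a => A a k))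
  have h3 : ∀ M : Matrix (Fin r) (Fin r) K,
    (Matrix.detRowAlternating (R := K) (n := Fin r)).toMultilinearMap M = M.det := fun M => rfl
  rw [← h3]
  refine h2.trans (Finset.sum_congr rfl fun J _ => ?_)
  rw [MultilinearMap.map_smul_univ, smul_eq_mul]
  congr 1
  exact Matrix.det_transpose (Matrix.of fun a b => A a (J b))

/-- linearly independent vectors have a nonzero minor -/
theorem exists_minor {v : Fin r → κ → K} (hv : LinearIndependent K v) :
    ∃ J : Fin r → κ, (Matrix.of fun a b => v a (J b)).det ≠ 0 := by
  classical
  by_contra hcon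
  push Not at hcon
  have hinj : Function.Injective (Fintype.linearCombination K v) :=
    hv.fintypeLinearCombination_injective
  obtain ⟨g, hg⟩ := LinearMap.exists_leftInverse_of_injective (Fintype.linearCombination K v)
    (LinearMap.ker_eq_bot.2 hinj)
  let A : Matrix (Fin r) κ K := Matrix.of v
  let B : Matrix κ (Fin r) K := Matrix.of fun k b => g (Pi.single k 1) b
  have hAB : A * B = 1 := by
    ext a b
    have h1 : g (v a) = Pi.single a 1 := by
      have := LinearMap.congr_fun hg (Pi.single a 1)
      simp [Fintype.linearCombination_apply_single] at this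
      exact this
    have h2 : v a = ∑ k, v a k • (Pi.single k (1 : K) : κ → K) := by
      funext k
      simp [Finset.sum_apply, Pi.single_apply]
    rw [Matrix.mul_apply]
    have h3 : g (v a) b = ∑ k, v a k * g (Pi.single k 1) b := by
      conv_lhs => rw [h2]
      rw [map_sum, Finset.sum_apply]
      exact Finset.sum_congr rfl fun k _ => by rw [map_smul, Pi.smul_apply, smul_eq_mul]
    show ∑ k, v a k * g (Pi.single k 1) b = _
    rw [← h3, h1, Matrix.one_apply, Pi.single_apply]
    simp only [eq_comm]
  have h4 := det_mul_expand A B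
  rw [hAB, Matrix.det_one] at h4
  refine one_ne_zero (h4.trans (Finset.sum_eq_zero fun J _ => ?_))
  have := hcon J
  show _ * (Matrix.of fun a b => v a (J b)).det = 0
  rw [this, mul_zero]

omit [Fintype κ] in
theorem linearIndependent_of_minor {v : Fin r → κ → K} {J : Fin r → κ}
    (h : (Matrix.of fun a b => v a (J b)).det ≠ 0) : LinearIndependent K v := by
  rw [Fintype.linearIndependent_iff]
  intro c hc a
  have h1 : Matrix.vecMul c (Matrix.of fun a b => v a (J b)) = 0 := by
    funext b
    have := congrFun hc (J b)
    simp only [Finset.sum_apply, Pi.smul_apply, smul_eq_mul, Pi.zero_apply] at this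
    simp only [Matrix.vecMul, dotProduct, Matrix.of_apply, Pi.zero_apply]
    exact this
  exact congrFun (Matrix.eq_zero_of_vecMul_eq_zero h h1) a

theorem linearIndependent_iff_minor {v : Fin r → κ → K} : LinearIndependent K v ↔
    ∃ J : Fin r → κ, (Matrix.of fun a b => v a (J b)).det ≠ 0 :=
  ⟨exists_minor, fun ⟨_, h⟩ => linearIndependent_of_minor h⟩

omit [Fintype κ] in
/-- If the last vector changes within the span, the wedge product is multiplied by a scalar. -/
theorem wedge_snoc_of_mem {v : Fin r → κ → K} {x y : κ → K}
    (h : y ∈ Submodule.span K (Set.range (Fin.snoc v x : Fin (r + 1) → κ → K))) :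
    ∃ c : K, ∀ J : Fin (r + 1) → κ,
      (Matrix.of fun a b => (Fin.snoc v y : Fin (r + 1) → κ → K) a (J b)).det =
        c * (Matrix.of fun a b => (Fin.snoc v x : Fin (r + 1) → κ → K) a (J b)).det := by
  obtain ⟨c, hc⟩ := (Submodule.mem_span_range_iff_exists_fun K).1 h
  refine ⟨c (Fin.last r), fun J => ?_⟩
  set w : Fin (r + 1) → κ → K := Fin.snoc v x with hw
  have h1 : (Matrix.of fun a b => (Fin.snoc v y : Fin (r + 1) → κ → K) a (J b)) =
      (Matrix.of fun a b => w a (J b)).updateRow (Fin.last r)
        (∑ k, c k • (Matrix.of fun a b => w a (J b)) k) := by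
    ext a b
    refine Fin.lastCases ?_ (fun a => ?_) a
    · rw [Matrix.updateRow_self]
      simp only [Matrix.of_apply, Fin.snoc_last]
      rw [← hc, Finset.sum_apply, Finset.sum_apply]
      rfl
    · rw [Matrix.updateRow_ne (Fin.castSucc_lt_last a).ne]
      simp [hw]
  rw [h1, Matrix.det_updateRow_sum]
  rfl

end Vale.Agent.P299.H212
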