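import Vale.Agent.P299.H723.D.Stmt
import Vale.Agent.P299.H212.Minor

/-!
# Identity theorem for holomorphic tensors and wedge products of tensors
-/

open scoped Manifold ContDiff ComplexOrder Topology
open Vale.Agent.P272.K

set_option linter.unusedSectionVars false

noncomputable section

namespace Vale.Agent.P299.H212

open D

variable {n p : ℕ} {X : Type*} [TopologicalSpace X] [ChartedSpace (Cm n) X]

/-- proportional tensors -/
def PropTo (s t : Ten n p X) : Prop := ∀ e x, At e x → ∀ I J,
  s e (e x) I * t e (e x) J = s e (e x) J * t e (e x) I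

section ident

variable [IsManifold 𝓘(ℂ, Cm n) ω X] {m : ℕ} {s : Ten n p X} {e e' : Chart n X} {x : X}

theorem tenPull_zero {n d p : ℕ} (J : Matrix (Fin n) (Fin d) ℂ) :
    tenPull (p := p) J 0 = 0 := by
  funext I
  simp [tenPull]

/-- vanishing at a point does not depend on the chart -/
theorem zero_of_zero (hs : IsTen p m s) (h : At e x) (h' : At e' x) (h0 : s e' (e' x) = 0) :
    s e (e x) = 0 := by
  funext I
  have h1 := hs.change e e' x h h' I
  rw [h0, tenPull_zero] at h1
  simp only [Pi.zero_apply] at h1 ⊢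
  exact (mul_eq_zero.1 h1).resolve_left (pow_ne_zero _ (jacM_det_ne_zero h h'))

/-- the set of points where `s` does not vanish -/
def nzSet (s : Ten n p X) : Set X := {x | ∃ e, At e x ∧ s e (e x) ≠ 0}

theorem mem_nzSet (hs : IsTen p m s) (h : At e x) : x ∈ nzSet s ↔ s e (e x) ≠ 0 :=
  ⟨fun ⟨e', h', h0⟩ h1 => h0 (zero_of_zero hs h' h h1), fun h0 => ⟨e, h, h0⟩⟩

theorem tenNZ_iff : TenNZ s ↔ (nzSet s).Nonempty := by
  constructor
  · rintro ⟨e, x, I, h, h0⟩
    exact ⟨x, e, h, fun h1 => h0 (by rw [h1]; rfl)⟩
  · rintro ⟨x, e, h, h0⟩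
    obtain ⟨I, hI⟩ := Function.ne_iff.1 h0
    exact ⟨e, x, I, h, hI⟩

theorem analyticAt_ten (hs : IsTen p m s) (h : At e x) : AnalyticAt ℂ (fun z => s e z) (e x) :=
  analyticAt_pi_iff.2 fun I => hs.holo e x h I

theorem isOpen_nzSet (hs : IsTen p m s) : IsOpen (nzSet s) := by
  rw [isOpen_iff_mem_nhds]
  rintro x ⟨e, h, h0⟩
  have h1 : ContinuousAt (fun y => s e (e y)) x :=
    (analyticAt_ten hs h).continuousAt.comp (e.continuousAt h.2)
  filter_upwards [h1.eventually_ne h0, e.open_source.mem_nhds h.2] with y hy hy'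
  exact ⟨e, ⟨h.1, hy'⟩, hy⟩

/-- **Identity theorem**: a nonzero tensor does not vanish on a dense open set -/
theorem dense_nzSet [PreconnectedSpace X] (hs : IsTen p m s) (h0 : TenNZ s) :
    Dense (nzSet s) := by
  by_contra hd
  -- the set of points near which `s` vanishes
  set Z : Set X := interior (nzSet s)ᶜ with hZ
  have hZo : IsOpen Z := isOpen_interior
  have hZn : Z.Nonempty := by
    by_contra hc
    rw [Set.not_nonempty_iff_eq_empty] at hc
    exact hd (interior_eq_empty_iff_dense_compl.1 hc |> fun h => by simpa using h)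
  have hZc : IsClosed Z := by
    rw [← closure_subset_iff_isClosed]
    intro x hx
    set e : Chart n X := chartAt (Cm n) x with he
    have hex : At e x := ⟨chart_mem_atlas _ _, mem_chart_source _ _⟩
    obtain ⟨ε, hε, hball⟩ := Metric.isOpen_iff.1 e.open_target (e x) hex.mem_target
    -- a point of `Z` in the ball
    have hU : e.source ∩ e ⁻¹' (Metric.ball (e x) ε) ∈ 𝓝 x :=
      Filter.inter_mem (e.open_source.mem_nhds hex.2)
        ((e.continuousAt hex.2).preimage_mem_nhds (Metric.ball_mem_nhds _ hε))
    obtain ⟨y, hyU, hyZ⟩ := mem_closure_iff_nhds.1 hx _ hU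
    have hey : At e y := ⟨hex.1, hyU.1⟩
    have hz : (fun z => s e z) =ᶠ[𝓝 (e y)] fun _ => 0 := by
      have h1 : ∀ᶠ z in 𝓝 (e y), e.symm z ∈ Z :=
        (e.continuousAt_symm hey.mem_target).eventually
          (hZo.mem_nhds (by rw [hey.left_inv]; exact hyZ))
      filter_upwards [h1, hey.nhds_target] with z hz hz'
      by_contra hne
      refine interior_subset hz ⟨e, At.of_target hex.1 hz', ?_⟩
      rwa [e.right_inv hz']
    have han : AnalyticOnNhd ℂ (fun z => s e z) (Metric.ball (e x) ε) := by
      intro z hz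
      have := analyticAt_ten hs (At.of_target hex.1 (hball hz))
      rwa [e.right_inv (hball hz)] at this
    have h2 := han.eqOn_zero_of_preconnected_of_eventuallyEq_zero
      (convex_ball (e x) ε).isPreconnected hyU.2 hz
    rw [hZ, mem_interior_iff_mem_nhds]
    filter_upwards [hU] with y hy hyn
    have hy' : At e y := ⟨hex.1, hy.1⟩
    exact (mem_nzSet hs hy').1 hyn (h2 hy.2)
  have huniv : Z = Set.univ := IsClopen.eq_univ ⟨hZc, hZo⟩ hZn
  obtain ⟨x, hx⟩ := tenNZ_iff.1 h0
  exact interior_subset (huniv ▸ Set.mem_univ x : x ∈ Z) hx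

/-- two components identity on a dense set implies everywhere -/
theorem propTo_of_dense {m m' : ℕ} {s t : Ten n p X} (hs : IsTen p m s) (ht : IsTen p m' t)
    {S : Set X} (hS : Dense S) (h : ∀ e x, At e x → x ∈ S → ∀ I J,
      s e (e x) I * t e (e x) J = s e (e x) J * t e (e x) I) : PropTo s t := by
  intro e x hx I J
  by_contra hne
  have h1 : ∀ K, ContinuousAt (fun y => s e (e y) K) x := fun K =>
    (hs.holo e x hx K).continuousAt.comp (e.continuousAt hx.2)
  have h2 : ∀ K, ContinuousAt (fun y => t e (e y) K) x := fun K =>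
    (ht.holo e x hx K).continuousAt.comp (e.continuousAt hx.2)
  have h3 : ∀ᶠ y in 𝓝 x, s e (e y) I * t e (e y) J - s e (e y) J * t e (e y) I ≠ 0 :=
    (((h1 I).mul (h2 J)).sub ((h1 J).mul (h2 I))).eventually_ne (sub_ne_zero.2 hne)
  obtain ⟨y, hyS, hy⟩ := hS.inter_nhds_nonempty
    (Filter.inter_mem h3 (e.open_source.mem_nhds hx.2))
  exact hy.1 (sub_eq_zero.2 (h e y ⟨hx.1, hy.2⟩ hyS I J))

end ident

section wedge

variable {r : ℕ}

/-- the block `b` of a multi-index of length `r * p` -/
def blk (I : Fin (r * p) → Fin n) (b : Fin r) : Fin p → Fin n := fun c => I (finProdFinEquiv (b, c))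

/-- assembling blocks -/
def asm (J : Fin r → Fin p → Fin n) : Fin (r * p) → Fin n := fun i =>
  J (finProdFinEquiv.symm i).1 (finProdFinEquiv.symm i).2

theorem blk_asm (J : Fin r → Fin p → Fin n) : blk (asm J) = J := by
  funext b c
  simp [blk, asm]

theorem asm_blk (I : Fin (r * p) → Fin n) : asm (blk I) = I := by
  funext i
  simp only [blk, asm]
  congr 1
  exact finProdFinEquiv.apply_symm_apply i

/-- multi-indices and blocks -/
def blkEquiv : (Fin (r * p) → Fin n) ≃ (Fin r → Fin p → Fin n) where
  toFun := blk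
  invFun := asm
  left_inv := asm_blk
  right_inv := blk_asm

/-- the wedge product of `r` tensors, as a tensor of degree `r * p` -/
def wedge (u : Fin r → Ten n p X) : Ten n (r * p) X := fun e z I =>
  (Matrix.of fun a b => u a e z (blk I b)).det

theorem isTen_wedge {u : Fin r → Ten n p X} {m : Fin r → ℕ} (hu : ∀ a, IsTen p (m a) (u a)) :
    IsTen (r * p) (∑ a, m a) (wedge u) := by
  constructor
  · intro e x h I
    have : (fun z => wedge u e z I) = fun z => ∑ σ : Equiv.Perm (Fin r),
        (Equiv.Perm.sign σ : ℂ) * ∏ i, u (σ i) e z (blk I i) := by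
      funext z
      simp only [wedge, Matrix.det_apply', Matrix.of_apply]
    rw [this]
    exact Finset.analyticAt_fun_sum _ fun σ _ => analyticAt_const.mul
      (Finset.analyticAt_fun_prod _ fun i _ => (hu (σ i)).holo e x h _)
  · intro e e' x h h' I
    set J := jacM e e' x with hJ
    -- the matrix of components in the chart `e'`
    let A : Matrix (Fin r) (Fin p → Fin n) ℂ := Matrix.of fun a => u a e' (e' x)
    let B : Matrix (Fin p → Fin n) (Fin r) ℂ := Matrix.of fun K b => ∏ c, J (K c) (blk I b c)
    have h1 : (Matrix.of fun a b => J.det ^ m a * u a e (e x) (blk I b)) = A * B := by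
      ext a b
      rw [Matrix.of_apply, (hu a).change e e' x h h', Matrix.mul_apply]
      simp only [tenPull, A, B, Matrix.of_apply]
      exact Finset.sum_congr rfl fun K _ => mul_comm _ _
    have h2 : J.det ^ (∑ a, m a) * wedge u e (e x) I =
        (Matrix.of fun a b => J.det ^ m a * u a e (e x) (blk I b)).det := by
      have := Matrix.det_mul_column (fun a => J.det ^ m a)
        (Matrix.of fun a b => u a e (e x) (blk I b))
      rw [Finset.prod_pow_eq_pow_sum] at this
      exact this.symm
    rw [h2, h1, det_mul_expand]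
    simp only [tenPull]
    rw [← (blkEquiv (n := n) (p := p) (r := r)).sum_comp]
    refine Finset.sum_congr rfl fun K _ => ?_
    have h3 : (∏ a, J (K a) (I a)) = ∏ b : Fin r, ∏ c : Fin p, J (blk K b c) (blk I b c) := by
      rw [← finProdFinEquiv.prod_comp, Fintype.prod_prod_type]
      rfl
    rw [h3]
    rfl

/-- the wedge product does not vanish at `x` iff the tensors are linearly independent at `x` -/
theorem wedge_ne_zero_iff {u : Fin r → Ten n p X} {e : Chart n X} {z : Cm n} :
    wedge u e z ≠ 0 ↔ LinearIndependent ℂ fun a => u a e z := by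
  rw [linearIndependent_iff_minor]
  constructor
  · intro h
    obtain ⟨I, hI⟩ := Function.ne_iff.1 h
    exact ⟨blk I, hI⟩
  · rintro ⟨J, hJ⟩ h
    apply hJ
    have := congrFun h (asm J)
    simp only [wedge, blk_asm] at this
    exact this

end wedge

end Vale.Agent.P299.H212
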