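import Vale.Agent.P299.H212.Wedge
import Vale.Agent.P271.H408.Ext

/-!
# Thin subsets of a complex manifold and extension of tensors
-/

open scoped Manifold ContDiff ComplexOrder Topology ENNReal
open Vale.Agent.P272.K Filter Metric

set_option linter.unusedSectionVars false
set_option linter.unusedVariables false

noncomputable section

namespace Vale.Agent.P299.H212

open D

section local_

variable {V : Type*} [NormedAddCommGroup V] [NormedSpace ℂ V]

/-- an analytic function which does not vanish near `p` does not vanish near any nearby point -/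
theorem eventually_frequently_ne {g : V → ℂ} {p : V} (hg : AnalyticAt ℂ g p)
    (h0 : ¬ ∀ᶠ z in 𝓝 p, g z = 0) : ∀ᶠ y in 𝓝 p, ∃ᶠ z in 𝓝 y, g z ≠ 0 := by
  obtain ⟨r, hr, hball⟩ := Metric.eventually_nhds_iff_ball.1 hg.eventually_analyticAt
  filter_upwards [ball_mem_nhds p hr] with y hy hcon
  apply h0
  have hcon' : g =ᶠ[𝓝 y] 0 := by
    filter_upwards [hcon] with z hz
    simpa using hz
  have h1 := AnalyticOnNhd.eqOn_zero_of_preconnected_of_eventuallyEq_zero (f := g) (U := ball p r)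
    (fun z hz => hball z hz) (convex_ball p r).isPreconnected hy hcon'
  filter_upwards [ball_mem_nhds p hr] with z hz using h1 hz

theorem not_eventually_mul {g g' : V → ℂ} {p : V} (hg : AnalyticAt ℂ g p)
    (hg' : AnalyticAt ℂ g' p) (h0 : ¬ ∀ᶠ z in 𝓝 p, g z = 0) (h0' : ¬ ∀ᶠ z in 𝓝 p, g' z = 0) :
    ¬ ∀ᶠ z in 𝓝 p, g z * g' z = 0 := by
  intro hcon
  have h1 : ∃ᶠ y in 𝓝 p, g y ≠ 0 := not_eventually.1 h0
  obtain ⟨y, hy, h2, h3, h4⟩ := (h1.and_eventually ((eventually_frequently_ne hg' h0').and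
    (hg.eventually_analyticAt.and (eventually_eventually_nhds.2 hcon)))).exists
  have h5 : ∀ᶠ z in 𝓝 y, g z ≠ 0 := h3.continuousAt.eventually_ne hy
  obtain ⟨z, hz, hz1, hz2⟩ := (h2.and_eventually (h5.and h4)).exists
  exact mul_ne_zero hz1 hz hz2

end local_

variable {n p : ℕ} {X : Type*} [TopologicalSpace X] [ChartedSpace (Cm n) X]

/-- `N` is locally contained in the zero set of a holomorphic function which is not zero -/
def Thin (N : Set X) : Prop := ∀ (e : Chart n X) x, At e x → ∃ g : Cm n → ℂ,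
  AnalyticAt ℂ g (e x) ∧ (¬ ∀ᶠ z in 𝓝 (e x), g z = 0) ∧ ∀ᶠ z in 𝓝 (e x), g z ≠ 0 → e.symm z ∉ N

theorem Thin.mono {N N' : Set X} (h : Thin (n := n) N) (hN : N' ⊆ N) : Thin (n := n) N' := by
  intro e x hx
  obtain ⟨g, hg, h0, h1⟩ := h e x hx
  exact ⟨g, hg, h0, h1.mono fun z hz hz0 hzN => hz hz0 (hN hzN)⟩

theorem thin_empty : Thin (n := n) (∅ : Set X) := fun e x hx =>
  ⟨fun _ => 1, analyticAt_const, fun h => one_ne_zero h.self_of_nhds, by simp⟩

theorem Thin.union {N N' : Set X} (h : Thin (n := n) N) (h' : Thin (n := n) N') :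
    Thin (n := n) (N ∪ N') := by
  intro e x hx
  obtain ⟨g, hg, h0, h1⟩ := h e x hx
  obtain ⟨g', hg', h0', h1'⟩ := h' e x hx
  refine ⟨fun z => g z * g' z, hg.mul hg', not_eventually_mul hg hg' h0 h0', ?_⟩
  filter_upwards [h1, h1'] with z hz hz' hz0
  rintro (hN | hN)
  · exact hz (left_ne_zero_of_mul hz0) hN
  · exact hz' (right_ne_zero_of_mul hz0) hN

variable [IsManifold 𝓘(ℂ, Cm n) ω X]

/-- the definition of thinness can be checked in one chart -/
theorem thin_of_chart {N : Set X} (h : ∀ x, ∃ e : Chart n X, At e x ∧ ∃ g : Cm n → ℂ,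
    AnalyticAt ℂ g (e x) ∧ (¬ ∀ᶠ z in 𝓝 (e x), g z = 0) ∧
      ∀ᶠ z in 𝓝 (e x), g z ≠ 0 → e.symm z ∉ N) : Thin (n := n) N := by
  intro e' x hx'
  obtain ⟨e, hx, g, hg, h0, h1⟩ := h x
  -- transition map from `e'` to `e`
  have ht : AnalyticAt ℂ (fun z => e (e'.symm z)) (e' x) := (transition hx' hx).analyticAt
  have ht' : AnalyticAt ℂ (fun z => e' (e.symm z)) (e x) := (transition hx hx').analyticAt
  have hte : e (e'.symm (e' x)) = e x := by rw [hx'.left_inv]
  have hte' : e' (e.symm (e x)) = e' x := by rw [hx.left_inv]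
  have hlim : Tendsto (fun z => e (e'.symm z)) (𝓝 (e' x)) (𝓝 (e x)) := by
    have := ht.continuousAt.tendsto
    rwa [hte] at this
  have hlim' : Tendsto (fun z => e' (e.symm z)) (𝓝 (e x)) (𝓝 (e' x)) := by
    have := ht'.continuousAt.tendsto
    rwa [hte'] at this
  refine ⟨fun z => g (e (e'.symm z)), ?_, ?_, ?_⟩
  · exact AnalyticAt.comp (g := g) (f := fun z => e (e'.symm z)) (by rw [hte]; exact hg) ht
  · intro hcon
    apply h0
    have := hlim'.eventually hcon
    filter_upwards [this, hx.nhds_at hx'] with z hz hz'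
    rw [hz'.2.2.left_inv, e.right_inv hz'.1] at hz
    exact hz
  · filter_upwards [hlim.eventually h1, hx'.nhds_at hx] with z hz hz' hz0
    have := hz hz0
    rwa [hz'.2.2.left_inv] at this

/-- in a chart, the complement of a thin set is dense -/
theorem Thin.frequently {N : Set X} (h : Thin (n := n) N) {e : Chart n X} {x : X} (hx : At e x) :
    ∃ᶠ z in 𝓝 (e x), e.symm z ∉ N := by
  obtain ⟨g, hg, h0, h1⟩ := h e x hx
  exact (not_eventually.1 h0).mp (h1.mono fun z hz hz0 => hz hz0)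

theorem Thin.frequently' {N : Set X} (h : Thin (n := n) N) (x : X) : ∃ᶠ y in 𝓝 x, y ∉ N := by
  have hx : At (chartAt (Cm n) x : Chart n X) x := ⟨chart_mem_atlas _ _, mem_chart_source _ _⟩
  have h1 := h.frequently hx
  have h2 : Tendsto (chartAt (Cm n) x : Chart n X).symm (𝓝 (chartAt (Cm n) x x)) (𝓝 x) := by
    have := (chartAt (Cm n) x : Chart n X).continuousAt_symm hx.mem_target
    rw [ContinuousAt, hx.left_inv] at this
    exact this
  exact h2.frequently h1

theorem Thin.dense_compl {N : Set X} (h : Thin (n := n) N) : Dense Nᶜ := fun x =>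
  mem_closure_iff_frequently.2 (h.frequently' x)

/-- the zero set of a nonzero tensor is thin -/
theorem thin_zero [PreconnectedSpace X] {m : ℕ} {s : Ten n p X} (hs : IsTen p m s)
    (h0 : TenNZ s) : Thin (n := n) (nzSet s)ᶜ := by
  intro e x hx
  have hd := dense_nzSet hs h0
  -- some component is not eventually zero
  obtain ⟨I, hI⟩ : ∃ I, ¬ ∀ᶠ z in 𝓝 (e x), s e z I = 0 := by
    by_contra hcon
    push Not at hcon
    have h1 : ∀ᶠ z in 𝓝 (e x), s e z = 0 := by
      filter_upwards [eventually_all.2 hcon] with z hz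
      funext I
      exact hz I
    have h2 : ∀ᶠ y in 𝓝 x, s e (e y) = 0 := (e.continuousAt hx.2).eventually h1
    obtain ⟨y, hy, hy1, hy2⟩ := ((mem_closure_iff_frequently.1 (hd x)).and_eventually
      (h2.and (e.open_source.mem_nhds hx.2))).exists
    exact (mem_nzSet hs ⟨hx.1, hy2⟩).1 hy hy1
  refine ⟨fun z => s e z I, hs.holo e x hx I, hI, ?_⟩
  filter_upwards [hx.nhds_target] with z hz hz0 hzN
  exact hzN ⟨e, At.of_target hx.1 hz, fun h => hz0 (by rw [e.right_inv hz] at h; rw [h]; rfl)⟩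

section ext

variable {N : Set X} {A : Ten n p X}

/-- local extension of the components of a tensor over a thin set -/
theorem loc_ext (hN : Thin (n := n) N)
    (hol : ∀ e x, At e x → x ∉ N → ∀ I, AnalyticAt ℂ (fun z => A e z I) (e x))
    (L2 : ∀ e x, At e x → ∀ I, ∃ r > 0, ∫⁻ z in ball (e x) r ∩ {z | e.symm z ∉ N},
      ‖A e z I‖ₑ ^ 2 ≠ ⊤) {e : Chart n X} {x : X} (hx : At e x) (I : Fin p → Fin n) :
    ∃ F : Cm n → ℂ, AnalyticAt ℂ F (e x) ∧ ∀ᶠ z in 𝓝 (e x), e.symm z ∉ N → A e z I = F z := by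
  obtain ⟨g, hg, h0, h1⟩ := hN e x hx
  obtain ⟨r₀, hr₀, hball⟩ := Metric.eventually_nhds_iff_ball.1
    (hg.eventually_analyticAt.and (h1.and (hx.nhds_target.and (eventually_frequently_ne hg h0))))
  set U := ball (e x) r₀ with hU
  obtain ⟨F, hF, hFe⟩ := Vale.Agent.P271.H408.ext_L2 (U := U) isOpen_ball (h := g)
    (f := fun z => A e z I)
    (fun z hz => (hball z hz).1.differentiableAt.differentiableWithinAt)
    (fun z hz => (hball z hz).2.2.2)
    (by
      rintro z ⟨hz, hz0⟩
      have h2 := hol e (e.symm z) (At.of_target hx.1 (hball z hz).2.2.1) ((hball z hz).2.1 hz0) I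
      rw [e.right_inv (hball z hz).2.2.1] at h2
      exact h2.differentiableAt.differentiableWithinAt)
    (by
      intro z hz
      obtain ⟨r, hr, hL⟩ := L2 e (e.symm z) (At.of_target hx.1 (hball z hz).2.2.1) I
      rw [e.right_inv (hball z hz).2.2.1] at hL
      obtain ⟨r', hr', hsub⟩ := Metric.isOpen_iff.1 (isOpen_ball (x := e x) (ε := r₀)) z hz
      refine ⟨min r r', lt_min hr hr', ne_top_of_le_ne_top hL (MeasureTheory.lintegral_mono_set ?_)⟩
      rintro w ⟨hw, hw0⟩
      have hwU : w ∈ U := hsub (ball_subset_ball (min_le_right _ _) hw)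
      exact ⟨ball_subset_ball (min_le_left _ _) hw, (hball w hwU).2.1 hw0⟩)
  have hFa : ∀ z ∈ U, AnalyticAt ℂ F z := fun z hz =>
    Vale.Agent.P268.analyticOnNhd_of_differentiableOn isOpen_ball hF z hz
  refine ⟨F, hFa _ (mem_ball_self hr₀), ?_⟩
  filter_upwards [ball_mem_nhds (e x) hr₀] with z hz hzN
  by_contra hne
  have h2 := hol e (e.symm z) (At.of_target hx.1 (hball z hz).2.2.1) hzN I
  rw [e.right_inv (hball z hz).2.2.1] at h2
  have h3 : ∀ᶠ w in 𝓝 z, A e w I ≠ F w := by
    have := (h2.continuousAt.sub (hFa z hz).continuousAt).eventually_ne (sub_ne_zero.2 hne)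
    exact this.mono fun w hw => sub_ne_zero.1 hw
  obtain ⟨w, hw0, hw1, hw2⟩ := ((hball z hz).2.2.2.and_eventually
    (h3.and (isOpen_ball.mem_nhds hz))).exists
  exact hw1 (hFe w hw2 hw0).symm

/-- **Extension of tensors** over a thin set: locally square integrable tensors extend. -/
theorem ext_ten {m : ℕ} (hN : Thin (n := n) N)
    (hol : ∀ e x, At e x → x ∉ N → ∀ I, AnalyticAt ℂ (fun z => A e z I) (e x))
    (chg : ∀ e e' x, At e x → At e' x → x ∉ N → ∀ I,
      (jacM e e' x).det ^ m * A e (e x) I = tenPull (jacM e e' x) (A e' (e' x)) I)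
    (L2 : ∀ e x, At e x → ∀ I, ∃ r > 0, ∫⁻ z in ball (e x) r ∩ {z | e.symm z ∉ N},
      ‖A e z I‖ₑ ^ 2 ≠ ⊤) :
    ∃ A' : Ten n p X, IsTen p m A' ∧ ∀ e x, At e x → x ∉ N → A' e (e x) = A e (e x) := by
  set A' : Ten n p X := fun e z I =>
    limUnder (𝓝[{w | e.symm w ∉ N}] z) (fun w => A e w I) with hA'
  -- `A'` is the local extension
  have key : ∀ (e : Chart n X) x, At e x → ∀ I (F : Cm n → ℂ), AnalyticAt ℂ F (e x) →
      (∀ᶠ z in 𝓝 (e x), e.symm z ∉ N → A e z I = F z) → ∀ᶠ z in 𝓝 (e x), A' e z I = F z := by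
    intro e x hx I F hF hFe
    filter_upwards [eventually_eventually_nhds.2 hFe, hF.eventually_analyticAt, hx.nhds_target]
      with z hz hFz hzt
    have hne : (𝓝[{w | e.symm w ∉ N}] z).NeBot := by
      rw [← mem_closure_iff_nhdsWithin_neBot, mem_closure_iff_frequently]
      have := hN.frequently (At.of_target hx.1 hzt)
      rwa [e.right_inv hzt] at this
    have h1 : Tendsto (fun w => A e w I) (𝓝[{w | e.symm w ∉ N}] z) (𝓝 (F z)) := by
      refine (hFz.continuousAt.tendsto.mono_left nhdsWithin_le_nhds).congr' ?_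
      rw [EventuallyEq, eventually_nhdsWithin_iff]
      filter_upwards [hz] with w hw hwN using (hw hwN).symm
    exact h1.limUnder_eq
  have hhol : ∀ e x, At e x → ∀ I, AnalyticAt ℂ (fun z => A' e z I) (e x) := by
    intro e x hx I
    obtain ⟨F, hF, hFe⟩ := loc_ext hN hol L2 hx I
    exact hF.congr ((key e x hx I F hF hFe).mono fun z hz => hz.symm)
  have heq : ∀ e x, At e x → x ∉ N → A' e (e x) = A e (e x) := by
    intro e x hx hxN
    funext I
    exact (key e x hx I (fun z => A e z I) (hol e x hx hxN I)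
      (Eventually.of_forall fun z _ => rfl)).self_of_nhds
  refine ⟨A', ⟨hhol, ?_⟩, heq⟩
  intro e e' x hx hx' I
  by_contra hne
  -- continuity of both sides
  have hJ : ∀ i j, ContinuousAt (fun y => jacM e e' y i j) x := by
    intro i j
    have h1 : ContinuousAt (fun y => jacM e e' (e.symm (e y)) i j) x :=
      ContinuousAt.comp (g := fun z => jacM e e' (e.symm z) i j)
        (jacM_holo hx hx' i j).continuousAt (e.continuousAt hx.2)
    refine h1.congr ?_
    filter_upwards [e.open_source.mem_nhds hx.2] with y hy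
    rw [e.left_inv hy]
  have hdet : ContinuousAt (fun y => (jacM e e' y).det) x := by
    simp only [Matrix.det_apply']
    exact tendsto_finsetSum _ fun σ _ => tendsto_const_nhds.mul
      (tendsto_finsetProd _ fun i _ => hJ _ _)
  have hA : ∀ (e₁ : Chart n X), At e₁ x → ∀ I, ContinuousAt (fun y => A' e₁ (e₁ y) I) x :=
    fun e₁ h₁ I => ContinuousAt.comp (g := fun z => A' e₁ z I) (hhol e₁ x h₁ I).continuousAt
      (e₁.continuousAt h₁.2)
  have hR : ContinuousAt (fun y => tenPull (jacM e e' y) (A' e' (e' y)) I) x := by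
    simp only [tenPull]
    exact tendsto_finsetSum _ fun K _ =>
      (tendsto_finsetProd _ fun i _ => hJ _ _).mul (hA e' hx' K)
  have h3 := (((hdet.pow m).mul (hA e hx I)).sub hR).eventually_ne (sub_ne_zero.2 hne)
  have h4 : ∀ᶠ y in 𝓝 x, y ∈ e.source := e.open_source.mem_nhds hx.2
  have h5 : ∀ᶠ y in 𝓝 x, y ∈ e'.source := e'.open_source.mem_nhds hx'.2
  obtain ⟨y, hyN, hy, hye, hye'⟩ := ((hN.frequently' x).and_eventually
    (h3.and (h4.and h5))).exists
  apply hy
  have hy1 : At e y := ⟨hx.1, hye⟩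
  have hy2 : At e' y := ⟨hx'.1, hye'⟩
  show (jacM e e' y).det ^ m * A' e (e y) I - tenPull (jacM e e' y) (A' e' (e' y)) I = 0
  rw [sub_eq_zero]
  rw [heq e y hy1 hyN, heq e' y hy2 hyN]
  exact chg e e' y hy1 hy2 hyN I

/-- bounded version -/
theorem ext_ten_bdd {m : ℕ} (hN : Thin (n := n) N)
    (hol : ∀ e x, At e x → x ∉ N → ∀ I, AnalyticAt ℂ (fun z => A e z I) (e x))
    (chg : ∀ e e' x, At e x → At e' x → x ∉ N → ∀ I,
      (jacM e e' x).det ^ m * A e (e x) I = tenPull (jacM e e' x) (A e' (e' x)) I)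
    (hb : ∀ e x, At e x → ∀ I, ∃ C : ℝ, ∀ᶠ z in 𝓝 (e x), ‖A e z I‖ ≤ C) :
    ∃ A' : Ten n p X, IsTen p m A' ∧ ∀ e x, At e x → x ∉ N → A' e (e x) = A e (e x) := by
  refine ext_ten hN hol chg fun e x hx I => ?_
  obtain ⟨C, hC⟩ := hb e x hx I
  obtain ⟨r, hr, hball⟩ := Metric.eventually_nhds_iff_ball.1 hC
  refine ⟨r, hr, ?_⟩
  have h1 : ∫⁻ z in ball (e x) r ∩ {z | e.symm z ∉ N}, ‖A e z I‖ₑ ^ 2 ≤
      ∫⁻ z in ball (e x) r, ENNReal.ofReal C ^ 2 := by
    refine le_trans (MeasureTheory.lintegral_mono_set Set.inter_subset_left) ?_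
    refine MeasureTheory.setLIntegral_mono' measurableSet_ball fun z hz => ?_
    gcongr
    rw [← ofReal_norm]
    exact ENNReal.ofReal_le_ofReal (hball z hz)
  refine ne_top_of_le_ne_top ?_ h1
  rw [MeasureTheory.setLIntegral_const]
  exact ENNReal.mul_ne_top (by simp) MeasureTheory.measure_ball_lt_top.ne

end ext

end Vale.Agent.P299.H212
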