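import Vale.Agent.P299.H212.Wedge

/-!
# Step (2): infinitely many proportional tensors
-/

open scoped Manifold ContDiff ComplexOrder Topology
open Vale.Agent.P272.K

set_option linter.unusedSectionVars false

noncomputable section

namespace Vale.Agent.P299.H212

open D

variable {n p k : ℕ} {X : Type*} [TopologicalSpace X] [ChartedSpace (Cm n) X]
  [IsManifold 𝓘(ℂ, Cm n) ω X]

/-- the tensors `u (m a)`, `a < r`, are independent at some point -/
def Indep (u : ℕ → Ten n k X) {r : ℕ} (m : Fin r → ℕ) : Prop :=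
  ∃ e x, At e x ∧ LinearIndependent ℂ fun a => u (m a) e (e x)

/-- there are `r` tensors with indices in `S`, independent at some point -/
def RankGe (u : ℕ → Ten n k X) (S : Set ℕ) (r : ℕ) : Prop :=
  ∃ m : Fin r → ℕ, (∀ a, m a ∈ S) ∧ Indep u m

variable {u : ℕ → Ten n k X}

theorem RankGe.le {S : Set ℕ} {r : ℕ} (h : RankGe u S r) : r ≤ Fintype.card (Fin k → Fin n) := by
  obtain ⟨m, -, e, x, -, hi⟩ := h
  have := hi.fintype_card_le_finrank
  simpa using this

theorem RankGe.mono {S T : Set ℕ} {r : ℕ} (hST : S ⊆ T) (h : RankGe u S r) : RankGe u T r := by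
  obtain ⟨m, hm, hi⟩ := h
  exact ⟨m, fun a => hST (hm a), hi⟩

theorem indep_iff {r : ℕ} (m : Fin r → ℕ) : Indep u m ↔ TenNZ (wedge fun a => u (m a)) := by
  constructor
  · rintro ⟨e, x, h, hi⟩
    obtain ⟨I, hI⟩ := Function.ne_iff.1 (wedge_ne_zero_iff (u := fun a => u (m a)).2 hi)
    exact ⟨e, x, I, h, hI⟩
  · rintro ⟨e, x, I, h, hI⟩
    exact ⟨e, x, h, (wedge_ne_zero_iff (u := fun a => u (m a))).1 fun h0 => hI (by rw [h0]; rfl)⟩

/-- where the wedge product does not vanish, the tensors are independent, in any chart -/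
theorem indep_of_mem {r : ℕ} (hu : ∀ m, IsTen k m (u m)) {m : Fin r → ℕ} {x : X}
    (hx : x ∈ nzSet (wedge fun a => u (m a))) {e : Chart n X} (h : At e x) :
    LinearIndependent ℂ fun a => u (m a) e (e x) :=
  (wedge_ne_zero_iff (u := fun a => u (m a))).1
    ((mem_nzSet (isTen_wedge fun a => hu (m a)) h).1 hx)

variable [PreconnectedSpace X]

/-- a point where two independent families are both independent -/
theorem exists_common {r r' : ℕ} (hu : ∀ m, IsTen k m (u m)) {m : Fin r → ℕ} {m' : Fin r' → ℕ}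
    (h : Indep u m) (h' : Indep u m') :
    ∃ e x, At e x ∧ (LinearIndependent ℂ fun a => u (m a) e (e x)) ∧
      LinearIndependent ℂ fun a => u (m' a) e (e x) := by
  have h1 := dense_nzSet (isTen_wedge fun a => hu (m a)) ((indep_iff m).1 h)
  have h2 : (nzSet (wedge fun a => u (m' a))).Nonempty := tenNZ_iff.1 ((indep_iff m').1 h')
  obtain ⟨x, hx, hx'⟩ := h1.inter_open_nonempty _
    (isOpen_nzSet (isTen_wedge fun a => hu (m' a))) h2
  have hex : At (chartAt (Cm n) x : Chart n X) x := ⟨chart_mem_atlas _ _, mem_chart_source _ _⟩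
  exact ⟨_, x, hex, indep_of_mem hu hx' hex, indep_of_mem hu hx hex⟩

/-- the selection: an infinite set of indices on which the rank is the same for all infinite
subsets -/
theorem exists_stable [Nonempty X] {S : Set ℕ} (hS : S.Infinite) (u : ℕ → Ten n k X) :
    ∃ T ⊆ S, T.Infinite ∧ ∃ r, RankGe u T r ∧ ¬ RankGe u T (r + 1) ∧
      ∀ T' ⊆ T, T'.Infinite → RankGe u T' r := by
  classical
  -- the possible maximal ranks
  let P : ℕ → Prop := fun r => ∃ T ⊆ S, T.Infinite ∧ ¬ RankGe u T (r + 1)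
  have hP : ∃ r, P r := ⟨Fintype.card (Fin k → Fin n), S, subset_rfl, hS, fun h => by
    have := h.le; omega⟩
  obtain ⟨T, hTS, hT, hr⟩ := Nat.find_spec hP
  have key : ∀ T' ⊆ T, T'.Infinite → RankGe u T' (Nat.find hP) := by
    intro T' hT' hi
    by_contra hc
    rcases Nat.eq_zero_or_pos (Nat.find hP) with h0 | h0
    · rw [h0] at hc
      apply hc
      obtain ⟨x⟩ : Nonempty X := inferInstance
      exact ⟨Fin.elim0, fun a => a.elim0, chartAt (Cm n) x, x,
        ⟨chart_mem_atlas _ _, mem_chart_source _ _⟩, linearIndependent_empty_type⟩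
    · have := Nat.find_min hP (m := Nat.find hP - 1) (by omega)
      exact this ⟨T', hT'.trans hTS, hi, by rwa [Nat.sub_add_cancel h0]⟩
  exact ⟨T, hTS, hT, Nat.find hP, key T subset_rfl hT, hr, key⟩

theorem comp_snoc (u : ℕ → Ten n k X) {r : ℕ} (μ : Fin r → ℕ) (m : ℕ) (e : Chart n X)
    (z : Cm n) : (fun a => u ((Fin.snoc μ m : Fin (r + 1) → ℕ) a) e z) =
      (Fin.snoc (fun a => u (μ a) e z) (u m e z) : Fin (r + 1) → (Fin k → Fin n) → ℂ) := by
  funext a
  refine Fin.lastCases ?_ (fun a => ?_) a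
  · simp
  · simp

/-- **Step (2)**: out of nonzero sections `u m` of `(Ω¹)^{⊗k} ⊗ (-mK)` for infinitely many `m` one
gets nonzero proportional sections of `(Ω¹)^{⊗p} ⊗ (-NK)` for infinitely many `N`. -/
theorem exists_proportional' [Nonempty X] {u : ℕ → Ten n k X} (hu : ∀ m, IsTen k m (u m))
    (hinf : {m | TenNZ (u m)}.Infinite) :
    ∃ (r N₁ : ℕ) (T : Set ℕ) (σ : ℕ → Ten n (r * k) X), T.Infinite ∧
      (∀ m ∈ T, IsTen (r * k) (N₁ + m) (σ m) ∧ TenNZ (σ m)) ∧
      ∀ m ∈ T, ∀ m' ∈ T, PropTo (σ m) (σ m') := by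
  obtain ⟨T, hTS, hT, r, hr, hr', hst⟩ := exists_stable hinf u
  -- `r ≥ 1`
  obtain ⟨r, rfl⟩ : ∃ r', r = r' + 1 := by
    refine ⟨r - 1, ?_⟩
    rcases Nat.eq_zero_or_pos r with h0 | h0
    · exfalso
      subst h0
      apply hr'
      obtain ⟨m, hm⟩ := hT.nonempty
      obtain ⟨e, x, I, h, hI⟩ : TenNZ (u m) := hTS hm
      refine ⟨fun _ => m, fun _ => hm, e, x, h, ?_⟩
      rw [linearIndependent_iff_minor]
      refine ⟨fun _ => I, ?_⟩
      simpa [Matrix.det_unique] using hI
    · omega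
  obtain ⟨m₀, hm₀, hi₀⟩ := hr
  set μ : Fin r → ℕ := Fin.init m₀ with hμ
  have hμT : ∀ a, μ a ∈ T := fun a => hm₀ _
  have hμi : Indep u μ := by
    obtain ⟨e, x, h, hi⟩ := hi₀
    exact ⟨e, x, h, hi.comp Fin.castSucc (Fin.castSucc_injective r)⟩
  set T' : Set ℕ := {m ∈ T | Indep u (Fin.snoc μ m : Fin (r + 1) → ℕ)} with hT'
  have hT'i : T'.Infinite := by
    by_contra hfin
    rw [Set.not_infinite] at hfin
    have h1 : (T \ T').Infinite := hT.sdiff hfin
    obtain ⟨m', hm', hi'⟩ := hst _ Set.sdiff_subset h1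
    obtain ⟨e, x, h, ha, hb⟩ := exists_common hu hμi hi'
    -- all `u (m' a)` lie in the span of the `u (μ a)`
    have hspan : ∀ a, u (m' a) e (e x) ∈
        Submodule.span ℂ (Set.range fun a => u (μ a) e (e x)) := by
      intro a
      by_contra hc
      apply (hm' a).2
      refine ⟨(hm' a).1, e, x, h, ?_⟩
      rw [comp_snoc, linearIndependent_finSnoc]
      exact ⟨ha, hc⟩
    have h2 : Submodule.span ℂ (Set.range fun a => u (m' a) e (e x)) ≤
        Submodule.span ℂ (Set.range fun a => u (μ a) e (e x)) := by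
      rw [Submodule.span_le]
      rintro _ ⟨a, rfl⟩
      exact hspan a
    have h3 := Submodule.finrank_mono h2
    rw [finrank_span_eq_card ha, finrank_span_eq_card hb, Fintype.card_fin, Fintype.card_fin] at h3
    omega
  let σ : ℕ → Ten n ((r + 1) * k) X := fun m => wedge fun a =>
    u ((Fin.snoc μ m : Fin (r + 1) → ℕ) a)
  refine ⟨r + 1, ∑ a, μ a, T', σ, hT'i, fun m hm => ⟨?_, (indep_iff _).1 hm.2⟩, ?_⟩
  · have := isTen_wedge (u := fun a => u ((Fin.snoc μ m : Fin (r + 1) → ℕ) a))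
      (m := (Fin.snoc μ m : Fin (r + 1) → ℕ)) fun a => hu _
    rwa [Fin.sum_snoc] at this
  · intro m hm m' hm'
    have hsm : ∀ m, IsTen ((r + 1) * k) (∑ a, (Fin.snoc μ m : Fin (r + 1) → ℕ) a) (σ m) :=
      fun m => isTen_wedge fun a => hu _
    refine propTo_of_dense (hsm m) (hsm m') (dense_nzSet (hsm m) ((indep_iff _).1 hm.2)) ?_
    intro e x h hx
    have hind : LinearIndependent ℂ
        (Fin.snoc (fun a => u (μ a) e (e x)) (u m e (e x)) : Fin (r + 1) → (Fin k → Fin n) → ℂ) := by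
      have := indep_of_mem hu hx h
      rwa [comp_snoc] at this
    have hmem : u m' e (e x) ∈ Submodule.span ℂ (Set.range
        (Fin.snoc (fun a => u (μ a) e (e x)) (u m e (e x)) :
          Fin (r + 1) → (Fin k → Fin n) → ℂ)) := by
      by_contra hc
      apply hr'
      refine ⟨Fin.snoc (Fin.snoc μ m : Fin (r + 1) → ℕ) m', ?_, e, x, h, ?_⟩
      · intro a
        refine Fin.lastCases ?_ (fun a => ?_) a
        · rw [Fin.snoc_last]; exact hm'.1
        · rw [Fin.snoc_castSucc]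
          refine Fin.lastCases ?_ (fun a => ?_) a
          · rw [Fin.snoc_last]; exact hm.1
          · rw [Fin.snoc_castSucc]; exact hμT a
      · rw [comp_snoc, linearIndependent_finSnoc, comp_snoc]
        exact ⟨hind, hc⟩
    obtain ⟨c, hc⟩ := wedge_snoc_of_mem hmem
    have hc' : ∀ I, σ m' e (e x) I = c * σ m e (e x) I := by
      intro I
      have h1 := hc (blk I)
      rw [← comp_snoc, ← comp_snoc] at h1
      exact h1
    intro I J
    rw [hc', hc']
    ring

/-- **Step (2)** in the form in which `TensorStatement` provides the sections -/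
theorem exists_proportional [Nonempty X] (k : ℕ)
    (h : ∀ m₀ : ℕ, ∃ m : ℕ, m₀ ≤ m ∧ ∃ s : Ten n k X, IsTen k m s ∧ TenNZ s) :
    ∃ (p N₁ : ℕ) (T : Set ℕ) (σ : ℕ → Ten n p X), T.Infinite ∧
      (∀ m ∈ T, IsTen p (N₁ + m) (σ m) ∧ TenNZ (σ m)) ∧
      ∀ m ∈ T, ∀ m' ∈ T, PropTo (σ m) (σ m') := by
  classical
  let u : ℕ → Ten n k X := fun m =>
    if h : ∃ s : Ten n k X, IsTen k m s ∧ TenNZ s then h.choose else fun _ _ _ => 0
  have hu : ∀ m, IsTen k m (u m) := by
    intro m
    by_cases hm : ∃ s : Ten n k X, IsTen k m s ∧ TenNZ s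
    · simp only [u, dif_pos hm]
      exact hm.choose_spec.1
    · simp only [u, dif_neg hm]
      refine ⟨fun e x _ I => analyticAt_const, fun e e' x _ _ I => ?_⟩
      simp [tenPull]
  have hinf : {m | TenNZ (u m)}.Infinite := by
    rw [Set.infinite_iff_exists_gt]
    intro a
    obtain ⟨m, hm, hs⟩ := h (a + 1)
    refine ⟨m, ?_, by omega⟩
    show TenNZ (u m)
    simp only [u, dif_pos hs]
    exact hs.choose_spec.2
  obtain ⟨r, N₁, T, σ, hT⟩ := exists_proportional' hu hinf
  exact ⟨r * k, N₁, T, σ, hT⟩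

end Vale.Agent.P299.H212
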