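import Vale.Agent.P299.H212.Closed
import Vale.Agent.P299.H212.Select
import Mathlib.RingTheory.Int.Basic
import Mathlib.Algebra.EuclideanDomain.Int
import Mathlib.RingTheory.PrincipalIdealDomain
import Mathlib.GroupTheory.Archimedean
import Mathlib.Algebra.Order.Archimedean.Basic

/-!
# Step (4'): the group trick for quotients of tensors
-/

open scoped Manifold ContDiff ComplexOrder Topology ENNReal
open Vale.Agent.P272.K Filter Metric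

set_option linter.unusedSectionVars false
set_option linter.unusedVariables false

noncomputable section

namespace Vale.Agent.P299.H212

open D

section abstract_

variable {L : Type*} [Field L] {P : ℤ → L → Prop}

theorem P_pow (one : P 0 1) (mul : ∀ b c f g, P b f → P c g → P (b + c) (f * g)) {b : ℤ} {f : L}
    (h : P b f) (k : ℕ) : P (k * b) (f ^ k) := by
  induction k with
  | zero => simpa using one
  | succ k ih =>
    rw [pow_succ]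
    have := mul _ _ _ _ ih h
    have h2 : ((k + 1 : ℕ) : ℤ) * b = k * b + b := by push_cast; ring
    rwa [h2]

theorem P_zpow (one : P 0 1) (mul : ∀ b c f g, P b f → P c g → P (b + c) (f * g))
    (inv : ∀ b f, f ≠ 0 → P b f → P (-b) f⁻¹) {b : ℤ} {f : L} (hf : f ≠ 0)
    (h : P b f) (k : ℤ) : P (k * b) (f ^ k) := by
  rcases k with k | k
  · simpa using P_pow one mul h k
  · rw [zpow_negSucc]
    have := inv _ _ (pow_ne_zero _ hf) (P_pow one mul h (k + 1))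
    rwa [show -(((k + 1 : ℕ) : ℤ) * b) = Int.negSucc k * b by
      rw [Int.negSucc_eq]; push_cast; ring] at this

/-- **The group trick**, abstract form -/
theorem group_trick (one : P 0 1) (mul : ∀ b c f g, P b f → P c g → P (b + c) (f * g))
    (inv : ∀ b f, f ≠ 0 → P b f → P (-b) f⁻¹) {b₀ : ℤ} (hb₀ : b₀ ≠ 0) {f₀ : L} (hf₀ : f₀ ≠ 0)
    (hF : P b₀ f₀) :
    ∃ (b₁ : ℕ) (s : L), 0 < b₁ ∧ s ≠ 0 ∧ P b₁ s ∧
      ∀ (b : ℤ) (f : L), f ≠ 0 → P b f →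
        ∃ (j : ℤ) (g : L), b = j * b₁ ∧ P 0 g ∧ g ≠ 0 ∧ f = s ^ j * g := by
  let G : AddSubgroup ℤ :=
    { carrier := {b | ∃ f : L, f ≠ 0 ∧ P b f}
      add_mem' := fun ⟨f, hf, h⟩ ⟨g, hg, h'⟩ => ⟨f * g, mul_ne_zero hf hg, mul _ _ _ _ h h'⟩
      zero_mem' := ⟨1, one_ne_zero, one⟩
      neg_mem' := fun ⟨f, hf, h⟩ => ⟨f⁻¹, inv_ne_zero hf, inv _ _ hf h⟩ }
  obtain ⟨a, ha⟩ := Int.subgroup_cyclic G
  have hmem : ∀ b : ℤ, b ∈ G ↔ ∃ j : ℤ, b = j * a := by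
    intro b
    rw [ha, AddSubgroup.mem_closure_singleton]
    simp only [smul_eq_mul, eq_comm]
  have ha0 : a ≠ 0 := by
    rintro rfl
    obtain ⟨j, hj⟩ := (hmem b₀).1 ⟨f₀, hf₀, hF⟩
    exact hb₀ (by simpa using hj)
  have hab : ((a.natAbs : ℕ) : ℤ) ∈ G := by
    rw [hmem]
    rcases Int.natAbs_eq a with h | h
    · exact ⟨1, by rw [one_mul]; exact h.symm⟩
    · exact ⟨-1, by omega⟩
  obtain ⟨s, hs, hsF⟩ := hab
  refine ⟨a.natAbs, s, Int.natAbs_pos.2 ha0, hs, hsF, fun b f hf hb => ?_⟩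
  obtain ⟨j, hj⟩ := (hmem b).1 ⟨f, hf, hb⟩
  obtain ⟨j', hj'⟩ : ∃ j' : ℤ, b = j' * (a.natAbs : ℤ) := by
    rcases Int.natAbs_eq a with h | h
    · exact ⟨j, by rw [hj, ← h]⟩
    · refine ⟨-j, ?_⟩
      rw [hj]
      have : (a.natAbs : ℤ) = -a := by omega
      rw [this]; ring
  have hsj : s ^ j' ≠ 0 := zpow_ne_zero _ hs
  refine ⟨j', f / s ^ j', hj', ?_, div_ne_zero hf hsj, ?_⟩
  · rw [div_eq_mul_inv]
    have := mul _ _ _ _ hb (inv _ _ hsj (P_zpow one mul inv hs hsF j'))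
    rwa [hj', add_neg_cancel] at this
  · rw [mul_div_cancel₀ _ hsj]

end abstract_

/-- Components of tensors, in a meromorphic frame, as elements of the field of meromorphic
functions. -/
structure CompData (n : ℕ) (X : Type*) [TopologicalSpace X] [ChartedSpace (Cm n) X]
    (L : Type*) [Field L] where
  comp : ∀ {k : ℕ}, ℕ → Ten n k X → (Fin k → Fin n) → L
  comp_one : comp (k := 0) 0 (fun _ _ _ => 1) = fun _ => 1
  comp_tmul : ∀ {k k' m m' : ℕ} {s : Ten n k X} {t : Ten n k' X}, IsTen k m s → IsTen k' m' t →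
    ∀ I J, comp (m + m') (tmul s t) (Fin.append I J) = comp m s I * comp m' t J
  comp_ne : ∀ {k m : ℕ} {s : Ten n k X}, IsTen k m s → TenNZ s → ∃ I, comp m s I ≠ 0
  ne_comp : ∀ {k m : ℕ} {s : Ten n k X}, IsTen k m s → (∃ I, comp m s I ≠ 0) → TenNZ s
  comp_prop : ∀ {k m m' : ℕ} {s t : Ten n k X}, IsTen k m s → IsTen k m' t → PropTo s t →
    ∀ I J, comp m s I * comp m' t J = comp m s J * comp m' t I

namespace CompData

variable {n : ℕ} {X : Type*} [TopologicalSpace X] [ChartedSpace (Cm n) X]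
  [IsManifold 𝓘(ℂ, Cm n) ω X] [ConnectedSpace X] {L : Type*} [Field L] (C : CompData n X L)

/-- `f` is the quotient of a tensor of type `(k, m + b)` by one of type `(k, m)` -/
def Lb (b : ℤ) (f : L) : Prop :=
  ∃ (k m m' : ℕ) (u₀ u : Ten n k X), (m' : ℤ) = m + b ∧ IsTen k m u₀ ∧ IsTen k m' u ∧
    TenNZ u₀ ∧ ∀ I, C.comp m' u I = f * C.comp m u₀ I

variable {C}

theorem Lb.mul {b c : ℤ} {f g : L} (hf : C.Lb b f) (hg : C.Lb c g) : C.Lb (b + c) (f * g) := by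
  obtain ⟨k, m, m', u₀, u, hm, h₀, h, hz, hu⟩ := hf
  obtain ⟨k₁, m₁, m₁', t₀, t, hm₁, h₁₀, h₁, hz₁, ht⟩ := hg
  refine ⟨k + k₁, m + m₁, m' + m₁', tmul u₀ t₀, tmul u t, ?_, isTen_tmul h₀ h₁₀,
    isTen_tmul h h₁, tenNZ_tmul h₀ h₁₀ hz hz₁, fun I => ?_⟩
  · push_cast
    rw [hm, hm₁]
    ring
  · have h1 : I = Fin.append (fun i => I (Fin.castAdd k₁ i)) (fun j => I (Fin.natAdd k j)) := by
      exact (Fin.append_castAdd_natAdd (f := I)).symm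
    rw [h1, C.comp_tmul h h₁, C.comp_tmul h₀ h₁₀, hu, ht]
    ring

variable (C) in
theorem Lb_one : C.Lb 0 1 := by
  obtain ⟨x⟩ : Nonempty X := inferInstance
  exact ⟨0, 0, 0, fun _ _ _ => 1, fun _ _ _ => 1, by simp, isTen_one, isTen_one,
    ⟨chartAt (Cm n) x, x, Fin.elim0, ⟨chart_mem_atlas _ _, mem_chart_source _ _⟩, one_ne_zero⟩,
    fun I => (one_mul _).symm⟩

theorem Lb.inv {b : ℤ} {f : L} (hf0 : f ≠ 0) (hf : C.Lb b f) : C.Lb (-b) f⁻¹ := by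
  obtain ⟨k, m, m', u₀, u, hm, h₀, h, hz, hu⟩ := hf
  refine ⟨k, m', m, u, u₀, ?_, h, h₀, C.ne_comp h ?_, fun I => ?_⟩
  · rw [hm]
    ring
  · obtain ⟨I, hI⟩ := C.comp_ne h₀ hz
    exact ⟨I, by rw [hu]; exact mul_ne_zero hf0 hI⟩
  · rw [hu, inv_mul_cancel_left₀ hf0]

/-- the quotient of two proportional tensors -/
theorem exists_quotient {k m m' : ℕ} {s t : Ten n k X} (hs : IsTen k m s) (ht : IsTen k m' t)
    (hs0 : TenNZ s) (ht0 : TenNZ t) (h : PropTo s t) :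
    ∃ f : L, f ≠ 0 ∧ (∀ I, C.comp m' t I = f * C.comp m s I) ∧ C.Lb ((m' : ℤ) - m) f := by
  obtain ⟨I, hI⟩ := C.comp_ne hs hs0
  obtain ⟨J, hJ⟩ := C.comp_ne ht ht0
  have hp := C.comp_prop hs ht h
  have hJI : C.comp m' t I ≠ 0 := by
    intro h0
    have := hp I J
    rw [h0, mul_zero] at this
    exact mul_ne_zero hI hJ this
  have key : ∀ K, C.comp m' t K = C.comp m' t I / C.comp m s I * C.comp m s K := by
    intro K
    have := hp I K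
    field_simp
    linear_combination this
  exact ⟨C.comp m' t I / C.comp m s I, div_ne_zero hJI hI, key, k, m, m', s, t, by ring, hs, ht,
    hs0, key⟩

/-- **Step (4')**: `b₁ > 0`, `s` of degree `b₁`, `K'`-multiples of the powers of `s`, and the
tensors `σ_N = s^j g_N σ_{N₀}` for infinitely many `j`. -/
theorem exists_s (C : CompData n X L) (k : ℕ)
    (h : ∀ m₀ : ℕ, ∃ m : ℕ, m₀ ≤ m ∧ ∃ s : Ten n k X, IsTen k m s ∧ TenNZ s) :
    ∃ (b₁ : ℕ) (s : L), 0 < b₁ ∧ s ≠ 0 ∧ C.Lb b₁ s ∧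
      (∀ (b : ℤ) (f : L), f ≠ 0 → C.Lb b f →
        ∃ (j : ℤ) (g : L), b = j * b₁ ∧ C.Lb 0 g ∧ g ≠ 0 ∧ f = s ^ j * g) ∧
      ∃ (p N₀ : ℕ) (σ₀ : Ten n p X), IsTen p N₀ σ₀ ∧ TenNZ σ₀ ∧ ∀ j₀ : ℕ, ∃ j ≥ j₀,
        ∃ (σ : Ten n p X) (g : L), IsTen p (N₀ + j * b₁) σ ∧ TenNZ σ ∧ C.Lb 0 g ∧ g ≠ 0 ∧
          ∀ I, C.comp (N₀ + j * b₁) σ I = s ^ j * g * C.comp N₀ σ₀ I := by
  obtain ⟨p, N₁, T, σ, hT, hσ, hp⟩ := exists_proportional k h
  obtain ⟨m₁, hm₁⟩ := hT.nonempty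
  -- a second index
  obtain ⟨m₂, hm₂, hlt⟩ := hT.exists_gt m₁
  obtain ⟨f₀, hf₀, -, hL₀⟩ := exists_quotient (C := C) (hσ m₁ hm₁).1 (hσ m₂ hm₂).1
    (hσ m₁ hm₁).2 (hσ m₂ hm₂).2 (hp m₁ hm₁ m₂ hm₂)
  obtain ⟨b₁, s, hb₁, hs, hsL, hgen⟩ := group_trick (P := C.Lb) (Lb_one C)
    (fun b c f g hf hg => hf.mul hg) (fun b f hf0 hf => hf.inv hf0) (b₀ := _) (by
      push_cast
      omega) hf₀ hL₀
  refine ⟨b₁, s, hb₁, hs, hsL, hgen, p, N₁ + m₁, σ m₁, (hσ m₁ hm₁).1, (hσ m₁ hm₁).2, ?_⟩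
  intro j₀
  obtain ⟨m, hm, hmgt⟩ := hT.exists_gt (m₁ + j₀ * b₁)
  obtain ⟨f, hf, hfc, hL⟩ := exists_quotient (C := C) (hσ m₁ hm₁).1 (hσ m hm).1
    (hσ m₁ hm₁).2 (hσ m hm).2 (hp m₁ hm₁ m hm)
  obtain ⟨j, g, hj, hg, hg0, hfs⟩ := hgen _ f hf hL
  push_cast at hj
  have hj' : (m : ℤ) - m₁ = j * b₁ := by
    rw [← hj]; ring
  have hb₁' : (0 : ℤ) < b₁ := by exact_mod_cast hb₁
  have hjge : (j₀ : ℤ) ≤ j := by
    by_contra hlt
    push Not at hlt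
    have h1 : j * b₁ < j₀ * b₁ := mul_lt_mul_of_pos_right hlt hb₁'
    have h2 : ((m₁ + j₀ * b₁ : ℕ) : ℤ) < m := by exact_mod_cast hmgt
    push_cast at h2
    omega
  obtain ⟨i, rfl⟩ : ∃ i : ℕ, j = i := ⟨j.toNat, by omega⟩
  have hm' : N₁ + m = N₁ + m₁ + i * b₁ := by
    have : ((N₁ + m : ℕ) : ℤ) = ((N₁ + m₁ + i * b₁ : ℕ) : ℤ) := by
      push_cast
      omega
    exact_mod_cast this
  refine ⟨i, by omega, σ m, g, ?_, (hσ m hm).2, hg, hg0, fun I => ?_⟩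
  · rw [← hm']
    exact (hσ m hm).1
  · rw [← hm', hfc, hfs, zpow_natCast]

end CompData

end Vale.Agent.P299.H212
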