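import Vale.Agent.P299.H212.Main51

/-!
# P299 / H212: adapters: rationality of quotients of proportional tensors, generation by the
affine coordinates
-/

set_option linter.all false

open scoped Manifold ContDiff Topology
open Filter Set
open Vale.Agent.P272.K (Cm Chart At jacM jmat dz IsCanonicalMetric)
open Vale.Agent.P299.H908 Vale.Agent.P299.H223 Vale.Agent.P299.H216 Vale.Agent.P299.D
open Vale.Agent.P299.H908.ProjData
open Vale.Agent.P300.L2 (Sheets)
open Vale.Agent.P282.L2 (Pol Prim IsPartials)
open Vale.Agent.P299.H340 (Mod)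

noncomputable section

namespace Vale.Agent.P299.H212

variable {n : ℕ} {X : Type} [TopologicalSpace X] [ChartedSpace (Cm n) X] [ConnectedSpace X]
  {D : ProjData n X}

/-- every element of the function field is algebraic (even fractional) over an algebra containing
the affine coordinates -/
theorem isAlgebraic_adjoin {T : Set D.K} (hT : ∀ i, D.xiK i ∈ T) (x : D.K) :
    IsAlgebraic (Algebra.adjoin ℂ T) x := by
  have h1 : ∀ a : D.R, algebraMap D.R D.K a ∈ Algebra.adjoin ℂ T := by
    intro a
    obtain ⟨P, hP⟩ := (D.mem_R_iff a.1).1 a.2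
    have hf : a = MvPolynomial.aeval D.xiR P := by
      apply Subtype.ext
      funext x
      have h2 : ∀ P : MvPolynomial (Fin (D.N + 1)) ℂ, (MvPolynomial.aeval D.xiR P : D.R).1 x =
          MvPolynomial.eval (fun i => D.xi i x) P := by
        intro P
        induction P using MvPolynomial.induction_on with
        | C a => simp
        | add p q hp hq =>
          rw [map_add, map_add, ← hp, ← hq]
          rfl
        | mul_X p i hp =>
          rw [map_mul, map_mul, MvPolynomial.aeval_X, MvPolynomial.eval_X, ← hp]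
          rfl
      rw [h2, hP]
    rw [hf]
    clear hf hP
    induction P using MvPolynomial.induction_on with
    | C a =>
      have : algebraMap D.R D.K (MvPolynomial.aeval D.xiR (MvPolynomial.C a)) =
          algebraMap ℂ D.K a := by
        rw [IsScalarTower.algebraMap_apply ℂ D.R D.K, MvPolynomial.aeval_C]
      rw [this]
      exact Subalgebra.algebraMap_mem _ _
    | add p q hp hq => rw [map_add, map_add]; exact add_mem hp hq
    | mul_X p i hp =>
      rw [map_mul, map_mul, MvPolynomial.aeval_X]
      exact mul_mem hp (Algebra.subset_adjoin (hT i))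
  obtain ⟨a, c, hc, rfl⟩ := IsFractionRing.div_surjective (A := D.R) x
  have hc0 : algebraMap D.R D.K c ≠ 0 := by
    rw [ne_eq, FaithfulSMul.algebraMap_eq_zero_iff]
    exact nonZeroDivisors.ne_zero hc
  refine ⟨Polynomial.C (⟨_, h1 c⟩ : Algebra.adjoin ℂ T) * Polynomial.X -
    Polynomial.C (⟨_, h1 a⟩ : Algebra.adjoin ℂ T), ?_, ?_⟩
  · intro h0
    have h2 := congrArg (fun p => Polynomial.coeff p 1) h0
    simp only [Polynomial.coeff_sub, Polynomial.coeff_C_mul, Polynomial.coeff_X_one, mul_one,
      Polynomial.coeff_C_succ, sub_zero, Polynomial.coeff_zero] at h2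
    exact hc0 (congrArg Subtype.val h2)
  · simp only [map_sub, map_mul, Polynomial.aeval_C, Polynomial.aeval_X]
    show algebraMap D.R D.K c * (algebraMap D.R D.K a / algebraMap D.R D.K c) -
      algebraMap D.R D.K a = 0
    rw [mul_div_cancel₀ _ hc0, sub_self]

variable [Algebra (Pol n) D.K] [IsScalarTower ℂ (Pol n) D.K] [FaithfulSMul (Pol n) D.K]
  [IsManifold 𝓘(ℂ, Cm n) ω X] [CompactSpace X]
  [Algebra (FractionRing (Pol n)) D.K] [IsScalarTower (Pol n) (FractionRing (Pol n)) D.K]
  [FiniteDimensional (FractionRing (Pol n)) D.K]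

/-- a relation between the components is a relation between the tensors -/
theorem trel_of_comp (hex : ∃ (A : Mod n D.K) (B : Brg A.S X), Cmp A B) {k m : ℕ}
    {u₀ u : Ten n k X} (h₀ : IsTen k m u₀) (h : IsTen k m u) {f : D.K}
    (hu : ∀ I, compK (D := D) m u I = f * compK m u₀ I) : TRel D.fm f u₀ u := by
  have h1 : ∀ᶠ x in genF n X, ∀ I, (D.RegAt (compK (D := D) m u I) x ∧ ∀ e : Chart n X,
      At e x → D.val (compK (D := D) m u I) x = (Jz D e x).det ^ m *
        tenPull (Jz D e x)⁻¹ (u e (e x)) I) :=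
    eventually_all.2 fun I => isComp_compK hex h I
  have h2 : ∀ᶠ x in genF n X, ∀ I, (D.RegAt (compK (D := D) m u₀ I) x ∧ ∀ e : Chart n X,
      At e x → D.val (compK (D := D) m u₀ I) x = (Jz D e x).det ^ m *
        tenPull (Jz D e x)⁻¹ (u₀ e (e x)) I) :=
    eventually_all.2 fun I => isComp_compK hex h₀ I
  filter_upwards [h1, h2, D.genF_regAt f, genF_Jz_det hex] with x h3 h4 h5 h6
  refine ⟨D.val f x, h5.fm, fun e he I => ?_⟩
  have h7 := h6 e he
  have h8 : tenPull (Jz D e x)⁻¹ (u e (e x)) =
      tenPull (Jz D e x)⁻¹ (fun K => D.val f x * u₀ e (e x) K) := by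
    rw [tenPull_smul']
    funext K
    have h9 := (h3 K).2 e he
    have h10 := (h4 K).2 e he
    rw [hu K, (h5.mul (h4 K).1).2, h10] at h9
    have h12 : (Jz D e x).det ^ m ≠ 0 := pow_ne_zero _ h7
    apply mul_left_cancel₀ h12
    linear_combination -h9
  have h13 : (Jz D e x)⁻¹.det ≠ 0 := by
    rw [Matrix.det_nonsing_inv, Ring.inverse_eq_inv']
    exact inv_ne_zero h7
  exact congrFun (tenPull_inj h13 h8) I

/-- the quotient of proportional tensors is a rational function -/
theorem exists_trel (hex : ∃ (A : Mod n D.K) (B : Brg A.S X), Cmp A B) {k m : ℕ}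
    {u₀ u : Ten n k X} (h₀ : IsTen k m u₀) (h : IsTen k m u) (hz₀ : TenNZ u₀) (hz : TenNZ u)
    (hp : PropTo u₀ u) : ∃ f : D.K, TRel D.fm f u₀ u := by
  obtain ⟨f, -, hf, -⟩ := CompData.exists_quotient (C := compData hex) h₀ h hz₀ hz hp
  exact ⟨f, trel_of_comp hex h₀ h hf⟩

end Vale.Agent.P299.H212
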