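import Vale.Agent.P299.H212.Adapt
import Vale.Agent.P299.H882.End0Kp
import Vale.Agent.P299.H908.Tr
import Vale.Agent.P299.H908.DenEx

/-!
# P299 / H212: the case `K' = ℂ`
-/

set_option linter.all false

open scoped Manifold ContDiff Topology
open Filter Set
open Vale.Agent.P272.K (Cm Chart At jacM jmat dz IsCanonicalMetric)
open Vale.Agent.P299.H908 Vale.Agent.P299.H223 Vale.Agent.P299.H216 Vale.Agent.P299.D
open Vale.Agent.P299.H908.ProjData
open Vale.Agent.P300.L2 (Sheets)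
open Vale.Agent.P282.L2 (Pol Prim IsPartials)
open Vale.Agent.P299.H340 (Mod)

noncomputable section

namespace Vale.Agent.P299.H212

variable {n : ℕ} {X : Type} [TopologicalSpace X] [ChartedSpace (Cm n) X] [ConnectedSpace X]
  {D : ProjData n X}

section
variable [Algebra (Pol n) D.K] [IsScalarTower ℂ (Pol n) D.K] [FaithfulSMul (Pol n) D.K]
  [IsManifold 𝓘(ℂ, Cm n) ω X] [CompactSpace X]
  [Algebra (FractionRing (Pol n)) D.K] [IsScalarTower (Pol n) (FractionRing (Pol n)) D.K]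
  [FiniteDimensional (FractionRing (Pol n)) D.K]

/-- models with a common denominator exist -/
theorem exists_hex (D : ProjData n X) [Algebra (Pol n) D.K] [IsScalarTower ℂ (Pol n) D.K]
    [FaithfulSMul (Pol n) D.K] [Algebra (FractionRing (Pol n)) D.K]
    [IsScalarTower (Pol n) (FractionRing (Pol n)) D.K]
    [FiniteDimensional (FractionRing (Pol n)) D.K] :
    ∃ (A : Mod n D.K) (B : Brg A.S X), Cmp A B := by
  obtain ⟨A⟩ := Vale.Agent.P299.H340.exists_mod n D.K
  obtain ⟨c, hc, h⟩ := D.exists_den A.E 1 one_ne_zero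
  obtain ⟨B, -⟩ := h (A.loc c hc).E rfl (Dvd.intro_left _ rfl)
  exact ⟨A.loc c hc, B.brg, cmp_brg B⟩

end

/-- **the branch `K' = ℂ`** -/
theorem bot_branch (D : ProjData n X) [CompactSpace X] [IsManifold 𝓘(ℂ, Cm n) ω X]
    (hK : kp D.K D.fm = ⊥) (k : ℕ)
    (hinf : ∀ m₀ : ℕ, ∃ m : ℕ, m₀ ≤ m ∧ ∃ s : Ten n k X, IsTen k m s ∧ TenNZ s) :
    ∃ m : ℕ, 0 < m ∧ ∃ s : Ten n 0 X, IsTen 0 m s ∧ TenNZ s := by
  obtain ⟨z, ι, hz, -, -⟩ := D.exists_extend (k := 0) (z' := fun i => i.elim0)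
    (algebraicIndependent_empty_type_iff.2 (algebraMap ℂ D.K).injective)
  obtain ⟨i1, i2, i3, i4, i5, i6, -⟩ := D.exists_instances hz
  have hex := exists_hex D
  refine Vale.Agent.P299.H882.end0_kp (L := D.K) (F := D.fm) k hinf
    (fun k m u₀ u h₀ h₁ hz₀ hz₁ hp => exists_trel hex h₀ h₁ hz₀ hz₁ hp) ?_
  intro f hf
  rw [hK, IntermediateField.mem_bot] at hf
  obtain ⟨c, rfl⟩ := hf
  exact isAlgebraic_algebraMap c

end Vale.Agent.P299.H212
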