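import Vale.Agent.P299.H212.FM

/-!
# `K'` is algebraically closed in the field of meromorphic functions
-/

open scoped Manifold ContDiff ComplexOrder Topology ENNReal
open Vale.Agent.P272.K Filter Metric

set_option linter.unusedSectionVars false
set_option linter.unusedVariables false

noncomputable section

namespace Vale.Agent.P299.H212

open D

/-- the root bound -/
theorem norm_root_le {d : ℕ} {v : ℂ} {c : ℕ → ℂ} (hd : 0 < d)
    (h : v ^ d + ∑ i ∈ Finset.range d, c i * v ^ i = 0) :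
    ‖v‖ ≤ 1 + ∑ i ∈ Finset.range d, ‖c i‖ := by
  have hS : 0 ≤ ∑ i ∈ Finset.range d, ‖c i‖ := Finset.sum_nonneg fun _ _ => norm_nonneg _
  rcases le_or_gt ‖v‖ 1 with h1 | h1
  · linarith
  have h2 : v ^ d = -∑ i ∈ Finset.range d, c i * v ^ i := eq_neg_of_add_eq_zero_left h
  have h3 : ‖v‖ ^ d ≤ (∑ i ∈ Finset.range d, ‖c i‖) * ‖v‖ ^ (d - 1) := by
    rw [← norm_pow, h2, norm_neg, Finset.sum_mul]
    refine (norm_sum_le _ _).trans (Finset.sum_le_sum fun i hi => ?_)
    rw [norm_mul, norm_pow]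
    have : i ≤ d - 1 := by
      have := Finset.mem_range.1 hi
      omega
    gcongr
    exact h1.le
  have h4 : ‖v‖ ^ d = ‖v‖ * ‖v‖ ^ (d - 1) := by
    rw [← pow_succ']
    congr 1
    omega
  rw [h4] at h3
  have h5 : 0 < ‖v‖ ^ (d - 1) := pow_pos (by linarith) _
  have := le_of_mul_le_mul_right h3 h5
  linarith

variable {n : ℕ} {X : Type*} [TopologicalSpace X] [ChartedSpace (Cm n) X]
  [IsManifold 𝓘(ℂ, Cm n) ω X] [ConnectedSpace X]
variable {R L : Type*} [CommRing R] [IsDomain R] [Algebra ℂ R]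
  [Field L] [Algebra R L] [IsFractionRing R L] [Algebra ℂ L] [IsScalarTower ℂ R L]
  {F : FM n X R} {x : X} {f g : L} {v w : ℂ}

/-- common denominators -/
theorem exists_common_den (c : ℕ → L) (hc : ∀ i, InKp F (c i)) (d : ℕ) :
    ∃ (k m : ℕ) (u₀ : Ten n k X) (u : ℕ → Ten n k X), IsTen k m u₀ ∧ TenNZ u₀ ∧
      ∀ i < d, IsTen k m (u i) ∧ TRel F (c i) u₀ (u i) := by
  induction d with
  | zero =>
    obtain ⟨x⟩ : Nonempty X := inferInstance
    exact ⟨0, 0, fun _ _ _ => 1, fun _ _ _ _ => 1, isTen_one,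
      ⟨chartAt (Cm n) x, x, Fin.elim0, ⟨chart_mem_atlas _ _, mem_chart_source _ _⟩, one_ne_zero⟩,
      fun i hi => absurd hi (Nat.not_lt_zero i)⟩
  | succ d ih =>
    obtain ⟨k, m, u₀, u, h₀, hz, hu⟩ := ih
    obtain ⟨k', m', t₀, t, h₀', h₁', hz', h'⟩ := hc d
    have hone : ∀ {k : ℕ} (s : Ten n k X), TRel F (1 : L) s s := fun s => by
      filter_upwards [genF_Xa F] with x hx
      exact ⟨1, regAt_one hx, fun e _ I => (one_mul _).symm⟩
    classical
    refine ⟨k + k', m + m', tmul u₀ t₀, fun i => if i < d then tmul (u i) t₀ else tmul u₀ t,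
      isTen_tmul h₀ h₀', tenNZ_tmul h₀ h₀' hz hz', fun i hi => ?_⟩
    by_cases hid : i < d
    · simp only [hid, if_true]
      refine ⟨isTen_tmul (hu i hid).1 h₀', ?_⟩
      have := (hu i hid).2.mul (hone t₀)
      rwa [mul_one] at this
    · simp only [hid, if_false]
      have : i = d := by omega
      subst this
      refine ⟨isTen_tmul h₀ h₁', ?_⟩
      have := (hone u₀).mul h'
      rwa [one_mul] at this

/-- **`K'` is algebraically closed in `L`.** -/
theorem kp_algClosed (h : IsAlgebraic (kp L F) f) : f ∈ kp L F := by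
  classical
  set K := kp L F with hK
  have hint : IsIntegral K f := h.isIntegral
  set P := minpoly K f with hP
  have hmon : P.Monic := minpoly.monic hint
  have h0 : Polynomial.aeval f P = 0 := minpoly.aeval K f
  set d := P.natDegree with hd
  have hd0 : 0 < d := minpoly.natDegree_pos hint
  set c : ℕ → L := fun i => ((P.coeff i : K) : L) with hc
  have hrel : f ^ d + ∑ i ∈ Finset.range d, c i * f ^ i = 0 := by
    have h1 : ∀ i, c i * f ^ i = P.coeff i • f ^ i := fun i => by
      rw [Algebra.smul_def]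
      rfl
    have h2 : f ^ d = P.coeff d • f ^ d := by
      rw [hd, hmon.coeff_natDegree, one_smul]
    rw [← h0, Polynomial.aeval_eq_sum_range, Finset.sum_range_succ, ← hd, ← h2, add_comm]
    congr 1
  obtain ⟨k, m, u₀, u, hu₀, hz, hu⟩ := exists_common_den (F := F) c (fun i => (P.coeff i).2) d
  obtain ⟨a, b, hb, hab⟩ := IsFractionRing.div_surjective (A := R) f
  have hb0 : b ≠ 0 := nonZeroDivisors.ne_zero hb
  have hbL : algebraMap R L b ≠ 0 := fun h =>
    hb0 ((map_eq_zero_iff _ (IsFractionRing.injective R L)).1 h)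
  have hfab : algebraMap R L b * f = algebraMap R L a := by
    rw [← hab, mul_div_cancel₀ _ hbL]
  -- the value of `f`
  set fv : X → ℂ := fun y => if y ∈ F.Xa then F.ev y a / F.ev y b else 0 with hfv
  set N : Set X := {y | ¬ (y ∈ F.Xa ∧ F.ev y b ≠ 0)} with hN
  have hNt : Thin (n := n) N := F.thin b hb0
  have hreg : ∀ y, y ∉ N → RegAt F y f (fv y) := by
    intro y hy
    rw [hN, Set.mem_ofPred_eq, not_not] at hy
    exact ⟨hy.1, a, b, hfab, hy.2, by simp only [hfv, hy.1, if_true]⟩
  set A : Ten n k X := fun e z I => fv (e.symm z) * u₀ e z I with hA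
  have hol : ∀ e x, At e x → x ∉ N → ∀ I, AnalyticAt ℂ (fun z => A e z I) (e x) := by
    intro e x hx hxN I
    rw [hN, Set.mem_ofPred_eq, not_not] at hxN
    have h1 : AnalyticAt ℂ (fun z => F.ev (e.symm z) a / F.ev (e.symm z) b) (e x) :=
      (F.holo a e x hx hxN.1).div (F.holo b e x hx hxN.1) (by rw [hx.left_inv]; exact hxN.2)
    have h2 : (fun z => F.ev (e.symm z) a / F.ev (e.symm z) b) =ᶠ[𝓝 (e x)]
        fun z => fv (e.symm z) := by
      have h3 : Tendsto e.symm (𝓝 (e x)) (𝓝 x) := by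
        have := (e.continuousAt_symm hx.mem_target).tendsto
        rwa [hx.left_inv] at this
      filter_upwards [h3.eventually (F.isOpen.mem_nhds hxN.1)] with z hz
      have hz' : e.symm z ∈ F.Xa := hz
      simp only [hfv, hz', if_true]
    exact (h1.congr h2).mul (hu₀.holo e x hx I)
  have chg : ∀ e e' x, At e x → At e' x → x ∉ N → ∀ I,
      (jacM e e' x).det ^ m * A e (e x) I = tenPull (jacM e e' x) (A e' (e' x)) I := by
    intro e e' x hx hx' _ I
    simp only [hA, hx.left_inv, hx'.left_inv]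
    rw [mul_left_comm, hu₀.change e e' x hx hx' I]
    simp only [tenPull, Finset.mul_sum]
    exact Finset.sum_congr rfl fun K _ => by ring
  -- the bound at the generic point
  have hgen : ∀ᶠ y in genF n X, ∀ e : Chart n X, At e y → ∀ I,
      ‖A e (e y) I‖ ≤ ‖u₀ e (e y) I‖ + ∑ i ∈ Finset.range d, ‖u i e (e y) I‖ := by
    have h1 : ∀ᶠ y in genF n X, ∀ i ∈ Finset.range d, ∃ v, RegAt F y (c i) v ∧
        ∀ e : Chart n X, At e y → ∀ I, u i e (e y) I = v * u₀ e (e y) I := by
      rw [Filter.eventually_all_finset]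
      intro i hi
      exact (hu i (Finset.mem_range.1 hi)).2
    have h2 : ∀ᶠ y in genF n X, y ∉ N := genF_iff.2 (by simpa using hNt)
    filter_upwards [h1, h2] with y hy hyN e he I
    choose! v hv hv' using hy
    have hf := hreg y hyN
    have h3 : RegAt F y (f ^ d + ∑ i ∈ Finset.range d, c i * f ^ i)
        (fv y ^ d + ∑ i ∈ Finset.range d, v i * fv y ^ i) :=
      (hf.pow d).add (RegAt.sum hf.1 _ fun i hi => (hv i hi).mul (hf.pow i))
    rw [hrel] at h3
    have h4 := norm_root_le hd0 (h3.unique (regAt_zero hf.1))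
    calc ‖A e (e y) I‖ = ‖fv y‖ * ‖u₀ e (e y) I‖ := by
          simp only [hA, he.left_inv, norm_mul]
      _ ≤ (1 + ∑ i ∈ Finset.range d, ‖v i‖) * ‖u₀ e (e y) I‖ := by gcongr
      _ = _ := by
        rw [add_mul, one_mul, Finset.sum_mul]
        congr 1
        refine Finset.sum_congr rfl fun i hi => ?_
        rw [hv' i hi e he I, norm_mul]
  have hbd : ∀ e x, At e x → ∀ I, ∃ C : ℝ, ∀ᶠ z in 𝓝 (e x), ‖A e z I‖ ≤ C := by
    intro e x hx I
    have hBc : ContinuousAt (fun z => ‖u₀ e z I‖ + ∑ i ∈ Finset.range d, ‖u i e z I‖) (e x) := by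
      refine (hu₀.holo e x hx I).continuousAt.norm.add ?_
      exact tendsto_finsetSum _ fun i hi =>
        ((hu i (Finset.mem_range.1 hi)).1.holo e x hx I).continuousAt.norm
    set C := ‖u₀ e (e x) I‖ + ∑ i ∈ Finset.range d, ‖u i e (e x) I‖ + 1 with hC
    have hB : ∀ᶠ z in 𝓝 (e x), ‖u₀ e z I‖ + ∑ i ∈ Finset.range d, ‖u i e z I‖ ≤ C := by
      filter_upwards [hBc.eventually (gt_mem_nhds (lt_add_one _))] with z hz
      exact hz.le
    have hC0 : 0 ≤ C := by
      have : 0 ≤ ∑ i ∈ Finset.range d, ‖u i e (e x) I‖ :=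
        Finset.sum_nonneg fun _ _ => norm_nonneg _
      positivity
    refine ⟨C, ?_⟩
    filter_upwards [eventually_eventually_nhds.2 hB, hx.nhds_target] with z hz hzt
    have hez : At e (e.symm z) := At.of_target hx.1 hzt
    by_cases hzN : e.symm z ∈ N
    · have h1 : A e z I = 0 := by
        simp only [hA, hfv]
        rw [hN, Set.mem_ofPred_eq, not_and, not_not] at hzN
        by_cases hXa : e.symm z ∈ F.Xa
        · simp only [hXa, if_true, hzN hXa, div_zero, zero_mul]
        · simp only [hXa, if_false, zero_mul]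
      rw [h1, norm_zero]
      exact hC0
    · by_contra hlt
      push Not at hlt
      have hcont : ContinuousAt (fun w => A e w I) z := by
        have := (hol e (e.symm z) hez hzN I).continuousAt
        rwa [e.right_inv hzt] at this
      have h1 : ∀ᶠ w in 𝓝 z, C < ‖A e w I‖ := hcont.norm.eventually (lt_mem_nhds hlt)
      have h2 : ∃ᶠ w in 𝓝 z, ¬ ¬ (∀ e' : Chart n X, At e' (e.symm w) → ∀ I,
          ‖A e' (e' (e.symm w)) I‖ ≤ ‖u₀ e' (e' (e.symm w)) I‖ +
            ∑ i ∈ Finset.range d, ‖u i e' (e' (e.symm w)) I‖) := by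
        have := (genF_iff.1 hgen).frequently hez
        rw [e.right_inv hzt] at this
        exact this
      have h3 : ∀ᶠ w in 𝓝 z, w ∈ e.target := e.open_target.mem_nhds hzt
      obtain ⟨w, hw, hw1, hw2, hw3⟩ := (h2.and_eventually (h1.and (hz.and h3))).exists
      rw [not_not] at hw
      have h4 := hw e (At.of_target hx.1 hw3) I
      rw [e.right_inv hw3] at h4
      linarith
  obtain ⟨A', hA', hAA⟩ := ext_ten_bdd hNt hol chg hbd
  refine ⟨k, m, u₀, A', hu₀, hA', hz, ?_⟩
  have h2 : ∀ᶠ y in genF n X, y ∉ N := genF_iff.2 (by simpa using hNt)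
  filter_upwards [h2] with y hy
  refine ⟨fv y, hreg y hy, fun e he I => ?_⟩
  rw [hAA e y he hy]
  simp only [hA, he.left_inv]

end Vale.Agent.P299.H212
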