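import Vale.Agent.P299.H212.TenB
import Vale.Agent.P299.H212.Nst
import Vale.Agent.P299.H212.Deg
import Vale.Agent.P299.H908.Bridge
import Vale.Agent.P282.Bd3.B4

/-!
# P299 / H212: components of holomorphic tensors as elements of the function field
-/

set_option linter.all false

open scoped Manifold ContDiff Topology
open Filter Set
open Vale.Agent.P272.K (Cm Chart At jacM jmat dz IsCanonicalMetric)
open Vale.Agent.P299.H908 Vale.Agent.P299.H223 Vale.Agent.P299.H216 Vale.Agent.P299.D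
open Vale.Agent.P300.L2 (Sheets)
open Vale.Agent.P282.L2 (Pol Prim IsPartials)
open Vale.Agent.P299.H340 (Mod)

noncomputable section

namespace Vale.Agent.P299.H212

/-! ### Polynomial growth -/

section growth

variable {n : ℕ} {K : Type} [Field K] [Algebra ℂ K] [Algebra (Pol n) K]
  [IsScalarTower ℂ (Pol n) K] [FaithfulSMul (Pol n) K] {A : Mod n K}

/-- polynomial growth -/
def Gr (A : Mod n K) (F : (Fin n → ℂ) × ℕ → ℝ) : Prop :=
  ∃ (c : ℝ) (k : ℕ), 0 ≤ c ∧ ∀ q ∈ A.S.M, F q ≤ c * (1 + A.p q.1) ^ k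

theorem Gr.mono {F G : (Fin n → ℂ) × ℕ → ℝ} (hG : Gr A G) (h : ∀ q ∈ A.S.M, F q ≤ G q) :
    Gr A F := by
  obtain ⟨c, k, hc, hb⟩ := hG
  exact ⟨c, k, hc, fun q hq => (h q hq).trans (hb q hq)⟩

theorem Gr.const (c : ℝ) : Gr A fun _ => c :=
  ⟨|c|, 0, abs_nonneg _, fun q _ => by simpa using le_abs_self c⟩

theorem Gr.add {F G : (Fin n → ℂ) × ℕ → ℝ} (hF : Gr A F) (hG : Gr A G) :
    Gr A fun q => F q + G q := by
  obtain ⟨c, k, hc, hb⟩ := hF
  obtain ⟨c', k', hc', hb'⟩ := hG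
  refine ⟨c + c', k + k', by positivity, fun q hq => ?_⟩
  have hp : (1 : ℝ) ≤ 1 + A.p q.1 := by have := A.p_nonneg q.1; linarith
  have h1 : (1 + A.p q.1) ^ k ≤ (1 + A.p q.1) ^ (k + k') := pow_le_pow_right₀ hp (by omega)
  have h2 : (1 + A.p q.1) ^ k' ≤ (1 + A.p q.1) ^ (k + k') := pow_le_pow_right₀ hp (by omega)
  rw [add_mul]
  exact add_le_add ((hb q hq).trans (mul_le_mul_of_nonneg_left h1 hc))
    ((hb' q hq).trans (mul_le_mul_of_nonneg_left h2 hc'))

theorem Gr.mul {F G : (Fin n → ℂ) × ℕ → ℝ} (hF : Gr A F) (hG : Gr A G)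
    (hG0 : ∀ q, 0 ≤ G q) : Gr A fun q => F q * G q := by
  obtain ⟨c, k, hc, hb⟩ := hF
  obtain ⟨c', k', hc', hb'⟩ := hG
  refine ⟨c * c', k + k', by positivity, fun q hq => ?_⟩
  have hp : (0 : ℝ) ≤ 1 + A.p q.1 := by have := A.p_nonneg q.1; linarith
  calc F q * G q ≤ (c * (1 + A.p q.1) ^ k) * (c' * (1 + A.p q.1) ^ k') :=
        mul_le_mul (hb q hq) (hb' q hq) (hG0 q) (by positivity)
    _ = _ := by rw [pow_add]; ring

theorem Gr.pow {F : (Fin n → ℂ) × ℕ → ℝ} (hF : Gr A F) (hF0 : ∀ q, 0 ≤ F q) (m : ℕ) :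
    Gr A fun q => F q ^ m := by
  induction m with
  | zero => simpa using Gr.const (A := A) 1
  | succ m ih =>
    simp only [pow_succ]
    exact ih.mul hF hF0

theorem Gr.sum {ι : Type*} (s : Finset ι) {F : ι → (Fin n → ℂ) × ℕ → ℝ}
    (hF : ∀ i ∈ s, Gr A (F i)) : Gr A fun q => ∑ i ∈ s, F i q := by
  classical
  induction s using Finset.induction_on with
  | empty => simpa using Gr.const (A := A) 0
  | insert a s ha ih =>
    simp only [Finset.sum_insert ha]
    exact (hF a (Finset.mem_insert_self a s)).add (ih fun i hi => hF i (Finset.mem_insert_of_mem hi))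

theorem gr_val {a : K} (ha : A.IsReg a) : Gr A fun q => ‖A.val a q‖ ^ 2 :=
  Gr.pow (F := fun q => ‖A.val a q‖) (Mod.growth ha) (fun q => norm_nonneg _) 2

end growth

section minors

variable {n : ℕ} {X : Type} [TopologicalSpace X] [ChartedSpace (Cm n) X] [Nonempty X]
  {D : ProjData n X} [PreconnectedSpace X]
  [Algebra (Pol n) D.K] [IsScalarTower ℂ (Pol n) D.K] [FaithfulSMul (Pol n) D.K]

/-- compatibility of a model, a bridge and the projective data -/
structure Cmp (A : Mod n D.K) (B : Brg A.S X) : Prop where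
  aff : ∀ x ∈ B.Xo, x ∈ D.Aff
  reg : ∀ a, A.IsReg a → ∀ x ∈ B.Xo, D.RegAt a x ∧ D.val a x = A.val a (B.θ x)
  regxi : ∀ i, A.IsReg (D.xiK i)
  thin : Thin (n := n) B.Xoᶜ

/-- the affine coordinates on the cover -/
def Xi (A : Mod n D.K) (i : Fin (D.N + 1)) : (Fin n → ℂ) × ℕ → ℂ := A.val (D.xiK i)

variable {A : Mod n D.K} {B : Brg A.S X}

theorem Cmp.xiData (h : Cmp A B) : XiData D B (Xi A) where
  aff := h.aff
  eq := fun x hx i => by
    have h1 := (h.reg _ (h.regxi i) x hx).2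
    show A.val (D.xiK i) (B.θ x) = _
    rw [← h1]
    unfold ProjData.xiK
    rw [ProjData.val_algebraMap _ (h.aff x hx), D.ext_xiR i (h.aff x hx)]

/-- the minors as elements of the function field -/
def mK (d : Fin n → Derivation ℂ D.K D.K) (L : Fin (n + 1) → Fin (D.N + 1)) : D.K :=
  (Matrix.of fun a b => (Fin.cons (fun i => D.xiK i) (fun p i => d p (D.xiK i)) :
    Fin (n + 1) → Fin (D.N + 1) → D.K) a (L b)).det

variable {d : Fin n → Derivation ℂ D.K D.K}

theorem reg_row (h : Cmp A B) (hd : IsPartials d) (a : Fin (n + 1)) (i : Fin (D.N + 1)) :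
    A.IsReg ((Fin.cons (fun i => D.xiK i) (fun p i => d p (D.xiK i)) :
      Fin (n + 1) → Fin (D.N + 1) → D.K) a i) := by
  refine Fin.cases ?_ (fun p => ?_) a
  · exact h.regxi i
  · exact Mod.IsReg.d hd (h.regxi i) p

theorem isReg_mK (h : Cmp A B) (hd : IsPartials d) (L : Fin (n + 1) → Fin (D.N + 1)) :
    A.IsReg (mK d L) := by
  unfold mK
  rw [Matrix.det_apply']
  refine Mod.IsReg.sum _ fun σ _ => Mod.IsReg.mul ?_ (Mod.IsReg.prod _ fun i _ => reg_row h hd _ _)
  rcases Int.units_eq_one_or (Equiv.Perm.sign σ) with h2 | h2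
  · rw [h2, Units.val_one, Int.cast_one]; exact Mod.isReg_one
  · rw [h2, Units.val_neg, Units.val_one, Int.cast_neg, Int.cast_one]; exact Mod.isReg_one.neg

theorem val_mK (h : Cmp A B) (hd : IsPartials d) (L : Fin (n + 1) → Fin (D.N + 1))
    {q : (Fin n → ℂ) × ℕ} (hq : q ∈ A.S.M) :
    A.val (mK d L) q = mnr (rwz A.S (Xi A) q) L := by
  set M : Matrix (Fin (n + 1)) (Fin (n + 1)) (regC A) :=
    Matrix.of fun a b => ⟨_, reg_row h hd a (L b)⟩ with hM
  have h1 : ((M.det : regC A) : D.K) = mK d L := by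
    have := (regC A).val.map_det M
    show (regC A).val M.det = _
    rw [this]
    rfl
  have h2 : A.val (mK d L) q = evq hq M.det := by
    show _ = A.val ((M.det : regC A) : D.K) q
    rw [h1]
  rw [h2, AlgHom.map_det, mnr]
  congr 1
  ext a b
  show A.val ((Fin.cons (fun i => D.xiK i) (fun p i => d p (D.xiK i)) :
      Fin (n + 1) → Fin (D.N + 1) → D.K) a (L b)) q = rwz A.S (Xi A) q a (L b)
  refine Fin.cases ?_ (fun p => ?_) a
  · rfl
  · exact (Mod.D_val hd (h.regxi (L b)) hq p).symm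

theorem qz_eq_sum (h : Cmp A B) (hd : IsPartials d) {q : (Fin n → ℂ) × ℕ} (hq : q ∈ A.S.M) :
    qz A.S (Xi A) q * sq (fun i => Xi A i q) ^ (n + 1) = ∑ L, ‖A.val (mK d L) q‖ ^ 2 := by
  have h1 : 0 < sq (fun i => Xi A i q) := by
    have h2 := B.j_mem hq
    have h3 := one_le_sq_Xi h.xiData h2
    rw [B.θ_j hq] at h3
    linarith
  rw [qz, div_mul_cancel₀ _ (pow_pos h1 _).ne']
  unfold sq
  exact Finset.sum_congr rfl fun L _ => by rw [val_mK h hd L hq]

theorem qz_pos (h : Cmp A B) {q : (Fin n → ℂ) × ℕ} (hq : q ∈ A.S.M) :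
    0 < qz A.S (Xi A) q := by
  have h2 := B.j_mem hq
  have he := at_chartAt' (n := n) (B.j q)
  have h1 := qz_eq h.xiData h2 (jj_ne D _) he
  rw [B.θ_j hq] at h1
  rw [h1]
  have h3 := norm_pos_iff.2 (B.J_det he h2)
  exact mul_pos (by positivity) (qr_pos (jj_ne D _) he)

theorem exists_mK_ne (h : Cmp A B) (hd : IsPartials d) {q : (Fin n → ℂ) × ℕ} (hq : q ∈ A.S.M) :
    ∃ L, A.val (mK d L) q ≠ 0 := by
  by_contra hcon
  push Not at hcon
  have h1 := qz_eq_sum h hd hq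
  have h3 := one_le_sq_Xi h.xiData (B.j_mem hq)
  rw [B.θ_j hq] at h3
  have h4 : 0 < sq (fun i => Xi A i q) ^ (n + 1) := pow_pos (by linarith) _
  have h2 := mul_pos (qz_pos h hq) h4
  rw [h1] at h2
  simp only [hcon, norm_zero] at h2
  simp at h2

theorem gr_dsq (h : Cmp A B) (hd : IsPartials d) : Gr A (dsq A.S (Xi A)) := by
  refine Gr.sum _ fun p _ => Gr.sum _ fun i _ => ?_
  refine (gr_val (Mod.IsReg.d hd (h.regxi i) p)).mono fun q hq => ?_
  exact le_of_eq (by rw [← Mod.D_val hd (h.regxi i) hq p]; rfl)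

theorem gr_sq (h : Cmp A B) : Gr A fun q => sq fun i => Xi A i q :=
  Gr.sum _ fun i _ => gr_val (h.regxi i)

variable [IsManifold 𝓘(ℂ, Cm n) ω X] [CompactSpace X]

/-- the components of holomorphic tensors have polynomial growth -/
theorem gr_comp (h : Cmp A B) (hd : IsPartials d) {k m : ℕ} {u : Ten n k X} (hu : IsTen k m u)
    (I : Fin k → Fin n) : Gr A fun q => ‖B.comp m u I q‖ ^ 2 := by
  obtain ⟨C, hC, hb⟩ := exists_comp_bound_qz h.xiData hu
  obtain ⟨c, l, hc, hlow⟩ := exists_lower (A := A) (fun L => isReg_mK h hd L)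
    (fun q hq => exists_mK_ne h hd hq)
  have hp : Gr A fun q => (1 + A.p q.1) := ⟨1, 1, zero_le_one, fun q _ => by simp⟩
  have hG : Gr A fun q => (C * dsq A.S (Xi A) q ^ k) *
      (c * (1 + A.p q.1) ^ l * sq (fun i => Xi A i q) ^ (n + 1)) ^ m := by
    refine Gr.mul ?_ ?_ ?_
    · exact (Gr.const C).mul ((gr_dsq h hd).pow (fun q => dsq_nonneg _ _ _) k)
        (fun q => pow_nonneg (dsq_nonneg _ _ _) _)
    · refine Gr.pow (F := fun q => c * (1 + A.p q.1) ^ l * sq (fun i => Xi A i q) ^ (n + 1)) ?_ ?_ m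
      · refine Gr.mul ?_ ((gr_sq h).pow (fun q => sq_nonneg' _) _) fun q => pow_nonneg (sq_nonneg' _) _
        exact (Gr.const c).mul (hp.pow (fun q => by
          have := A.p_nonneg q.1
          linarith) l) (fun q => pow_nonneg (by
          have := A.p_nonneg q.1
          linarith) _)
      · intro q
        have := A.p_nonneg q.1
        have h2 : 0 ≤ sq (fun i => Xi A i q) := sq_nonneg' _
        positivity
    · intro q
      have := A.p_nonneg q.1
      have h2 : 0 ≤ sq (fun i => Xi A i q) := sq_nonneg' _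
      positivity
  refine hG.mono fun q hq => ?_
  have h1 := hlow q hq
  rw [← qz_eq_sum h hd hq] at h1
  have h0 := A.p_nonneg q.1
  have h2 : 0 ≤ sq (fun i => Xi A i q) := sq_nonneg' _
  set P := c * (1 + A.p q.1) ^ l * sq (fun i => Xi A i q) ^ (n + 1) with hP
  have hP0 : 0 ≤ P := by positivity
  have h3 : 1 ≤ (qz A.S (Xi A) q * P) ^ m := by
    refine one_le_pow₀ ?_
    calc (1 : ℝ) ≤ c * (1 + A.p q.1) ^ l * (qz A.S (Xi A) q * sq (fun i => Xi A i q) ^ (n + 1)) := h1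
      _ = _ := by rw [hP]; ring
  calc ‖B.comp m u I q‖ ^ 2 ≤ ‖B.comp m u I q‖ ^ 2 * (qz A.S (Xi A) q * P) ^ m :=
        le_mul_of_one_le_right (by positivity) h3
    _ = (‖B.comp m u I q‖ ^ 2 * qz A.S (Xi A) q ^ m) * P ^ m := by rw [mul_pow]; ring
    _ ≤ (C * dsq A.S (Xi A) q ^ k) * P ^ m :=
        mul_le_mul_of_nonneg_right (hb q hq I) (pow_nonneg hP0 _)

variable [Algebra (FractionRing (Pol n)) D.K]
  [IsScalarTower (Pol n) (FractionRing (Pol n)) D.K]
  [FiniteDimensional (FractionRing (Pol n)) D.K]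

/-- **the components of a holomorphic tensor are regular functions** -/
theorem exists_comp (h : Cmp A B) (hd : IsPartials d) {k m : ℕ} {u : Ten n k X}
    (hu : IsTen k m u) (I : Fin k → Fin n) :
    ∃ a : D.K, A.IsReg a ∧ ∀ q ∈ A.S.M, B.comp m u I q = A.val a q := by
  obtain ⟨c, l, hc, hb⟩ := gr_comp h hd hu I
  refine A.exists_val_of_growth (c := 1 + c) (k := l) (B.comp_holo' hu I) fun q hq => ?_
  have h1 := hb q hq
  have hp : (1 : ℝ) ≤ (1 + A.p q.1) ^ l := one_le_pow₀ (by have := A.p_nonneg q.1; linarith)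
  have h2 : ‖B.comp m u I q‖ ≤ 1 + ‖B.comp m u I q‖ ^ 2 := by
    nlinarith [sq_nonneg (‖B.comp m u I q‖ - 1), norm_nonneg (B.comp m u I q)]
  calc ‖B.comp m u I q‖ ≤ 1 + c * (1 + A.p q.1) ^ l := h2.trans (by linarith)
    _ ≤ (1 + c) * (1 + A.p q.1) ^ l := by rw [add_mul, one_mul]; linarith

end minors

end Vale.Agent.P299.H212
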