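import Vale.Agent.P299.H212.CompD

/-!
# P299 / H212: the components of holomorphic tensors, intrinsically; `CompData`
-/

set_option linter.all false

open scoped Manifold ContDiff Topology
open Filter Set
open Vale.Agent.P272.K (Cm Chart At jacM jmat dz IsCanonicalMetric)
open Vale.Agent.P299.H908 Vale.Agent.P299.H223 Vale.Agent.P299.H216 Vale.Agent.P299.D
open Vale.Agent.P299.H908.ProjData
open Vale.Agent.P300.L2 (Sheets)
open Vale.Agent.P282.L2 (Pol Prim IsPartials)
open Vale.Agent.P299.H340 (Mod)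

noncomputable section

namespace Vale.Agent.P299.H212

variable {n : ℕ} {X : Type} [TopologicalSpace X] [ChartedSpace (Cm n) X] [ConnectedSpace X]
  {D : ProjData n X}
  [Algebra (Pol n) D.K] [IsScalarTower ℂ (Pol n) D.K] [FaithfulSMul (Pol n) D.K]

variable (D) in
/-- the Jacobian matrix of the coordinates `z` in the chart `e` -/
def Jz (e : Chart n X) (x : X) : Matrix (Fin n) (Fin n) ℂ :=
  jmat (fun w i => D.val (D.zK i) (e.symm w)) (e x)

/-- `a` is the component `I` of the tensor `u` in the frame given by the coordinates `z` -/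
def IsComp {k : ℕ} (m : ℕ) (u : Ten n k X) (I : Fin k → Fin n) (a : D.K) : Prop :=
  ∀ᶠ x in genF n X, D.RegAt a x ∧ ∀ e : Chart n X, At e x →
    D.val a x = (Jz D e x).det ^ m * tenPull (Jz D e x)⁻¹ (u e (e x)) I

open Classical in
/-- the component of a tensor in the frame given by the coordinates `z` -/
def compK {k : ℕ} (m : ℕ) (u : Ten n k X) (I : Fin k → Fin n) : D.K :=
  if h : ∃ a : D.K, IsComp m u I a then h.choose else 0

section unique

variable [IsManifold 𝓘(ℂ, Cm n) ω X] {k m : ℕ} {u : Ten n k X} {I : Fin k → Fin n}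

theorem eq_of_genF {a b : D.K} (h : ∀ᶠ x in genF n X, D.RegAt a x ∧ D.RegAt b x ∧
    D.val a x = D.val b x) : a = b := by
  by_contra hne
  have h1 : a - b ≠ 0 := sub_ne_zero.2 hne
  obtain ⟨x, ⟨ha, hb, hab⟩, hr, hv⟩ := (h.and (D.genF_val_ne h1)).exists
  apply hv
  rw [(ha.sub hb).2, hab, sub_self]

theorem IsComp.unique {a b : D.K} (ha : IsComp m u I a) (hb : IsComp m u I b) : a = b := by
  refine eq_of_genF ?_
  filter_upwards [ha, hb] with x h1 h2
  have he := at_chartAt' (n := n) x
  exact ⟨h1.1, h2.1, by rw [h1.2 _ he, h2.2 _ he]⟩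

theorem compK_eq {a : D.K} (ha : IsComp m u I a) : compK m u I = a := by
  have h : ∃ a : D.K, IsComp m u I a := ⟨a, ha⟩
  unfold compK
  rw [dif_pos h]
  exact h.choose_spec.unique ha

end unique

section model

variable {A : Mod n D.K} {B : Brg A.S X} (hAB : Cmp A B)

include hAB

theorem θ_fst {x : X} (hx : x ∈ B.Xo) (i : Fin n) : (B.θ x).1 i = D.val (D.zK i) x := by
  rw [(hAB.reg (D.zK i) (Mod.isReg_alg _) x hx).2]
  unfold ProjData.zK
  rw [Mod.val_alg (B.maps x hx), MvPolynomial.eval_X]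

theorem J_eq_Jz {x : X} (hx : x ∈ B.Xo) {e : Chart n X} (he : At e x) : B.J e x = Jz D e x := by
  refine Vale.Agent.P272.K.jmat_congr ?_
  filter_upwards [(tendsto_symm he).eventually (B.isOpen.mem_nhds hx)] with w hw
  funext i
  exact θ_fst hAB hw i

theorem genF_Xo : ∀ᶠ x in genF n X, x ∈ B.Xo := hAB.thin

variable [IsManifold 𝓘(ℂ, Cm n) ω X] {k m : ℕ} {u : Ten n k X} {I : Fin k → Fin n}

theorem isComp_of_val (hu : IsTen k m u) {a : D.K} (ha : A.IsReg a)
    (h : ∀ q ∈ A.S.M, B.comp m u I q = A.val a q) : IsComp m u I a := by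
  filter_upwards [genF_Xo hAB] with x hx
  obtain ⟨h1, h2⟩ := hAB.reg a ha x hx
  refine ⟨h1, fun e he => ?_⟩
  rw [h2, ← h _ (B.maps x hx), ← J_eq_Jz hAB hx he]
  have := B.comp_eq (m := m) (u := u) (B.maps x hx) (hu.chg _) (e := e)
    (by rw [B.j_θ hx]; exact he) I
  rwa [B.j_θ hx] at this

variable [CompactSpace X] [Algebra (FractionRing (Pol n)) D.K]
  [IsScalarTower (Pol n) (FractionRing (Pol n)) D.K]
  [FiniteDimensional (FractionRing (Pol n)) D.K]

/-- **the components in every model** -/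
theorem compK_spec (hu : IsTen k m u) (I : Fin k → Fin n) :
    IsComp m u I (compK (D := D) m u I) ∧ A.IsReg (compK m u I) ∧
      ∀ q ∈ A.S.M, B.comp m u I q = A.val (compK m u I) q := by
  obtain ⟨d, hd⟩ := Vale.Agent.P282.Full.exists_partials n D.K
  obtain ⟨a, ha, hq⟩ := exists_comp hAB hd hu I
  have h1 := isComp_of_val hAB hu ha hq
  rw [compK_eq h1]
  exact ⟨h1, ha, hq⟩

end model

section tensor

variable {k k' m m' : ℕ}

theorem tenPull_tmul (M : Matrix (Fin n) (Fin n) ℂ) (s : (Fin k → Fin n) → ℂ)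
    (t : (Fin k' → Fin n) → ℂ) (I : Fin k → Fin n) (J : Fin k' → Fin n) :
    tenPull M (fun K : Fin (k + k') → Fin n => s (fun i => K (Fin.castAdd k' i)) *
      t (fun j => K (Fin.natAdd k j))) (Fin.append I J) = tenPull M s I * tenPull M t J := by
  simp only [tenPull]
  rw [Finset.sum_mul_sum, ← Finset.sum_product', Finset.univ_product_univ]
  rw [← (Fin.appendEquiv k k').sum_comp]
  refine Finset.sum_congr rfl fun K _ => ?_
  have h3 : (∏ a, M ((Fin.appendEquiv k k') K a) (Fin.append I J a)) =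
      (∏ a, M (K.1 a) (I a)) * ∏ a, M (K.2 a) (J a) := by
    rw [Fin.prod_univ_add]
    simp [Fin.appendEquiv]
  rw [h3]
  simp only [Fin.appendEquiv, Equiv.coe_fn_mk, Fin.append_left, Fin.append_right]
  ring

theorem tenPull_prop {M : Matrix (Fin n) (Fin n) ℂ} {s t : (Fin k → Fin n) → ℂ}
    (h : ∀ I J, s I * t J = s J * t I) (I J : Fin k → Fin n) :
    tenPull M s I * tenPull M t J = tenPull M s J * tenPull M t I := by
  simp only [tenPull]
  rw [Finset.sum_mul_sum, Finset.sum_mul_sum, Finset.sum_comm]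
  refine Finset.sum_congr rfl fun K _ => Finset.sum_congr rfl fun L _ => ?_
  have := h K L
  linear_combination (∏ a, M (L a) (I a)) * (∏ a, M (K a) (J a)) * (h L K)

variable [IsManifold 𝓘(ℂ, Cm n) ω X] {s : Ten n k X} {t : Ten n k' X}
  {I : Fin k → Fin n} {J : Fin k' → Fin n}

theorem IsComp.tmul {a b : D.K} (ha : IsComp m s I a) (hb : IsComp m' t J b) :
    IsComp (m + m') (Vale.Agent.P299.H212.tmul s t) (Fin.append I J) (a * b) := by
  filter_upwards [ha, hb] with x h1 h2
  refine ⟨(h1.1.mul h2.1).1, fun e he => ?_⟩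
  rw [(h1.1.mul h2.1).2, h1.2 e he, h2.2 e he]
  have h3 := tenPull_tmul (Jz D e x)⁻¹ (s e (e x)) (t e (e x)) I J
  have h4 : Vale.Agent.P299.H212.tmul s t e (e x) = fun K : Fin (k + k') → Fin n =>
      s e (e x) (fun i => K (Fin.castAdd k' i)) * t e (e x) (fun j => K (Fin.natAdd k j)) := rfl
  rw [h4, h3, pow_add]
  ring

end tensor

section compData

variable [IsManifold 𝓘(ℂ, Cm n) ω X] [CompactSpace X] [Algebra (FractionRing (Pol n)) D.K]
  [IsScalarTower (Pol n) (FractionRing (Pol n)) D.K]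
  [FiniteDimensional (FractionRing (Pol n)) D.K]

theorem genF_Jz_det (hex : ∃ (A : Mod n D.K) (B : Brg A.S X), Cmp A B) :
    ∀ᶠ x in genF n X, ∀ e : Chart n X, At e x → (Jz D e x).det ≠ 0 := by
  obtain ⟨A, B, hAB⟩ := hex
  filter_upwards [genF_Xo hAB] with x hx e he
  rw [← J_eq_Jz hAB hx he]
  exact B.J_det he hx

theorem isComp_compK (hex : ∃ (A : Mod n D.K) (B : Brg A.S X), Cmp A B) {k m : ℕ}
    {u : Ten n k X} (hu : IsTen k m u) (I : Fin k → Fin n) :
    IsComp m u I (compK (D := D) m u I) := by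
  obtain ⟨A, B, hAB⟩ := hex
  exact (compK_spec hAB hu I).1

/-- **Components of holomorphic tensors as elements of the function field** -/
def compData (hex : ∃ (A : Mod n D.K) (B : Brg A.S X), Cmp A B) : CompData n X D.K where
  comp := fun m u I => compK m u I
  comp_one := by
    funext I
    refine compK_eq ?_
    filter_upwards [D.genF_regAt 1] with x hx
    refine ⟨hx, fun e he => ?_⟩
    rw [val_one hx.aff]
    simp [tenPull]
  comp_tmul := by
    intro k k' m m' s t hs ht I J
    exact compK_eq ((isComp_compK hex hs I).tmul (isComp_compK hex ht J))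
  comp_ne := by
    intro k m s hs h0
    by_contra hcon
    push Not at hcon
    obtain ⟨A, B, hAB⟩ := hex
    obtain ⟨x, hx, hxo⟩ := ((genF_nz hs h0).and (genF_Xo hAB)).exists
    have he := at_chartAt' (n := n) x
    have h1 := (mem_nzSet hs he).1 hx
    apply h1
    have h2 : ∀ I, B.comp m s I (B.θ x) = 0 := by
      intro I
      obtain ⟨-, -, h3⟩ := compK_spec hAB hs I
      rw [h3 _ (B.maps x hxo), hcon I, Mod.val_zero (B.maps x hxo)]
    funext I
    have h3 := (B.comp_eq_zero_iff (m := m) (u := s) (B.maps x hxo) (hs.chg _)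
      (e := chartAt (Cm n) x) (by rw [B.j_θ hxo]; exact he)).1 h2 I
    rw [B.j_θ hxo] at h3
    exact h3
  ne_comp := by
    rintro k m s hs ⟨I, hI⟩
    by_contra hcon
    apply hI
    refine compK_eq ?_
    filter_upwards [D.genF_regAt 0] with x hx
    refine ⟨hx, fun e he => ?_⟩
    rw [val_zero hx.aff]
    have h1 : s e (e x) = 0 := by
      funext J
      by_contra h2
      exact hcon ⟨e, x, J, he, h2⟩
    rw [h1, tenPull_zero, Pi.zero_apply, mul_zero]
  comp_prop := by
    intro k m m' s t hs ht hst I J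
    refine eq_of_genF ?_
    filter_upwards [isComp_compK hex hs I, isComp_compK hex ht J, isComp_compK hex hs J,
      isComp_compK hex ht I] with x h1 h2 h3 h4
    refine ⟨(h1.1.mul h2.1).1, (h3.1.mul h4.1).1, ?_⟩
    have he := at_chartAt' (n := n) x
    rw [(h1.1.mul h2.1).2, (h3.1.mul h4.1).2, h1.2 _ he, h2.2 _ he, h3.2 _ he, h4.2 _ he]
    have h5 := tenPull_prop (M := (Jz D (chartAt (Cm n) x) x)⁻¹)
      (hst (chartAt (Cm n) x) x he) I J
    linear_combination (Jz D (chartAt (Cm n) x) x).det ^ m *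
      (Jz D (chartAt (Cm n) x) x).det ^ m' * h5

theorem compData_comp (hex : ∃ (A : Mod n D.K) (B : Brg A.S X), Cmp A B) {k : ℕ} (m : ℕ)
    (u : Ten n k X) (I : Fin k → Fin n) : (compData hex).comp m u I = compK m u I := rfl

/-- degree `0` is the field `K'` -/
theorem Lb_zero_iff (hex : ∃ (A : Mod n D.K) (B : Brg A.S X), Cmp A B) {f : D.K} :
    (compData hex).Lb 0 f ↔ f ∈ kp D.K D.fm := by
  constructor
  · rintro ⟨k, m, m', u₀, u, hm, h₀, h, hz, hu⟩
    obtain rfl : m' = m := by omega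
    refine ⟨k, m', u₀, u, h₀, h, hz, ?_⟩
    have h1 : ∀ᶠ x in genF n X, ∀ I, (D.RegAt (compK (D := D) m' u I) x ∧ ∀ e : Chart n X,
        At e x → D.val (compK (D := D) m' u I) x = (Jz D e x).det ^ m' *
          tenPull (Jz D e x)⁻¹ (u e (e x)) I) :=
      eventually_all.2 fun I => isComp_compK hex h I
    have h2 : ∀ᶠ x in genF n X, ∀ I, (D.RegAt (compK (D := D) m' u₀ I) x ∧ ∀ e : Chart n X,
        At e x → D.val (compK (D := D) m' u₀ I) x = (Jz D e x).det ^ m' *
          tenPull (Jz D e x)⁻¹ (u₀ e (e x)) I) :=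
      eventually_all.2 fun I => isComp_compK hex h₀ I
    filter_upwards [h1, h2, D.genF_regAt f, genF_Jz_det hex] with x h3 h4 h5 h6
    refine ⟨D.val f x, h5.fm, fun e he I => ?_⟩
    have h7 := h6 e he
    have h8 : tenPull (Jz D e x)⁻¹ (u e (e x)) =
        tenPull (Jz D e x)⁻¹ (fun K => D.val f x * u₀ e (e x) K) := by
      rw [tenPull_smul']
      funext K
      have h9 := (h3 K).2 e he
      have h10 := (h4 K).2 e he
      have h11 : compK (D := D) m' u K = f * compK (D := D) m' u₀ K := hu K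
      rw [h11, (h5.mul (h4 K).1).2, h10] at h9
      have h12 : (Jz D e x).det ^ m' ≠ 0 := pow_ne_zero _ h7
      apply mul_left_cancel₀ h12
      linear_combination -h9
    have h13 : (Jz D e x)⁻¹.det ≠ 0 := by
      rw [Matrix.det_nonsing_inv, Ring.inverse_eq_inv']
      exact inv_ne_zero h7
    exact congrFun (tenPull_inj h13 h8) I
  · rintro ⟨k, m, u₀, u, h₀, h, hz, hrel⟩
    refine ⟨k, m, m, u₀, u, by simp, h₀, h, hz, fun I => ?_⟩
    show compK (D := D) m u I = f * compK (D := D) m u₀ I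
    refine eq_of_genF ?_
    filter_upwards [isComp_compK hex h I, isComp_compK hex h₀ I, hrel] with x h1 h2 h3
    obtain ⟨v, hv, h4⟩ := h3
    obtain ⟨h5, h6⟩ := regAt_of_fm hv
    refine ⟨h1.1, (h5.mul h2.1).1, ?_⟩
    have he := at_chartAt' (n := n) x
    rw [(h5.mul h2.1).2, h6, h1.2 _ he, h2.2 _ he]
    have h7 : u (chartAt (Cm n) x) (chartAt (Cm n) x x) =
        fun K => v * u₀ (chartAt (Cm n) x) (chartAt (Cm n) x x) K := by
      funext K; exact h4 _ he K
    rw [h7, tenPull_smul']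
    ring

end compData

/-- the bridge of a common denominator is compatible -/
theorem cmp_brg [CompactSpace X] [IsManifold 𝓘(ℂ, Cm n) ω X] [Algebra (FractionRing (Pol n)) D.K]
    [IsScalarTower (Pol n) (FractionRing (Pol n)) D.K]
    [FiniteDimensional (FractionRing (Pol n)) D.K] {A : Mod n D.K} (B : D.Den A.E) :
    Cmp A B.brg where
  aff := fun x hx => hx.1
  reg := fun a ha x hx => B.reg_th hx ha
  regxi := fun i => B.regxi i
  thin := B.thin_compl

end Vale.Agent.P299.H212
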