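import Vale.Agent.P299.H212.Thin
import Mathlib.RingTheory.Localization.FractionRing
import Mathlib.FieldTheory.IntermediateField.Algebraic
import Mathlib.FieldTheory.Minpoly.Field
import Mathlib.Algebra.CharP.Algebra

/-!
# The field `K'` of quotients of proportional holomorphic tensors

`FM n X R`: `R` is a ring of functions on the complement `Xa` of a hypersurface of `X` (for `X`
projective: polynomials in the affine coordinates), `L = Frac R` the field of meromorphic functions.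
-/

open scoped Manifold ContDiff ComplexOrder Topology ENNReal
open Vale.Agent.P272.K Filter Metric

set_option linter.unusedSectionVars false
set_option linter.unusedVariables false

noncomputable section

namespace Vale.Agent.P299.H212

open D

section tensor

variable {n : ℕ} {X : Type*} [TopologicalSpace X] [ChartedSpace (Cm n) X]

/-- the tensor product of tensors -/
def tmul {k k' : ℕ} (s : Ten n k X) (t : Ten n k' X) : Ten n (k + k') X := fun e z I =>
  s e z (fun i => I (Fin.castAdd k' i)) * t e z (fun j => I (Fin.natAdd k j))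

theorem isTen_tmul {k k' m m' : ℕ} {s : Ten n k X} {t : Ten n k' X} (hs : IsTen k m s)
    (ht : IsTen k' m' t) : IsTen (k + k') (m + m') (tmul s t) := by
  constructor
  · intro e x h I
    exact (hs.holo e x h _).mul (ht.holo e x h _)
  · intro e e' x h h' I
    have h1 := hs.change e e' x h h' (fun i => I (Fin.castAdd k' i))
    have h2 := ht.change e e' x h h' (fun j => I (Fin.natAdd k j))
    simp only [tmul]
    rw [pow_add]
    calc (jacM e e' x).det ^ m * (jacM e e' x).det ^ m' *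
        (s e (e x) (fun i => I (Fin.castAdd k' i)) * t e (e x) (fun j => I (Fin.natAdd k j)))
        = ((jacM e e' x).det ^ m * s e (e x) (fun i => I (Fin.castAdd k' i))) *
          ((jacM e e' x).det ^ m' * t e (e x) (fun j => I (Fin.natAdd k j))) := by ring
      _ = _ := by
        rw [h1, h2]
        simp only [tenPull, tmul]
        rw [Finset.sum_mul_sum, ← Finset.sum_product', Finset.univ_product_univ]
        rw [← (Fin.appendEquiv k k').sum_comp]
        refine Finset.sum_congr rfl fun K _ => ?_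
        have h3 : (∏ a, (jacM e e' x) ((Fin.appendEquiv k k') K a) (I a)) =
            (∏ a, (jacM e e' x) (K.1 a) (I (Fin.castAdd k' a))) *
              ∏ a, (jacM e e' x) (K.2 a) (I (Fin.natAdd k a)) := by
          rw [Fin.prod_univ_add]
          simp [Fin.appendEquiv]
        rw [h3]
        simp only [Fin.appendEquiv, Equiv.coe_fn_mk, Fin.append_left, Fin.append_right]
        ring

theorem tmul_ne_zero {k k' : ℕ} {s : Ten n k X} {t : Ten n k' X} {e : Chart n X} {z : Cm n}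
    (hs : s e z ≠ 0) (ht : t e z ≠ 0) : tmul s t e z ≠ 0 := by
  obtain ⟨I, hI⟩ := Function.ne_iff.1 hs
  obtain ⟨J, hJ⟩ := Function.ne_iff.1 ht
  intro h
  have h1 := congrFun h (Fin.append I J)
  simp only [tmul, Fin.append_left, Fin.append_right] at h1
  exact mul_ne_zero hI hJ h1

theorem isTen_add {k m : ℕ} {s t : Ten n k X} (hs : IsTen k m s) (ht : IsTen k m t) :
    IsTen k m (fun e z I => s e z I + t e z I) := by
  constructor
  · intro e x h I
    exact (hs.holo e x h I).add (ht.holo e x h I)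
  · intro e e' x h h' I
    simp only [mul_add, hs.change e e' x h h', ht.change e e' x h h', tenPull,
      Finset.sum_add_distrib]

theorem isTen_smul {k m : ℕ} {s : Ten n k X} (hs : IsTen k m s) (c : ℂ) :
    IsTen k m (fun e z I => c * s e z I) := by
  constructor
  · intro e x h I
    exact analyticAt_const.mul (hs.holo e x h I)
  · intro e e' x h h' I
    rw [mul_left_comm, hs.change e e' x h h']
    simp only [tenPull, Finset.mul_sum]
    exact Finset.sum_congr rfl fun K _ => by ring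

/-- the constant tensor `1` of degree `0` -/
theorem isTen_one : IsTen (n := n) (X := X) 0 0 (fun _ _ _ => 1) := by
  constructor
  · intro e x h I
    exact analyticAt_const
  · intro e e' x h h' I
    simp [tenPull]

end tensor

/-- functions on the complement of a hypersurface -/
structure FM (n : ℕ) (X : Type*) [TopologicalSpace X] [ChartedSpace (Cm n) X] (R : Type*)
    [CommRing R] [Algebra ℂ R] where
  Xa : Set X
  isOpen : IsOpen Xa
  ev : X → R →ₐ[ℂ] ℂ
  holo : ∀ (a : R) (e : Chart n X) x, At e x → x ∈ Xa →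
    AnalyticAt ℂ (fun z => ev (e.symm z) a) (e x)
  thin : ∀ a : R, a ≠ 0 → Thin (n := n) {x | ¬ (x ∈ Xa ∧ ev x a ≠ 0)}

variable {n : ℕ} {X : Type*} [TopologicalSpace X] [ChartedSpace (Cm n) X]

variable (n X) in
/-- the filter of complements of thin sets -/
def genF : Filter X where
  sets := {S | Thin (n := n) Sᶜ}
  univ_sets := by simpa using thin_empty
  sets_of_superset := fun h hST => h.mono (Set.compl_subset_compl.2 hST)
  inter_sets := by
    intro S T hS hT
    show Thin (n := n) (S ∩ T)ᶜ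
    rw [Set.compl_inter]
    exact Thin.union hS hT

theorem mem_genF {S : Set X} : S ∈ genF n X ↔ Thin (n := n) Sᶜ := Iff.rfl

theorem genF_iff {P : X → Prop} : (∀ᶠ x in genF n X, P x) ↔ Thin (n := n) {x | ¬ P x} := Iff.rfl

variable [IsManifold 𝓘(ℂ, Cm n) ω X]

instance [Nonempty X] : (genF n X).NeBot := by
  rw [neBot_iff]
  intro h
  have h1 : Thin (n := n) (∅ : Set X)ᶜ := by
    rw [← mem_genF, h]
    trivial
  obtain ⟨x⟩ : Nonempty X := inferInstance
  obtain ⟨y, hy⟩ := (h1.frequently' x).exists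
  exact hy (by simp)

theorem genF_nz [PreconnectedSpace X] {p m : ℕ} {s : Ten n p X} (hs : IsTen p m s)
    (h0 : TenNZ s) : ∀ᶠ x in genF n X, x ∈ nzSet s := by
  rw [genF_iff]
  exact thin_zero hs h0

section field

variable {R L : Type*} [CommRing R] [IsDomain R] [Algebra ℂ R]
  [Field L] [Algebra R L] [IsFractionRing R L] [Algebra ℂ L] [IsScalarTower ℂ R L]
  (F : FM n X R)

/-- `f` is regular at `x` with value `v` -/
def RegAt (x : X) (f : L) (v : ℂ) : Prop :=
  x ∈ F.Xa ∧ ∃ a c : R, algebraMap R L c * f = algebraMap R L a ∧ F.ev x c ≠ 0 ∧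
    v = F.ev x a / F.ev x c

variable {F} {x : X} {f g : L} {v w : ℂ}

theorem RegAt.unique (h : RegAt F x f v) (h' : RegAt F x f w) : v = w := by
  obtain ⟨-, a, c, h1, h2, h3⟩ := h
  obtain ⟨-, a', c', h1', h2', h3'⟩ := h'
  have h4 : c' * a = c * a' := by
    apply IsFractionRing.injective R L
    rw [map_mul, map_mul, ← h1, ← h1']
    ring
  have h5 := congrArg (F.ev x) h4
  rw [map_mul, map_mul] at h5
  rw [h3, h3', div_eq_div_iff h2 h2']
  linear_combination h5

theorem RegAt.add (h : RegAt F x f v) (h' : RegAt F x g w) : RegAt F x (f + g) (v + w) := by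
  obtain ⟨hx, a, c, h1, h2, rfl⟩ := h
  obtain ⟨-, a', c', h1', h2', rfl⟩ := h'
  refine ⟨hx, c' * a + c * a', c * c', ?_, ?_, ?_⟩
  · rw [map_mul, map_add, map_mul, map_mul, ← h1, ← h1']
    ring
  · rw [map_mul]; exact mul_ne_zero h2 h2'
  · simp only [map_mul, map_add]
    field_simp

theorem RegAt.mul (h : RegAt F x f v) (h' : RegAt F x g w) : RegAt F x (f * g) (v * w) := by
  obtain ⟨hx, a, c, h1, h2, rfl⟩ := h
  obtain ⟨-, a', c', h1', h2', rfl⟩ := h'
  refine ⟨hx, a * a', c * c', ?_, ?_, ?_⟩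
  · rw [map_mul, map_mul, ← h1, ← h1']
    ring
  · rw [map_mul]; exact mul_ne_zero h2 h2'
  · simp only [map_mul]
    rw [div_mul_div_comm]

theorem regAt_algebraMap (hx : x ∈ F.Xa) (a : R) : RegAt F x (algebraMap R L a) (F.ev x a) :=
  ⟨hx, a, 1, by simp, by simp, by simp⟩

theorem regAt_const (hx : x ∈ F.Xa) (z : ℂ) : RegAt F x (algebraMap ℂ L z) z := by
  have := regAt_algebraMap (F := F) (L := L) hx (algebraMap ℂ R z)
  rw [← IsScalarTower.algebraMap_apply, AlgHom.commutes] at this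
  exact this

theorem regAt_zero (hx : x ∈ F.Xa) : RegAt F x (0 : L) 0 := by
  simpa using regAt_const (F := F) (L := L) hx 0

theorem regAt_one (hx : x ∈ F.Xa) : RegAt F x (1 : L) 1 := by
  simpa using regAt_const (F := F) (L := L) hx 1

theorem RegAt.pow (h : RegAt F x f v) (k : ℕ) : RegAt F x (f ^ k) (v ^ k) := by
  induction k with
  | zero => simpa using regAt_one h.1
  | succ k ih => rw [pow_succ, pow_succ]; exact ih.mul h

theorem RegAt.sum {α : Type*} (hx : x ∈ F.Xa) (s : Finset α) {f : α → L} {v : α → ℂ}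
    (h : ∀ a ∈ s, RegAt F x (f a) (v a)) : RegAt F x (∑ a ∈ s, f a) (∑ a ∈ s, v a) := by
  classical
  induction s using Finset.induction_on with
  | empty => simpa using regAt_zero hx
  | insert a s ha ih =>
    rw [Finset.sum_insert ha, Finset.sum_insert ha]
    exact (h a (Finset.mem_insert_self a s)).add (ih fun b hb => h b (Finset.mem_insert_of_mem hb))

variable (F) in
theorem genF_ev {a : R} (ha : a ≠ 0) : ∀ᶠ x in genF n X, x ∈ F.Xa ∧ F.ev x a ≠ 0 :=
  genF_iff.2 (F.thin a ha)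

variable (F) in
theorem genF_Xa : ∀ᶠ x in genF n X, x ∈ F.Xa := (genF_ev F one_ne_zero).mono fun _ h => h.1

variable (F) in
theorem genF_reg (f : L) : ∀ᶠ x in genF n X, ∃ v, RegAt F x f v := by
  obtain ⟨a, c, hc, rfl⟩ := IsFractionRing.div_surjective (A := R) f
  have hc0 : c ≠ 0 := nonZeroDivisors.ne_zero hc
  filter_upwards [genF_ev F hc0] with x hx
  refine ⟨F.ev x a / F.ev x c, hx.1, a, c, ?_, hx.2, rfl⟩
  rw [mul_div_cancel₀]
  exact fun h => hc0 ((map_eq_zero_iff _ (IsFractionRing.injective R L)).1 h)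

variable (F) in
theorem genF_reg_ne {f : L} (hf : f ≠ 0) : ∀ᶠ x in genF n X, ∃ v, RegAt F x f v ∧ v ≠ 0 := by
  filter_upwards [genF_reg F f, genF_reg F f⁻¹] with x ⟨v, hv⟩ ⟨w, hw⟩
  refine ⟨v, hv, fun h0 => ?_⟩
  have h1 := hv.mul hw
  rw [mul_inv_cancel₀ hf, h0, zero_mul] at h1
  exact zero_ne_one (h1.unique (regAt_one hv.1))

theorem RegAt.inv (h : RegAt F x f v) (h0 : v ≠ 0) : RegAt F x f⁻¹ v⁻¹ := by
  obtain ⟨hx, a, c, h1, h2, rfl⟩ := h
  have ha : F.ev x a ≠ 0 := fun h => h0 (by rw [h, zero_div])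
  have hf : f ≠ 0 := by
    rintro rfl
    rw [mul_zero] at h1
    have : a = 0 := (map_eq_zero_iff _ (IsFractionRing.injective R L)).1 h1.symm
    rw [this, map_zero] at ha
    exact ha rfl
  refine ⟨hx, c, a, ?_, ha, ?_⟩
  · rw [← h1, mul_assoc, mul_inv_cancel₀ hf, mul_one]
  · rw [inv_div]

theorem eq_zero_of_genF [Nonempty X] {f : L} (h : ∀ᶠ x in genF n X, RegAt F x f 0) : f = 0 := by
  by_contra hf
  obtain ⟨x, h1, v, hv, hv0⟩ := (h.and (genF_reg_ne F hf)).exists
  exact hv0 (hv.unique h1)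

/-- `u = f u₀` at the generic point -/
def TRel (F : FM n X R) (f : L) {k : ℕ} (u₀ u : Ten n k X) : Prop :=
  ∀ᶠ x in genF n X, ∃ v, RegAt F x f v ∧ ∀ e : Chart n X, At e x →
    ∀ I, u e (e x) I = v * u₀ e (e x) I

/-- `f` is a quotient of two proportional tensors of the same type -/
def InKp (F : FM n X R) (f : L) : Prop :=
  ∃ (k m : ℕ) (u₀ u : Ten n k X), IsTen k m u₀ ∧ IsTen k m u ∧ TenNZ u₀ ∧ TRel F f u₀ u

theorem TRel.add {k k' : ℕ} {u₀ u : Ten n k X} {t₀ t : Ten n k' X} (h : TRel F f u₀ u)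
    (h' : TRel F g t₀ t) : TRel F (f + g) (tmul u₀ t₀)
      (fun e z I => tmul u t₀ e z I + tmul u₀ t e z I) := by
  filter_upwards [h, h'] with x ⟨v, hv, h1⟩ ⟨w, hw, h2⟩
  refine ⟨v + w, hv.add hw, fun e hx I => ?_⟩
  simp only [tmul, h1 e hx, h2 e hx]
  ring

theorem TRel.mul {k k' : ℕ} {u₀ u : Ten n k X} {t₀ t : Ten n k' X} (h : TRel F f u₀ u)
    (h' : TRel F g t₀ t) : TRel F (f * g) (tmul u₀ t₀) (tmul u t) := by
  filter_upwards [h, h'] with x ⟨v, hv, h1⟩ ⟨w, hw, h2⟩
  refine ⟨v * w, hv.mul hw, fun e hx I => ?_⟩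
  simp only [tmul, h1 e hx, h2 e hx]
  ring

variable [ConnectedSpace X]

theorem tenNZ_tmul {k k' m m' : ℕ} {s : Ten n k X} {t : Ten n k' X} (hs : IsTen k m s)
    (ht : IsTen k' m' t) (hs0 : TenNZ s) (ht0 : TenNZ t) : TenNZ (tmul s t) := by
  obtain ⟨x, hx, hx'⟩ := ((genF_nz hs hs0).and (genF_nz ht ht0)).exists
  have hex : At (chartAt (Cm n) x : Chart n X) x := ⟨chart_mem_atlas _ _, mem_chart_source _ _⟩
  exact tenNZ_iff.2 ⟨x, _, hex, tmul_ne_zero ((mem_nzSet hs hex).1 hx) ((mem_nzSet ht hex).1 hx')⟩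

theorem tenNZ_of_trel {k m : ℕ} {u₀ u : Ten n k X} (hu₀ : IsTen k m u₀) (h0 : TenNZ u₀)
    (hf : f ≠ 0) (h : TRel F f u₀ u) : TenNZ u := by
  obtain ⟨x, ⟨v, hv, h1⟩, ⟨w, hw, hw0⟩, hx⟩ :=
    (h.and ((genF_reg_ne F hf).and (genF_nz hu₀ h0))).exists
  have hex : At (chartAt (Cm n) x : Chart n X) x := ⟨chart_mem_atlas _ _, mem_chart_source _ _⟩
  have h2 := (mem_nzSet hu₀ hex).1 hx
  obtain ⟨I, hI⟩ := Function.ne_iff.1 h2
  refine ⟨_, x, I, hex, ?_⟩
  rw [h1 _ hex I]
  refine mul_ne_zero ?_ hI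
  rwa [hv.unique hw]

theorem TRel.inv {k : ℕ} {u₀ u : Ten n k X} (hf : f ≠ 0) (h : TRel F f u₀ u) :
    TRel F f⁻¹ u u₀ := by
  filter_upwards [h, genF_reg_ne F hf] with x ⟨v, hv, h1⟩ ⟨w, hw, hw0⟩
  obtain rfl := hv.unique hw
  refine ⟨v⁻¹, hv.inv hw0, fun e hx I => ?_⟩
  rw [h1 e hx I, inv_mul_cancel_left₀ hw0]

variable (F L) in
/-- **The field `K'`** of quotients of proportional holomorphic tensors of the same type. -/
def kp : IntermediateField ℂ L where
  carrier := {f | InKp F f}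
  mul_mem' := by
    rintro f g ⟨k, m, u₀, u, h₀, h₁, hz, h⟩ ⟨k', m', t₀, t, h₀', h₁', hz', h'⟩
    exact ⟨k + k', m + m', tmul u₀ t₀, tmul u t, isTen_tmul h₀ h₀', isTen_tmul h₁ h₁',
      tenNZ_tmul h₀ h₀' hz hz', h.mul h'⟩
  add_mem' := by
    rintro f g ⟨k, m, u₀, u, h₀, h₁, hz, h⟩ ⟨k', m', t₀, t, h₀', h₁', hz', h'⟩
    exact ⟨k + k', m + m', tmul u₀ t₀, _, isTen_tmul h₀ h₀',
      isTen_add (isTen_tmul h₁ h₀') (isTen_tmul h₀ h₁'), tenNZ_tmul h₀ h₀' hz hz', h.add h'⟩
  algebraMap_mem' := by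
    intro z
    obtain ⟨x⟩ : Nonempty X := inferInstance
    refine ⟨0, 0, fun _ _ _ => 1, fun _ _ _ => z * 1, isTen_one, isTen_smul isTen_one z,
      ⟨chartAt (Cm n) x, x, Fin.elim0, ⟨chart_mem_atlas _ _, mem_chart_source _ _⟩, one_ne_zero⟩,
      ?_⟩
    filter_upwards [genF_Xa F] with x hx
    exact ⟨z, regAt_const hx z, fun e _ I => rfl⟩
  inv_mem' := by
    rintro f ⟨k, m, u₀, u, h₀, h₁, hz, h⟩
    rcases eq_or_ne f 0 with rfl | hf
    · rw [inv_zero]
      exact ⟨k, m, u₀, u, h₀, h₁, hz, h⟩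
    · exact ⟨k, m, u, u₀, h₁, h₀, tenNZ_of_trel h₀ hz hf h, h.inv hf⟩

theorem mem_kp : f ∈ kp L F ↔ InKp F f := Iff.rfl

end field

end Vale.Agent.P299.H212
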