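import Vale.Agent.P299.H212.CompE

/-!
# P299 / H212: the input of the comparison theorem (5.1)
-/

set_option linter.all false

open scoped Manifold ContDiff Topology
open Filter Set
open Vale.Agent.P272.K (Cm Chart At jacM jmat dz IsCanonicalMetric)
open Vale.Agent.P299.H908 Vale.Agent.P299.H223 Vale.Agent.P299.H216 Vale.Agent.P299.D
open Vale.Agent.P299.H908.ProjData
open Vale.Agent.P300.L2 (Sheets)
open Vale.Agent.P282.L2 (Pol Prim IsPartials)
open Vale.Agent.P299.H340 (Mod)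

noncomputable section

namespace Vale.Agent.P299.H212

/-- enumerate a finite type starting with a given element -/
theorem exists_fin_equiv {ι : Type*} [Fintype ι] (i₀ : ι) :
    ∃ (a : ℕ) (e : Fin (a + 1) ≃ ι), e 0 = i₀ := by
  classical
  have hc : 0 < Fintype.card ι := Fintype.card_pos_iff.2 ⟨i₀⟩
  obtain ⟨a, ha⟩ : ∃ a, Fintype.card ι = a + 1 := ⟨Fintype.card ι - 1, by omega⟩
  let e₀ : Fin (a + 1) ≃ ι := (finCongr ha.symm).trans (Fintype.equivFin ι).symm
  refine ⟨a, e₀.trans (Equiv.swap (e₀ 0) i₀), ?_⟩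
  simp [Equiv.swap_apply_left]

section rbound

variable {n : ℕ} {X : Type} [TopologicalSpace X] [ChartedSpace (Cm n) X]
  (D : ProjData n X)

theorem one_le_sq_xi {x : X} (hx : x ∈ D.Aff) : 1 ≤ sq fun i => D.xi i x := by
  have h1 : ‖D.xi D.j0 x‖ ^ 2 ≤ sq fun i => D.xi i x := le_sq (fun i => D.xi i x) D.j0
  rwa [D.xi_j0 hx, norm_one, one_pow] at h1

/-- polynomials in the affine coordinates are bounded by powers of `|ξ|²` -/
theorem exists_R_bound (f : D.R) : ∃ (C : ℝ) (M : ℕ), 0 ≤ C ∧ ∀ x ∈ D.Aff,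
    ‖D.ext f x‖ ^ 2 ≤ C * (sq fun i => D.xi i x) ^ M := by
  obtain ⟨P, hP⟩ := D.exists_poly f
  refine ⟨(∑ α ∈ P.support, ‖P.coeff α‖) ^ 2, 2 * P.totalDegree, by positivity, fun x hx => ?_⟩
  set Q := sq fun i => D.xi i x with hQ
  have hQ1 : 1 ≤ Q := one_le_sq_xi D hx
  have h1 : ∀ i, ‖D.xi i x‖ ≤ Q := by
    intro i
    have h2 : ‖D.xi i x‖ ^ 2 ≤ Q := le_sq (fun i => D.xi i x) i
    rcases le_total ‖D.xi i x‖ 1 with h3 | h3
    · exact h3.trans hQ1
    · exact (le_self_pow₀ h3 two_ne_zero).trans h2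
  rw [hP x hx, MvPolynomial.eval_eq]
  have h2 : ‖∑ α ∈ P.support, P.coeff α * ∏ i ∈ α.support, D.xi i x ^ α i‖ ≤
      (∑ α ∈ P.support, ‖P.coeff α‖) * Q ^ P.totalDegree := by
    refine (norm_sum_le _ _).trans ?_
    rw [Finset.sum_mul]
    refine Finset.sum_le_sum fun α hα => ?_
    rw [norm_mul]
    refine mul_le_mul_of_nonneg_left ?_ (norm_nonneg _)
    rw [norm_prod]
    calc ∏ i ∈ α.support, ‖D.xi i x ^ α i‖ ≤ ∏ i ∈ α.support, Q ^ α i :=
          Finset.prod_le_prod (fun i _ => norm_nonneg _) fun i _ => by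
            rw [norm_pow]
            exact pow_le_pow_left₀ (norm_nonneg _) (h1 i) _
      _ = Q ^ (α.sum fun _ k => k) := by rw [Finset.prod_pow_eq_pow_sum]; rfl
      _ ≤ Q ^ P.totalDegree := pow_le_pow_right₀ hQ1 (MvPolynomial.le_totalDegree hα)
  calc _ ≤ ((∑ α ∈ P.support, ‖P.coeff α‖) * Q ^ P.totalDegree) ^ 2 :=
        pow_le_pow_left₀ (norm_nonneg _) h2 2
    _ = _ := by rw [mul_pow, ← pow_mul, mul_comm P.totalDegree]

end rbound

variable {n : ℕ} {X : Type} [TopologicalSpace X] [ChartedSpace (Cm n) X] [ConnectedSpace X]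
  {D : ProjData n X}
  [Algebra (Pol n) D.K] [IsScalarTower ℂ (Pol n) D.K] [FaithfulSMul (Pol n) D.K]
  {A : Mod n D.K} {B : Brg A.S X}

section model

variable (hAB : Cmp A B)

include hAB

theorem aeval_xiR (P : MvPolynomial (Fin (D.N + 1)) ℂ) (x : D.Aff) :
    (MvPolynomial.aeval D.xiR P : D.R).1 x = MvPolynomial.eval (fun i => D.xi i x) P := by
  induction P using MvPolynomial.induction_on with
  | C a => simp
  | add p q hp hq =>
    rw [map_add, map_add, ← hp, ← hq]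
    rfl
  | mul_X p i hp =>
    rw [map_mul, map_mul, MvPolynomial.aeval_X, MvPolynomial.eval_X, ← hp]
    rfl

theorem isReg_R (f : D.R) : A.IsReg (algebraMap D.R D.K f) := by
  obtain ⟨P, hP⟩ := (D.mem_R_iff f.1).1 f.2
  have hf : f = MvPolynomial.aeval D.xiR P := by
    apply Subtype.ext
    funext x
    rw [aeval_xiR hAB P x, hP]
  have h1 : ∀ P : MvPolynomial (Fin (D.N + 1)) ℂ,
      A.IsReg (algebraMap D.R D.K (MvPolynomial.aeval D.xiR P)) := by
    intro P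
    induction P using MvPolynomial.induction_on with
    | C a =>
      have : algebraMap D.R D.K (MvPolynomial.aeval D.xiR (MvPolynomial.C a)) =
          algebraMap ℂ D.K a := by
        rw [IsScalarTower.algebraMap_apply ℂ D.R D.K, MvPolynomial.aeval_C]
      rw [this]
      exact Mod.isReg_const a
    | add p q hp hq => rw [map_add, map_add]; exact hp.add hq
    | mul_X p i hp =>
      rw [map_mul, map_mul, MvPolynomial.aeval_X]
      exact hp.mul (hAB.regxi i)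
  rw [hf]
  exact h1 P

theorem val_R (f : D.R) {q : (Fin n → ℂ) × ℕ} (hq : q ∈ A.S.M) :
    A.val (algebraMap D.R D.K f) q = D.ext f (B.j q) := by
  have h1 := hAB.reg _ (isReg_R hAB f) _ (B.j_mem hq)
  rw [B.θ_j hq] at h1
  rw [← h1.2, val_algebraMap _ h1.1.aff]

theorem Xi_eq {q : (Fin n → ℂ) × ℕ} (hq : q ∈ A.S.M) (i : Fin (D.N + 1)) :
    Xi A i q = D.xi i (B.j q) := by
  have := hAB.xiData.eq _ (B.j_mem hq) i
  rwa [B.θ_j hq] at this

theorem one_le_sqXi {q : (Fin n → ℂ) × ℕ} (hq : q ∈ A.S.M) : 1 ≤ sq fun i => Xi A i q := by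
  have := one_le_sq_Xi hAB.xiData (B.j_mem hq)
  rwa [B.θ_j hq] at this

theorem exists_val_R_bound (f : D.R) : ∃ (C : ℝ) (M : ℕ), 0 ≤ C ∧ ∀ q ∈ A.S.M,
    ‖A.val (algebraMap D.R D.K f) q‖ ^ 2 ≤ C * (sq fun i => Xi A i q) ^ M := by
  obtain ⟨C, M, hC, hb⟩ := exists_R_bound D f
  refine ⟨C, M, hC, fun q hq => ?_⟩
  have h1 : (fun i => Xi A i q) = fun i => D.xi i (B.j q) := funext fun i => Xi_eq hAB hq i
  rw [val_R hAB f hq, h1]
  exact hb _ (hAB.aff _ (B.j_mem hq))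

/-- a common denominator of the derivatives of the affine coordinates -/
theorem exists_zeta {d : Fin n → Derivation ℂ D.K D.K} (hd : IsPartials d) :
    ∃ (ζ : D.K) (C : ℝ) (M : ℕ), ζ ≠ 0 ∧ A.IsReg ζ ∧ 0 ≤ C ∧ ∀ q ∈ A.S.M,
      ‖A.val ζ q‖ ^ 2 * dsq A.S (Xi A) q ≤ C * (sq fun i => Xi A i q) ^ M := by
  classical
  obtain ⟨b, hb⟩ := IsLocalization.exist_integer_multiples_of_finset (nonZeroDivisors D.R)
    (Finset.univ.image fun pi : Fin n × Fin (D.N + 1) => d pi.1 (D.xiK pi.2))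
  have h1 : ∀ p i, ∃ f : D.R, algebraMap D.R D.K f = algebraMap D.R D.K b * d p (D.xiK i) := by
    intro p i
    obtain ⟨f, hf⟩ := hb (d p (D.xiK i)) (Finset.mem_image.2 ⟨(p, i), Finset.mem_univ _, rfl⟩)
    refine ⟨f, ?_⟩
    rw [hf, Algebra.smul_def]
  choose f hf using h1
  choose C M hC hbd using fun p i => exists_val_R_bound hAB (f p i)
  have hb0 : algebraMap D.R D.K b ≠ 0 := by
    rw [ne_eq, FaithfulSMul.algebraMap_eq_zero_iff]
    exact nonZeroDivisors.ne_zero b.2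
  refine ⟨algebraMap D.R D.K b, ∑ p, ∑ i, C p i, ∑ p, ∑ i, M p i, hb0, isReg_R hAB b, ?_, ?_⟩
  · exact Finset.sum_nonneg fun p _ => Finset.sum_nonneg fun i _ => hC p i
  · intro q hq
    have hQ1 := one_le_sqXi hAB hq
    unfold dsq
    rw [Finset.mul_sum, Finset.sum_mul]
    refine Finset.sum_le_sum fun p _ => ?_
    show _ * ∑ i, ‖A.S.D p (Xi A i) q‖ ^ 2 ≤ _
    rw [Finset.mul_sum, Finset.sum_mul]
    refine Finset.sum_le_sum fun i _ => ?_
    have h2 : ‖A.val (algebraMap D.R D.K b) q‖ ^ 2 * ‖A.S.D p (Xi A i) q‖ ^ 2 =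
        ‖A.val (algebraMap D.R D.K (f p i)) q‖ ^ 2 := by
      have h3 : A.S.D p (Xi A i) q = A.val (d p (D.xiK i)) q := Mod.D_val hd (hAB.regxi i) hq p
      rw [h3, hf, Mod.val_mul hq (isReg_R hAB b) (Mod.IsReg.d hd (hAB.regxi i) p), norm_mul, mul_pow]
    rw [h2]
    refine (hbd p i q hq).trans (mul_le_mul_of_nonneg_left ?_ (hC p i))
    refine pow_le_pow_right₀ hQ1 ?_
    refine le_trans ?_ (Finset.single_le_sum (f := fun p => ∑ i, M p i)
      (fun p _ => Nat.zero_le _) (Finset.mem_univ p))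
    exact Finset.single_le_sum (f := fun i => M p i) (fun i _ => Nat.zero_le _) (Finset.mem_univ i)

end model

section growth

variable [IsManifold 𝓘(ℂ, Cm n) ω X] [CompactSpace X] [Algebra (FractionRing (Pol n)) D.K]
  [IsScalarTower (Pol n) (FractionRing (Pol n)) D.K]
  [FiniteDimensional (FractionRing (Pol n)) D.K] {φ : Chart n X → Cm n → ℝ}

/-- `exp (wt φ)` has polynomial growth -/
theorem gr_exp_wt (hAB : Cmp A B) (hs : ∀ e x, At e x → ContinuousAt (φ e) (e x))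
    (hc : ∀ e e' x, At e x → At e' x →
      φ e (e x) = φ e' (e' x) + Real.log (‖(jacM e e' x).det‖ ^ 2)) :
    Gr A fun q => Real.exp (B.wt φ q) := by
  obtain ⟨d, hd⟩ := Vale.Agent.P282.Full.exists_partials n D.K
  obtain ⟨C, hC, hb⟩ := exists_kx hAB.xiData hs hc
  have h1 : Gr A fun q => C * ∑ L, ‖A.val (mK d L) q‖ ^ 2 :=
    (Gr.const C).mul (Gr.sum _ fun L _ => gr_val (isReg_mK hAB hd L))
      fun q => Finset.sum_nonneg fun L _ => by positivity
  refine h1.mono fun q hq => (hb q hq).1.trans ?_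
  refine mul_le_mul_of_nonneg_left ?_ hC.le
  rw [← qz_eq_sum hAB hd hq]
  exact le_mul_of_one_le_right (qz_nonneg _ _ _) (one_le_pow₀ (one_le_sqXi hAB hq))

/-- `exp (- wt φ)` has polynomial growth -/
theorem gr_exp_neg_wt (hAB : Cmp A B) (hs : ∀ e x, At e x → ContinuousAt (φ e) (e x))
    (hc : ∀ e e' x, At e x → At e' x →
      φ e (e x) = φ e' (e' x) + Real.log (‖(jacM e e' x).det‖ ^ 2)) :
    Gr A fun q => Real.exp (- B.wt φ q) := by
  obtain ⟨d, hd⟩ := Vale.Agent.P282.Full.exists_partials n D.K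
  obtain ⟨C, hC, hb⟩ := exists_kx hAB.xiData hs hc
  obtain ⟨c, l, hc, hlow⟩ := exists_lower (A := A) (fun L => isReg_mK hAB hd L)
    (fun q hq => exists_mK_ne hAB hd hq)
  have hp : Gr A fun q => (1 + A.p q.1) := ⟨1, 1, zero_le_one, fun q _ => by simp⟩
  have hp0 : ∀ q : (Fin n → ℂ) × ℕ, 0 ≤ 1 + A.p q.1 := fun q => by
    have := A.p_nonneg q.1
    linarith
  have h1 : Gr A fun q => C * (c * (1 + A.p q.1) ^ l * sq (fun i => Xi A i q) ^ (n + 1)) := by
    refine (Gr.const C).mul ?_ fun q => ?_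
    · refine Gr.mul ?_ ((gr_sq hAB).pow (fun q => sq_nonneg' _) _) fun q =>
        pow_nonneg (sq_nonneg' _) _
      exact (Gr.const c).mul (hp.pow hp0 l) (fun q => pow_nonneg (hp0 q) _)
    · exact mul_nonneg (mul_nonneg hc.le (pow_nonneg (hp0 q) _)) (pow_nonneg (sq_nonneg' _) _)
  refine h1.mono fun q hq => ?_
  have h2 := (hb q hq).2
  have h3 := hlow q hq
  rw [← qz_eq_sum hAB hd hq] at h3
  set P := c * (1 + A.p q.1) ^ l * sq (fun i => Xi A i q) ^ (n + 1) with hP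
  have hP0 : 0 ≤ P :=
    mul_nonneg (mul_nonneg hc.le (pow_nonneg (hp0 q) _)) (pow_nonneg (sq_nonneg' _) _)
  have h4 : 1 ≤ qz A.S (Xi A) q * P := by
    calc (1 : ℝ) ≤ c * (1 + A.p q.1) ^ l * (qz A.S (Xi A) q * sq (fun i => Xi A i q) ^ (n + 1)) := h3
      _ = _ := by rw [hP]; ring
  have h5 : 1 ≤ (C * P) * Real.exp (B.wt φ q) := by
    calc (1 : ℝ) ≤ qz A.S (Xi A) q * P := h4
      _ ≤ (C * Real.exp (B.wt φ q)) * P := mul_le_mul_of_nonneg_right h2 hP0
      _ = _ := by ring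
  rw [Real.exp_neg, inv_le_iff_one_le_mul₀ (Real.exp_pos _)]
  exact h5

end growth

end Vale.Agent.P299.H212
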