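import Vale.Agent.P299.H212.Minors

/-!
# P299 / H212: the weight of the anticanonical bundle is algebraic up to `O(1)`
-/

set_option linter.all false

open scoped Manifold ContDiff Topology
open Filter Set
open Vale.Agent.P272.K (Cm Chart At jacM jmat dz IsCanonicalMetric)
open Vale.Agent.P299.H908 Vale.Agent.P299.H223 Vale.Agent.P299.H216 Vale.Agent.P299.D
open Vale.Agent.P300.L2 (Sheets)

noncomputable section

namespace Vale.Agent.P299.H212

variable {n N : ℕ} {X : Type} [TopologicalSpace X] [ChartedSpace (Cm n) X] [Nonempty X]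
  {D : ProjData n X} {S : Sheets n N} (B : Brg S X)

/-- `Ξ` are the affine coordinates as functions on the cover -/
structure XiData (D : ProjData n X) (B : Brg S X)
    (Ξ : Fin (D.N + 1) → (Fin n → ℂ) × ℕ → ℂ) : Prop where
  aff : ∀ x ∈ B.Xo, x ∈ D.Aff
  eq : ∀ x ∈ B.Xo, ∀ i, Ξ i (B.θ x) = D.xi i x

/-- the rows `ξ, ∂_{z_1} ξ, …, ∂_{z_n} ξ` on the cover -/
def rwz {κ : Type*} (S : Sheets n N) (Ξ : κ → (Fin n → ℂ) × ℕ → ℂ) (q : (Fin n → ℂ) × ℕ) :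
    Fin (n + 1) → κ → ℂ := Fin.cons (fun i => Ξ i q) fun p i => S.D p (Ξ i) q

/-- `Σ_{p,i} |∂_{z_p} ξ_i|²` -/
def dsq {κ : Type*} [Fintype κ] (S : Sheets n N) (Ξ : κ → (Fin n → ℂ) × ℕ → ℂ)
    (q : (Fin n → ℂ) × ℕ) : ℝ := ∑ p, sq fun i => S.D p (Ξ i) q

theorem le_dsq {κ : Type*} [Fintype κ] (S : Sheets n N) (Ξ : κ → (Fin n → ℂ) × ℕ → ℂ)
    (q : (Fin n → ℂ) × ℕ) (p : Fin n) (i : κ) : ‖S.D p (Ξ i) q‖ ^ 2 ≤ dsq S Ξ q :=
  (le_sq (fun i => S.D p (Ξ i) q) i).trans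
    (Finset.single_le_sum (f := fun p => sq fun i => S.D p (Ξ i) q)
      (fun p _ => sq_nonneg' _) (Finset.mem_univ p))

theorem dsq_nonneg {κ : Type*} [Fintype κ] (S : Sheets n N) (Ξ : κ → (Fin n → ℂ) × ℕ → ℂ)
    (q : (Fin n → ℂ) × ℕ) : 0 ≤ dsq S Ξ q := Finset.sum_nonneg fun p _ => sq_nonneg' _

/-- `Σ|minors|² / |ξ|^{2(n+1)}` on the cover -/
def qz {κ : Type*} [Fintype κ] (S : Sheets n N) (Ξ : κ → (Fin n → ℂ) × ℕ → ℂ)
    (q : (Fin n → ℂ) × ℕ) : ℝ :=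
  sq (mnr (rwz S Ξ q)) / sq (fun i => Ξ i q) ^ (n + 1)

variable {B} {Ξ : Fin (D.N + 1) → (Fin n → ℂ) × ℕ → ℂ}

omit [ChartedSpace (Cm n) X] [Nonempty X] in
theorem xi_eq_mul {n : ℕ} {X : Type} [TopologicalSpace X] [ChartedSpace (Cm n) X]
    {D : ProjData n X} {y : X} {j : Fin (D.N + 1)} (hj : D.Z y j ≠ 0) (i : Fin (D.N + 1)) :
    D.xi i y = D.xi j y * dh D j y i := by
  simp only [ProjData.xi, dh]
  field_simp

theorem xi_ne {y : X} {j : Fin (D.N + 1)} (hy : y ∈ D.Aff) (hj : D.Z y j ≠ 0) :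
    D.xi j y ≠ 0 := div_ne_zero hj hy

theorem xi_comp_analyticAt {x : X} (hx : x ∈ D.Aff) {e : Chart n X} (he : At e x)
    (i : Fin (D.N + 1)) : AnalyticAt ℂ (fun w => D.xi i (e.symm w)) (e x) :=
  D.xi_holAt hx i e he

section rel

variable (hΞ : XiData D B Ξ)

include hΞ in
/-- the relation between the rows, row `p + 1` -/
theorem rwz_succ_eq {x : X} (hx : x ∈ B.Xo) {j : Fin (D.N + 1)} (hj : D.Z x j ≠ 0)
    {e : Chart n X} (he : At e x) (p : Fin n) (i : Fin (D.N + 1)) :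
    rwz S Ξ (B.θ x) p.succ i = S.D p (Ξ j) (B.θ x) * rwe D j e x 0 i +
      ∑ q, (D.xi j x * (B.J e x)⁻¹ q p) * rwe D j e x q.succ i := by
  obtain ⟨s, W, hs, z₀, hz, hq⟩ := Sheets.exists_section' (B.maps x hx)
  have hjx : B.j (z₀, s z₀) = x := by rw [← hq]; exact B.j_θ hx
  have he' : At e (B.j (z₀, s z₀)) := by rw [hjx]; exact he
  set τ : Cm n → Cm n := fun z => e (B.j (z, s z)) with hτ
  have hτa : AnalyticAt ℂ τ z₀ := B.lc_analyticAt hs hz he'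
  have hτx : τ z₀ = e x := by rw [hτ]; simp only [hjx]
  have hev := B.lc_eventually hs hz he'
  have hJ : jmat τ z₀ = (B.J e x)⁻¹ := by
    have h1 := B.J_mul_lc hs hz he'
    rw [hjx] at h1
    exact (Matrix.inv_eq_right_inv h1).symm
  -- coordinates near `z₀`
  have hsymm : Tendsto (fun z => e.symm (τ z)) (𝓝 z₀) (𝓝 x) := by
    have h1 : Tendsto τ (𝓝 z₀) (𝓝 (e x)) := by
      have := hτa.continuousAt.tendsto
      rwa [hτx] at this
    exact (tendsto_symm he).comp h1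
  have hΞn : ∀ i, (fun z => Ξ i (z, s z)) =ᶠ[𝓝 z₀] fun z => D.xi i (e.symm (τ z)) := by
    intro i
    filter_upwards [hev] with z hz'
    obtain ⟨h1, h2, h3, h4, h5⟩ := hz'
    have h6 := hΞ.eq _ h3 i
    rw [B.θ_j (hs.mem_M h1)] at h6
    rw [h6]
    show _ = D.xi i (e.symm (e (B.j (z, s z))))
    rw [h4]
  have hfa : ∀ i, AnalyticAt ℂ (fun w => D.xi i (e.symm w)) (τ z₀) := fun i => by
    rw [hτx]; exact xi_comp_analyticAt (hΞ.aff x hx) he i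
  have hga : AnalyticAt ℂ (fun w => dh D j (e.symm w) i) (τ z₀) := by
    rw [hτx]; exact dh_comp_analyticAt hj he i
  have hjd : AnalyticAt ℂ (fun z => D.xi j (e.symm (τ z))) z₀ :=
    AnalyticAt.comp (g := fun w => D.xi j (e.symm w)) (hfa j) hτa
  have hgd : AnalyticAt ℂ (fun z => dh D j (e.symm (τ z)) i) z₀ :=
    AnalyticAt.comp (g := fun w => dh D j (e.symm w) i) hga hτa
  have h1 : (fun z => Ξ i (z, s z)) =ᶠ[𝓝 z₀]
      fun z => D.xi j (e.symm (τ z)) * dh D j (e.symm (τ z)) i := by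
    filter_upwards [hΞn i, hsymm.eventually ((isOpen_Wj D j).mem_nhds hj)] with z h2 h3
    rw [h2]
    exact xi_eq_mul h3 i
  have h2 : S.D p (Ξ i) (B.θ x) = dz p (fun z => Ξ i (z, s z)) z₀ := by
    rw [hq]; exact Sheets.D_apply hs hz
  have h3 : S.D p (Ξ j) (B.θ x) = dz p (fun z => D.xi j (e.symm (τ z))) z₀ := by
    rw [hq]
    exact (Sheets.D_apply hs hz).trans (Vale.Agent.P272.K.dz_congr (hΞn j))
  have h4 : dz p (fun z => dh D j (e.symm (τ z)) i) z₀ =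
      ∑ q, dz q (fun w => dh D j (e.symm w) i) (e x) * (B.J e x)⁻¹ q p := by
    rw [← hJ, ← hτx]
    exact Vale.Agent.P272.K.dz_comp_holo (f := fun w => dh D j (e.symm w) i)
      (hga.differentiableAt.restrictScalars ℝ) hτa.differentiableAt
  show S.D p (Ξ i) (B.θ x) = S.D p (Ξ j) (B.θ x) * dh D j x i +
    ∑ q, (D.xi j x * (B.J e x)⁻¹ q p) * dz q (fun w => dh D j (e.symm w) i) (e x)
  rw [h2, h3, Vale.Agent.P272.K.dz_congr h1, Vale.Agent.P272.K.dz_mul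
    (hjd.differentiableAt.restrictScalars ℝ) (hgd.differentiableAt.restrictScalars ℝ), h4,
    hτx, he.left_inv, Finset.mul_sum]
  have h5 : ∀ q, D.xi j x * (dz q (fun w => dh D j (e.symm w) i) (e x) * (B.J e x)⁻¹ q p) =
      (D.xi j x * (B.J e x)⁻¹ q p) * dz q (fun w => dh D j (e.symm w) i) (e x) := fun q => by ring
  simp only [h5]

include hΞ in
theorem rwz_zero_eq {x : X} (hx : x ∈ B.Xo) {j : Fin (D.N + 1)} (hj : D.Z x j ≠ 0)
    (e : Chart n X) (i : Fin (D.N + 1)) :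
    rwz S Ξ (B.θ x) 0 i = D.xi j x * rwe D j e x 0 i := by
  show Ξ i (B.θ x) = D.xi j x * dh D j x i
  rw [hΞ.eq x hx]
  exact xi_eq_mul hj i

include hΞ in
theorem mnr_rwz {x : X} (hx : x ∈ B.Xo) {j : Fin (D.N + 1)} (hj : D.Z x j ≠ 0)
    {e : Chart n X} (he : At e x) (K : Fin (n + 1) → Fin (D.N + 1)) :
    mnr (rwz S Ξ (B.θ x)) K = (D.xi j x ^ (n + 1) * (B.J e x).det⁻¹) * mnr (rwe D j e x) K := by
  have h1 := mnr_mix (R := rwe D j e x) (R' := rwz S Ξ (B.θ x)) (c := D.xi j x)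
    (d := fun p => S.D p (Ξ j) (B.θ x)) (A := D.xi j x • ((B.J e x)⁻¹).transpose)
    (rwz_zero_eq hΞ hx hj e) (fun p i => by
      rw [rwz_succ_eq hΞ hx hj he p i]
      rfl) K
  rw [h1, Matrix.det_smul, Matrix.det_transpose, Matrix.det_nonsing_inv, Ring.inverse_eq_inv',
    Fintype.card_fin, pow_succ]
  ring

include hΞ in
theorem sq_Xi {x : X} (hx : x ∈ B.Xo) {j : Fin (D.N + 1)} (hj : D.Z x j ≠ 0) :
    sq (fun i => Ξ i (B.θ x)) = ‖D.xi j x‖ ^ 2 * sq (dh D j x) := by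
  rw [← sq_mul]
  congr 1
  funext i
  rw [hΞ.eq x hx]
  exact xi_eq_mul hj i

include hΞ in
theorem one_le_sq_Xi {x : X} (hx : x ∈ B.Xo) : 1 ≤ sq (fun i => Ξ i (B.θ x)) := by
  have h1 : ‖Ξ D.j0 (B.θ x)‖ ^ 2 ≤ sq (fun i => Ξ i (B.θ x)) :=
    le_sq (fun i => Ξ i (B.θ x)) D.j0
  rw [hΞ.eq x hx, D.xi_j0 (hΞ.aff x hx), norm_one, one_pow] at h1
  exact h1

include hΞ in
theorem qz_eq {x : X} (hx : x ∈ B.Xo) {j : Fin (D.N + 1)} (hj : D.Z x j ≠ 0)
    {e : Chart n X} (he : At e x) :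
    qz S Ξ (B.θ x) = (‖(B.J e x).det‖ ^ 2)⁻¹ * qr D j e x := by
  have h1 : mnr (rwz S Ξ (B.θ x)) = fun K =>
      (D.xi j x ^ (n + 1) * (B.J e x).det⁻¹) * mnr (rwe D j e x) K := by
    funext K
    exact mnr_rwz hΞ hx hj he K
  have h2 : ‖D.xi j x‖ ≠ 0 := norm_ne_zero_iff.2 (xi_ne (hΞ.aff x hx) hj)
  have h3 : sq (dh D j x) ≠ 0 := (dh_sq_pos hj).ne'
  rw [qz, h1, sq_mul, sq_Xi hΞ hx hj, qr, norm_mul, norm_pow, norm_inv]
  have h4 : ‖(B.J e x).det‖ ≠ 0 := by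
    rw [norm_ne_zero_iff]
    exact B.J_det (e := e) he hx
  rw [mul_pow, mul_pow, ← pow_mul, ← pow_mul, mul_comm 2 (n + 1)]
  field_simp

end rel

section kx

variable [IsManifold 𝓘(ℂ, Cm n) ω X] [CompactSpace X] {φ : Chart n X → Cm n → ℝ}

theorem qz_nonneg {κ : Type*} [Fintype κ] (S : Sheets n N) (Ξ : κ → (Fin n → ℂ) × ℕ → ℂ)
    (q : (Fin n → ℂ) × ℕ) : 0 ≤ qz S Ξ q :=
  div_nonneg (sq_nonneg' _) (pow_nonneg (sq_nonneg' _) _)

theorem exp_wt_eq (hc : ∀ e e' x, At e x → At e' x →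
      φ e (e x) = φ e' (e' x) + Real.log (‖(jacM e e' x).det‖ ^ 2))
    {x : X} (hx : x ∈ B.Xo) {e : Chart n X} (he : At e x) :
    Real.exp (B.wt φ (B.θ x)) = (‖(B.J e x).det‖ ^ 2)⁻¹ * Real.exp (φ e (e x)) := by
  have h1 := B.wt_eq hc (B.maps x hx) (e := e) (by rw [B.j_θ hx]; exact he)
  rw [B.j_θ hx] at h1
  have h2 : 0 < ‖(B.J e x).det‖ ^ 2 := by
    have := norm_pos_iff.2 (B.J_det he hx)
    positivity
  rw [h1, Real.exp_sub, Real.exp_log h2]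
  ring

/-- **the weight of the anticanonical bundle is algebraic up to `O(1)`** -/
theorem exists_kx (hΞ : XiData D B Ξ)
    (hs : ∀ e x, At e x → ContinuousAt (φ e) (e x))
    (hc : ∀ e e' x, At e x → At e' x →
      φ e (e x) = φ e' (e' x) + Real.log (‖(jacM e e' x).det‖ ^ 2)) :
    ∃ C : ℝ, 0 < C ∧ ∀ q ∈ S.M, Real.exp (B.wt φ q) ≤ C * qz S Ξ q ∧
      qz S Ξ q ≤ C * Real.exp (B.wt φ q) := by
  obtain ⟨C, hC⟩ := exists_unif (X := X) (P := fun C x => x ∈ B.Xo →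
    Real.exp (B.wt φ (B.θ x)) ≤ C * qz S Ξ (B.θ x) ∧
      qz S Ξ (B.θ x) ≤ C * Real.exp (B.wt φ (B.θ x))) (by
    intro x C C' hCC h hx
    obtain ⟨h1, h2⟩ := h hx
    exact ⟨h1.trans (mul_le_mul_of_nonneg_right hCC (qz_nonneg _ _ _)),
      h2.trans (mul_le_mul_of_nonneg_right hCC (Real.exp_pos _).le)⟩) (by
    intro x₀
    have he := at_chartAt' (n := n) x₀
    set e : Chart n X := chartAt (Cm n) x₀ with hed
    set j := jj D x₀ with hjd
    have hj : D.Z x₀ j ≠ 0 := jj_ne D x₀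
    have hφ : ContinuousAt (fun x => φ e (e x)) x₀ :=
      ContinuousAt.comp (g := φ e) (hs e x₀ he) (continuousAt_chart he)
    have b1 := bdd_of_continuousAt (Real.continuous_exp.continuousAt.comp hφ)
    have b2 := bdd_of_continuousAt (Real.continuous_exp.continuousAt.comp hφ.neg)
    have b3 := bdd_of_continuousAt (qr_continuousAt hj he)
    have b4 := bdd_of_continuousAt ((qr_continuousAt hj he).inv₀ (qr_pos hj he).ne')
    set C1 := (Real.exp ∘ fun x => φ e (e x)) x₀ + 1 with hC1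
    set C2 := (Real.exp ∘ fun x => - φ e (e x)) x₀ + 1 with hC2
    set C3 := qr D j e x₀ + 1 with hC3
    set C4 := (qr D j e x₀)⁻¹ + 1 with hC4
    have hC1p : 0 < C1 := add_pos (Real.exp_pos _) one_pos
    have hC2p : 0 < C2 := add_pos (Real.exp_pos _) one_pos
    have hC3p : 0 < C3 := add_pos (qr_pos hj he) one_pos
    have hC4p : 0 < C4 := add_pos (inv_pos.2 (qr_pos hj he)) one_pos
    refine ⟨max (C1 * C4) (C3 * C2), ?_⟩
    filter_upwards [b1, b2, b3, b4, e.open_source.mem_nhds he.2,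
      (isOpen_Wj D j).mem_nhds hj] with x h1 h2 h3 h4 h5 h6 hx
    have hex : At e x := ⟨he.1, h5⟩
    have hJ : 0 < (‖(B.J e x).det‖ ^ 2)⁻¹ := by
      have := norm_pos_iff.2 (B.J_det hex hx)
      positivity
    have hq := qr_pos (D := D) h6 hex
    have h1' : Real.exp (φ e (e x)) ≤ C1 := h1
    have h2' : Real.exp (-φ e (e x)) ≤ C2 := h2
    have h4' : (qr D j e x)⁻¹ ≤ C4 := h4
    rw [exp_wt_eq hc hx hex, qz_eq hΞ hx h6 hex]
    have h7 : 1 ≤ C4 * qr D j e x := by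
      have := mul_le_mul_of_nonneg_right h4' hq.le
      rwa [inv_mul_cancel₀ hq.ne'] at this
    have h8 : 1 ≤ C2 * Real.exp (φ e (e x)) := by
      have := mul_le_mul_of_nonneg_right h2' (Real.exp_pos (φ e (e x))).le
      rwa [← Real.exp_add, neg_add_cancel, Real.exp_zero] at this
    constructor
    · calc (‖(B.J e x).det‖ ^ 2)⁻¹ * Real.exp (φ e (e x))
          ≤ (‖(B.J e x).det‖ ^ 2)⁻¹ * C1 := mul_le_mul_of_nonneg_left h1' hJ.le
        _ ≤ (‖(B.J e x).det‖ ^ 2)⁻¹ * (C1 * (C4 * qr D j e x)) := by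
            refine mul_le_mul_of_nonneg_left ?_ hJ.le
            exact le_mul_of_one_le_right hC1p.le h7
        _ = (C1 * C4) * ((‖(B.J e x).det‖ ^ 2)⁻¹ * qr D j e x) := by ring
        _ ≤ _ := mul_le_mul_of_nonneg_right (le_max_left _ _) (mul_nonneg hJ.le hq.le)
    · calc (‖(B.J e x).det‖ ^ 2)⁻¹ * qr D j e x
          ≤ (‖(B.J e x).det‖ ^ 2)⁻¹ * C3 := mul_le_mul_of_nonneg_left h3 hJ.le
        _ ≤ (‖(B.J e x).det‖ ^ 2)⁻¹ * (C3 * (C2 * Real.exp (φ e (e x)))) := by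
            refine mul_le_mul_of_nonneg_left ?_ hJ.le
            exact le_mul_of_one_le_right hC3p.le h8
        _ = (C3 * C2) * ((‖(B.J e x).det‖ ^ 2)⁻¹ * Real.exp (φ e (e x))) := by ring
        _ ≤ _ := mul_le_mul_of_nonneg_right (le_max_right _ _)
          (mul_nonneg hJ.le (Real.exp_pos _).le))
  refine ⟨max C 1, by positivity, fun q hq => ?_⟩
  obtain ⟨h1, h2⟩ := hC (B.j q) (B.j_mem hq)
  rw [B.θ_j hq] at h1 h2
  exact ⟨h1.trans (mul_le_mul_of_nonneg_right (le_max_left _ _) (qz_nonneg _ _ _)),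
    h2.trans (mul_le_mul_of_nonneg_right (le_max_left _ _) (Real.exp_pos _).le)⟩

end kx

end Vale.Agent.P299.H212
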