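import Vale.Agent.P299.H212.In51

/-!
# P299 / H212: the input of the comparison theorem (5.1), final form
-/

set_option linter.all false

open scoped Manifold ContDiff Topology
open Filter Set
open Vale.Agent.P272.K (Cm Chart At jacM jmat dz IsCanonicalMetric)
open Vale.Agent.P299.H908 Vale.Agent.P299.H223 Vale.Agent.P299.H216 Vale.Agent.P299.D
open Vale.Agent.P299.H908.ProjData
open Vale.Agent.P300.L2 (Sheets)
open Vale.Agent.P282.L2 (Pol Prim IsPartials)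
open Vale.Agent.P299.H340 (Mod)

noncomputable section

namespace Vale.Agent.P299.H212

variable {n : ℕ} {X : Type} [TopologicalSpace X] [ChartedSpace (Cm n) X] [ConnectedSpace X]
  {D : ProjData n X}

theorem xiR_j0 (D : ProjData n X) : D.xiR D.j0 = 1 := by
  apply Subtype.ext
  funext x
  exact D.xi_j0 x.2

theorem xiK_j0 (D : ProjData n X) : D.xiK D.j0 = 1 := by
  unfold ProjData.xiK
  rw [xiR_j0, map_one]

/-- the affine coordinates generate the function field -/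
theorem adjoin_xiK (D : ProjData n X) :
    IntermediateField.adjoin ℂ (Set.range fun i => D.xiK i) = ⊤ := by
  rw [eq_top_iff]
  intro f _
  obtain ⟨a, c, hc, rfl⟩ := IsFractionRing.div_surjective (A := D.R) f
  have h1 : ∀ a : D.R, algebraMap D.R D.K a ∈
      IntermediateField.adjoin ℂ (Set.range fun i => D.xiK i) := by
    intro a
    obtain ⟨P, hP⟩ := (D.mem_R_iff a.1).1 a.2
    have hf : a = MvPolynomial.aeval D.xiR P := by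
      apply Subtype.ext
      funext x
      have h2 : ∀ P : MvPolynomial (Fin (D.N + 1)) ℂ, (MvPolynomial.aeval D.xiR P : D.R).1 x =
          MvPolynomial.eval (fun i => D.xi i x) P := by
        intro P
        induction P using MvPolynomial.induction_on with
        | C a => simp
        | add p q hp hq =>
          rw [map_add, map_add, ← hp, ← hq]
          rfl
        | mul_X p i hp =>
          rw [map_mul, map_mul, MvPolynomial.aeval_X, MvPolynomial.eval_X, ← hp]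
          rfl
      rw [h2, hP]
    rw [hf]
    clear hf hP
    induction P using MvPolynomial.induction_on with
    | C a =>
      have : algebraMap D.R D.K (MvPolynomial.aeval D.xiR (MvPolynomial.C a)) =
          algebraMap ℂ D.K a := by
        rw [IsScalarTower.algebraMap_apply ℂ D.R D.K, MvPolynomial.aeval_C]
      rw [this]
      exact IntermediateField.algebraMap_mem _ _
    | add p q hp hq => rw [map_add, map_add]; exact add_mem hp hq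
    | mul_X p i hp =>
      rw [map_mul, map_mul, MvPolynomial.aeval_X]
      exact mul_mem hp (IntermediateField.subset_adjoin _ _ ⟨i, rfl⟩)
  exact div_mem (h1 a) (h1 c)

variable [Algebra (Pol n) D.K] [IsScalarTower ℂ (Pol n) D.K] [FaithfulSMul (Pol n) D.K]
  {A : Mod n D.K} {B : Brg A.S X} [IsManifold 𝓘(ℂ, Cm n) ω X] [CompactSpace X]
  [Algebra (FractionRing (Pol n)) D.K] [IsScalarTower (Pol n) (FractionRing (Pol n)) D.K]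
  [FiniteDimensional (FractionRing (Pol n)) D.K] {φ : Chart n X → Cm n → ℝ}

/-- the key estimate -/
theorem key_bound (hAB : Cmp A B) (hs : ∀ e x, At e x → ContinuousAt (φ e) (e x))
    (hc : ∀ e e' x, At e x → At e' x →
      φ e (e x) = φ e' (e' x) + Real.log (‖(jacM e e' x).det‖ ^ 2))
    {d : Fin n → Derivation ℂ D.K D.K} (hd : IsPartials d) {ζ : D.K} {C₀ : ℝ} {M : ℕ}
    (hζ : ∀ q ∈ A.S.M, ‖A.val ζ q‖ ^ 2 * dsq A.S (Xi A) q ≤ C₀ * (sq fun i => Xi A i q) ^ M)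
    (L : Fin (n + 1) → Fin (D.N + 1)) {p N₀ m₁ : ℕ} {u : Ten n p X} (hu : IsTen p (N₀ + m₁) u) :
    ∃ C : ℝ, 0 ≤ C ∧ ∀ q ∈ A.S.M, ∀ I, (‖A.val ζ q‖ ^ 2) ^ p * (‖A.val (mK d L) q‖ ^ 2) ^ N₀ *
      ‖B.comp (N₀ + m₁) u I q‖ ^ 2 * Real.exp (B.wt φ q) ^ m₁ ≤
        C * (sq fun i => Xi A i q) ^ (M * p + (n + 1) * N₀) := by
  obtain ⟨C₁, hC₁, h1⟩ := exists_kx hAB.xiData hs hc
  obtain ⟨C₂, hC₂, h2⟩ := exists_comp_bound hAB.xiData hs hc hu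
  refine ⟨C₁ ^ N₀ * (C₂ * (max C₀ 0) ^ p), by positivity, fun q hq I => ?_⟩
  set Q := sq fun i => Xi A i q with hQ
  set E := Real.exp (B.wt φ q) with hE
  have hE0 : 0 ≤ E := (Real.exp_pos _).le
  have hQ0 : 0 ≤ Q := sq_nonneg' _
  have h3 : ‖A.val (mK d L) q‖ ^ 2 ≤ C₁ * E * Q ^ (n + 1) := by
    calc ‖A.val (mK d L) q‖ ^ 2 ≤ ∑ L, ‖A.val (mK d L) q‖ ^ 2 :=
          le_sq (fun L => A.val (mK d L) q) L
      _ = qz A.S (Xi A) q * Q ^ (n + 1) := (qz_eq_sum hAB hd hq).symm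
      _ ≤ _ := mul_le_mul_of_nonneg_right (h1 q hq).2 (pow_nonneg hQ0 _)
  have h4 := h2 q hq I
  have h5 : ‖A.val ζ q‖ ^ 2 * dsq A.S (Xi A) q ≤ max C₀ 0 * Q ^ M :=
    (hζ q hq).trans (mul_le_mul_of_nonneg_right (le_max_left _ _) (pow_nonneg hQ0 _))
  have hds := dsq_nonneg A.S (Xi A) q
  calc (‖A.val ζ q‖ ^ 2) ^ p * (‖A.val (mK d L) q‖ ^ 2) ^ N₀ *
      ‖B.comp (N₀ + m₁) u I q‖ ^ 2 * E ^ m₁
      ≤ (‖A.val ζ q‖ ^ 2) ^ p * (C₁ * E * Q ^ (n + 1)) ^ N₀ *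
      ‖B.comp (N₀ + m₁) u I q‖ ^ 2 * E ^ m₁ := by
        refine mul_le_mul_of_nonneg_right ?_ (pow_nonneg hE0 _)
        refine mul_le_mul_of_nonneg_right ?_ (by positivity)
        exact mul_le_mul_of_nonneg_left (pow_le_pow_left₀ (by positivity) h3 _) (by positivity)
    _ = C₁ ^ N₀ * Q ^ ((n + 1) * N₀) * (‖A.val ζ q‖ ^ 2) ^ p *
        (‖B.comp (N₀ + m₁) u I q‖ ^ 2 * E ^ (N₀ + m₁)) := by
        rw [mul_pow, mul_pow, ← pow_mul, pow_add]; ring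
    _ ≤ C₁ ^ N₀ * Q ^ ((n + 1) * N₀) * (‖A.val ζ q‖ ^ 2) ^ p *
        (C₂ * dsq A.S (Xi A) q ^ p) := by
        refine mul_le_mul_of_nonneg_left h4 ?_
        positivity
    _ = C₁ ^ N₀ * Q ^ ((n + 1) * N₀) * C₂ * (‖A.val ζ q‖ ^ 2 * dsq A.S (Xi A) q) ^ p := by
        rw [mul_pow]; ring
    _ ≤ C₁ ^ N₀ * Q ^ ((n + 1) * N₀) * C₂ * (max C₀ 0 * Q ^ M) ^ p := by
        refine mul_le_mul_of_nonneg_left (pow_le_pow_left₀ (by positivity) h5 _) (by positivity)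
    _ = _ := by rw [mul_pow, ← pow_mul, pow_add]; ring

/-- **The input of the comparison theorem (5.1)** -/
theorem in51 (hAB : Cmp A B) (hs : ∀ e x, At e x → ContinuousAt (φ e) (e x))
    (hc : ∀ e e' x, At e x → At e' x →
      φ e (e x) = φ e' (e' x) + Real.log (‖(jacM e e' x).det‖ ^ 2))
    {b₁ : ℕ} (hb₁ : 0 < b₁) {s : D.K} (hs0 : s ≠ 0) (hsr : A.IsReg s) (hsr' : A.IsReg s⁻¹)
    {p N₀ : ℕ} {σ₀ : Ten n p X} (hσ₀ : IsTen p N₀ σ₀) (hσ0 : TenNZ σ₀)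
    (hinf : ∀ j₀ : ℕ, ∃ j ≥ j₀, ∃ (σ : Ten n p X) (g : D.K), IsTen p (N₀ + j * b₁) σ ∧
      g ∈ kp D.K D.fm ∧ g ≠ 0 ∧
      ∀ I, compK (D := D) (N₀ + j * b₁) σ I = s ^ j * g * compK N₀ σ₀ I)
    (Bs : Subalgebra ℂ D.K) (hBs : Bs ≤ regC A)
    (hfrac : ∀ f ∈ kp D.K D.fm, ∃ a ∈ Bs, ∃ b ∈ Bs, b ≠ 0 ∧ f * b = a) :
    ∃ (a b : ℕ) (v : Fin (a + 1) → regC A) (w : Fin (b + 1) → regC A) (σ : regC A) (r : ℕ),
      v 0 = 1 ∧ (∀ i, ∃ l, (v l : D.K) = D.xiK i) ∧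
      (∀ x : regC A →ₐ[ℂ] ℂ, 0 < ∑ i, ‖x (w i)‖ ^ 2) ∧ σ ≠ 0 ∧
      (∃ C : ℝ, ∀ x : regC A →ₐ[ℂ] ℂ, ‖x σ‖ ^ 2 ≤ C * (∑ i, ‖x (v i)‖ ^ 2) ^ r) ∧
      (∀ m₀ : ℕ, ∃ m ≥ m₀, ∃ g : Bs, g ≠ 0 ∧ ∀ y : Bs →ₐ[ℂ] ℂ, y g ≠ 0 →
        ∃ C : ℝ, ∀ x : regC A →ₐ[ℂ] ℂ, x.comp (Subalgebra.inclusion hBs) = y →
          ‖x σ‖ ^ 2 * (∑ i, ‖x (w i)‖ ^ 2) ^ m ≤ C * (∑ i, ‖x (v i)‖ ^ 2) ^ (m + r)) ∧
      ∃ C : ℝ, 0 < C ∧ ∀ q (hq : q ∈ A.S.M),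
        ‖A.val s q‖ ^ 2 * Real.exp (B.wt φ q) ^ b₁ * (∑ i, ‖evq hq (v i)‖ ^ 2) ≤
          C * ∑ i, ‖evq hq (w i)‖ ^ 2 ∧
        ∑ i, ‖evq hq (w i)‖ ^ 2 ≤ C * (‖A.val s q‖ ^ 2 * Real.exp (B.wt φ q) ^ b₁ *
          ∑ i, ‖evq hq (v i)‖ ^ 2) := by
  classical
  obtain ⟨d, hd⟩ := Vale.Agent.P282.Full.exists_partials n D.K
  obtain ⟨ζ, C₀, M, hζ0, hζr, hC₀, hζ⟩ := exists_zeta hAB hd
  obtain ⟨C₁, hC₁, hkx⟩ := exists_kx hAB.xiData hs hc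
  have hex : ∃ (A : Mod n D.K) (B : Brg A.S X), Cmp A B := ⟨A, B, hAB⟩
  -- a point
  obtain ⟨q₀, hq₀⟩ : ∃ q, q ∈ A.S.M := by
    obtain ⟨z, hz⟩ := A.nonempty_V
    obtain ⟨W, sec, hW, hzW, -, hsec, -⟩ := A.S.loc z hz
    exact ⟨_, (hsec ⟨0, A.N_pos⟩).mem_M hzW⟩
  obtain ⟨L₀, hL₀⟩ := exists_mK_ne hAB hd hq₀
  have hmL : mK d L₀ ≠ 0 := by
    intro h0
    rw [h0, Mod.val_zero hq₀] at hL₀
    exact hL₀ rfl
  obtain ⟨I₀, hI₀⟩ := (compData hex).comp_ne hσ₀ hσ0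
  have hI₀ : compK (D := D) N₀ σ₀ I₀ ≠ 0 := hI₀
  obtain ⟨-, hcr, hcv⟩ := compK_spec hAB hσ₀ I₀
  -- monomials
  obtain ⟨a, ea, hea⟩ := exists_fin_equiv (fun _ : Fin ((n + 1) * b₁) => D.j0)
  obtain ⟨b, eb, -⟩ := exists_fin_equiv
    (fun _ : Fin b₁ => (fun _ : Fin (n + 1) => D.j0))
  let v : Fin (a + 1) → regC A := fun l =>
    ⟨∏ t, D.xiK (ea l t), Mod.IsReg.prod _ fun t _ => hAB.regxi _⟩
  let w : Fin (b + 1) → regC A := fun l =>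
    ⟨s * ∏ t, mK d (eb l t), hsr.mul (Mod.IsReg.prod _ fun t _ => isReg_mK hAB hd _)⟩
  let σ : regC A := ⟨ζ ^ p * mK d L₀ ^ N₀ * compK (D := D) N₀ σ₀ I₀,
    ((hζr.pow p).mul ((isReg_mK hAB hd L₀).pow N₀)).mul hcr⟩
  -- the sums of squares
  have hv : ∀ q (hq : q ∈ A.S.M), ∑ l, ‖evq hq (v l)‖ ^ 2 =
      (sq fun i => Xi A i q) ^ ((n + 1) * b₁) := by
    intro q hq
    have h1 : ∀ l, ‖evq hq (v l)‖ ^ 2 = ∏ t, ‖Xi A (ea l t) q‖ ^ 2 := by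
      intro l
      show ‖A.val (∏ t, D.xiK (ea l t)) q‖ ^ 2 = _
      rw [Mod.val_prod hq _ (fun t _ => hAB.regxi _), norm_prod, ← Finset.prod_pow]
      rfl
    simp only [h1]
    rw [ea.sum_comp (fun f => ∏ t, ‖Xi A (f t) q‖ ^ 2)]
    unfold sq
    rw [Fintype.sum_pow]
  have hw : ∀ q (hq : q ∈ A.S.M), ∑ l, ‖evq hq (w l)‖ ^ 2 =
      ‖A.val s q‖ ^ 2 * (qz A.S (Xi A) q * (sq fun i => Xi A i q) ^ (n + 1)) ^ b₁ := by
    intro q hq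
    have h1 : ∀ l, ‖evq hq (w l)‖ ^ 2 = ‖A.val s q‖ ^ 2 * ∏ t, ‖A.val (mK d (eb l t)) q‖ ^ 2 := by
      intro l
      show ‖A.val (s * ∏ t, mK d (eb l t)) q‖ ^ 2 = _
      rw [Mod.val_mul hq hsr (Mod.IsReg.prod _ fun t _ => isReg_mK hAB hd _),
        Mod.val_prod hq _ (fun t _ => isReg_mK hAB hd _), norm_mul, mul_pow, norm_prod,
        ← Finset.prod_pow]
    simp only [h1]
    rw [← Finset.mul_sum, eb.sum_comp (fun f => ∏ t, ‖A.val (mK d (f t)) q‖ ^ 2),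
      qz_eq_sum hAB hd hq, Fintype.sum_pow]
  have hR : 1 ≤ (n + 1) * b₁ := Nat.mul_pos (Nat.succ_pos n) hb₁
  set r := M * p + (n + 1) * N₀ with hr
  have hQr : ∀ q ∈ A.S.M, (sq fun i => Xi A i q) ^ r ≤
      ((sq fun i => Xi A i q) ^ ((n + 1) * b₁)) ^ r := by
    intro q hq
    rw [← pow_mul]
    exact pow_le_pow_right₀ (one_le_sqXi hAB hq) (Nat.le_mul_of_pos_left r hR)
  have hσv : ∀ q (hq : q ∈ A.S.M), ‖evq hq σ‖ ^ 2 = (‖A.val ζ q‖ ^ 2) ^ p *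
      (‖A.val (mK d L₀) q‖ ^ 2) ^ N₀ * ‖A.val (compK (D := D) N₀ σ₀ I₀) q‖ ^ 2 := by
    intro q hq
    show ‖A.val (ζ ^ p * mK d L₀ ^ N₀ * compK (D := D) N₀ σ₀ I₀) q‖ ^ 2 = _
    rw [Mod.val_mul hq ((hζr.pow p).mul ((isReg_mK hAB hd L₀).pow N₀)) hcr,
      Mod.val_mul hq (hζr.pow p) ((isReg_mK hAB hd L₀).pow N₀), Mod.val_pow hq hζr,
      Mod.val_pow hq (isReg_mK hAB hd L₀)]
    simp only [norm_mul, norm_pow, mul_pow]
    rw [← pow_mul, ← pow_mul, ← pow_mul, ← pow_mul, mul_comm p, mul_comm N₀]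
  refine ⟨a, b, v, w, σ, r, ?_, ?_, ?_, ?_, ?_, ?_, ?_⟩
  · apply Subtype.ext
    show ∏ t, D.xiK (ea 0 t) = 1
    rw [hea]
    simp only [xiK_j0, Finset.prod_const_one]
  · intro i
    let f : Fin ((n + 1) * b₁) → Fin (D.N + 1) := fun t => if t = ⟨0, hR⟩ then i else D.j0
    refine ⟨ea.symm f, ?_⟩
    show ∏ t, D.xiK (ea (ea.symm f) t) = D.xiK i
    rw [Equiv.apply_symm_apply, Finset.prod_eq_single ⟨0, hR⟩]
    · simp [f]
    · intro t _ ht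
      simp only [f, if_neg ht, xiK_j0]
    · intro h; exact absurd (Finset.mem_univ _) h
  · intro x
    obtain ⟨q, hq, hx⟩ := exists_q x
    have h1 : ∑ i, ‖x (w i)‖ ^ 2 = ∑ i, ‖evq hq (w i)‖ ^ 2 :=
      Finset.sum_congr rfl fun i _ => by rw [hx]; rfl
    rw [h1, hw q hq]
    have h2 := Mod.val_ne_zero_of_inv hq hs0 hsr hsr'
    have h3 := qz_pos hAB hq
    have h4 : 0 < sq fun i => Xi A i q := lt_of_lt_of_le one_pos (one_le_sqXi hAB hq)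
    have h5 := norm_pos_iff.2 h2
    positivity
  · intro h0
    have h1 : ζ ^ p * mK d L₀ ^ N₀ * compK (D := D) N₀ σ₀ I₀ = 0 := congrArg Subtype.val h0
    exact mul_ne_zero (mul_ne_zero (pow_ne_zero _ hζ0) (pow_ne_zero _ hmL)) hI₀ h1
  · obtain ⟨C, hC, hb⟩ := key_bound hAB hs hc hd hζ L₀ (m₁ := 0) (u := σ₀) hσ₀
    refine ⟨C, fun x => ?_⟩
    obtain ⟨q, hq, hx⟩ := exists_q x
    have h1 : ∑ i, ‖x (v i)‖ ^ 2 = ∑ i, ‖evq hq (v i)‖ ^ 2 :=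
      Finset.sum_congr rfl fun i _ => by rw [hx]; rfl
    have h2 : ‖x σ‖ ^ 2 = ‖evq hq σ‖ ^ 2 := by rw [hx]; rfl
    rw [h1, h2, hv q hq, hσv q hq, ← hcv q hq]
    have h3 := hb q hq I₀
    rw [pow_zero, mul_one] at h3
    exact h3.trans (mul_le_mul_of_nonneg_left (hQr q hq) hC)
  · intro m₀
    obtain ⟨j, hj, τ, g, hτ, hg, hg0, hgc⟩ := hinf m₀
    obtain ⟨num, hnum, den, hden, hden0, hnd⟩ := hfrac g hg
    have hnum0 : num ≠ 0 := by rw [← hnd]; exact mul_ne_zero hg0 hden0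
    obtain ⟨-, hτr, hτv⟩ := compK_spec hAB hτ I₀
    obtain ⟨C, hC, hb⟩ := key_bound hAB hs hc hd hζ L₀ (m₁ := j * b₁) (u := τ) hτ
    refine ⟨j, hj, ⟨num, hnum⟩, fun h => hnum0 (congrArg Subtype.val h), fun y hy => ?_⟩
    refine ⟨‖y ⟨den, hden⟩‖ ^ 2 / ‖y ⟨num, hnum⟩‖ ^ 2 * (C₁ ^ (j * b₁) * C), fun x hxy => ?_⟩
    obtain ⟨q, hq, hx⟩ := exists_q x
    have h1 : ∑ i, ‖x (v i)‖ ^ 2 = ∑ i, ‖evq hq (v i)‖ ^ 2 :=
      Finset.sum_congr rfl fun i _ => by rw [hx]; rfl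
    have h1' : ∑ i, ‖x (w i)‖ ^ 2 = ∑ i, ‖evq hq (w i)‖ ^ 2 :=
      Finset.sum_congr rfl fun i _ => by rw [hx]; rfl
    have h2 : ‖x σ‖ ^ 2 = ‖evq hq σ‖ ^ 2 := by rw [hx]; rfl
    have hyn : y ⟨num, hnum⟩ = A.val num q := by
      rw [← hxy]; exact hx ⟨num, hBs hnum⟩
    have hyd : y ⟨den, hden⟩ = A.val den q := by
      rw [← hxy]; exact hx ⟨den, hBs hden⟩
    rw [h1, h1', h2, hv q hq, hw q hq, hσv q hq]
    rw [hyn] at hy ⊢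
    rw [hyd]
    -- the relation between the tensors
    have hrel : A.val (compK (D := D) (N₀ + j * b₁) τ I₀) q * A.val den q =
        A.val s q ^ j * A.val num q * A.val (compK (D := D) N₀ σ₀ I₀) q := by
      have h3 : compK (D := D) (N₀ + j * b₁) τ I₀ * den =
          s ^ j * num * compK (D := D) N₀ σ₀ I₀ := by
        rw [hgc I₀, ← hnd]; ring
      have h4 : A.val (compK (D := D) (N₀ + j * b₁) τ I₀ * den) q =
          A.val (s ^ j * num * compK (D := D) N₀ σ₀ I₀) q := by rw [h3]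
      rw [Mod.val_mul hq hτr (hBs hden), Mod.val_mul hq ((hsr.pow j).mul (hBs hnum)) hcr,
        Mod.val_mul hq (hsr.pow j) (hBs hnum), Mod.val_pow hq hsr] at h4
      exact h4
    have hrel2 : ‖A.val (compK (D := D) (N₀ + j * b₁) τ I₀) q‖ ^ 2 * ‖A.val den q‖ ^ 2 =
        (‖A.val s q‖ ^ 2) ^ j * ‖A.val num q‖ ^ 2 * ‖A.val (compK (D := D) N₀ σ₀ I₀) q‖ ^ 2 := by
      rw [← mul_pow, ← norm_mul, hrel, norm_mul, norm_mul, norm_pow]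
      ring
    have hn0 : 0 < ‖A.val num q‖ ^ 2 := by
      have := norm_pos_iff.2 hy
      positivity
    set Q := sq fun i => Xi A i q with hQ
    have hQ0 : 0 ≤ Q := sq_nonneg' _
    set E := Real.exp (B.wt φ q) with hE
    have hE0 : 0 ≤ E := (Real.exp_pos _).le
    have h5 : qz A.S (Xi A) q ≤ C₁ * E := (hkx q hq).2
    have h6 := hb q hq I₀
    rw [hτv q hq] at h6
    have hqz := qz_nonneg A.S (Xi A) q
    rw [div_mul_eq_mul_div, div_mul_eq_mul_div, le_div_iff₀ hn0]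
    calc (‖A.val ζ q‖ ^ 2) ^ p * (‖A.val (mK d L₀) q‖ ^ 2) ^ N₀ *
          ‖A.val (compK (D := D) N₀ σ₀ I₀) q‖ ^ 2 *
          (‖A.val s q‖ ^ 2 * (qz A.S (Xi A) q * Q ^ (n + 1)) ^ b₁) ^ j * ‖A.val num q‖ ^ 2
        = ((‖A.val ζ q‖ ^ 2) ^ p * (‖A.val (mK d L₀) q‖ ^ 2) ^ N₀) *
          ((‖A.val s q‖ ^ 2) ^ j * ‖A.val num q‖ ^ 2 *
            ‖A.val (compK (D := D) N₀ σ₀ I₀) q‖ ^ 2) *
          (qz A.S (Xi A) q ^ (j * b₁) * (Q ^ ((n + 1) * b₁)) ^ j) := by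
          rw [mul_pow, mul_pow, mul_pow, ← pow_mul, ← pow_mul, ← pow_mul, ← pow_mul,
            mul_comm b₁ j]
          ring
      _ = ((‖A.val ζ q‖ ^ 2) ^ p * (‖A.val (mK d L₀) q‖ ^ 2) ^ N₀) *
          (‖A.val (compK (D := D) (N₀ + j * b₁) τ I₀) q‖ ^ 2 * ‖A.val den q‖ ^ 2) *
          (qz A.S (Xi A) q ^ (j * b₁) * (Q ^ ((n + 1) * b₁)) ^ j) := by rw [hrel2]
      _ ≤ ((‖A.val ζ q‖ ^ 2) ^ p * (‖A.val (mK d L₀) q‖ ^ 2) ^ N₀) *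
          (‖A.val (compK (D := D) (N₀ + j * b₁) τ I₀) q‖ ^ 2 * ‖A.val den q‖ ^ 2) *
          ((C₁ * E) ^ (j * b₁) * (Q ^ ((n + 1) * b₁)) ^ j) := by
          refine mul_le_mul_of_nonneg_left ?_ (by positivity)
          exact mul_le_mul_of_nonneg_right (pow_le_pow_left₀ hqz h5 _) (by positivity)
      _ = ‖A.val den q‖ ^ 2 * C₁ ^ (j * b₁) * (Q ^ ((n + 1) * b₁)) ^ j *
          ((‖A.val ζ q‖ ^ 2) ^ p * (‖A.val (mK d L₀) q‖ ^ 2) ^ N₀ *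
            ‖A.val (compK (D := D) (N₀ + j * b₁) τ I₀) q‖ ^ 2 * E ^ (j * b₁)) := by
          rw [mul_pow]; ring
      _ ≤ ‖A.val den q‖ ^ 2 * C₁ ^ (j * b₁) * (Q ^ ((n + 1) * b₁)) ^ j * (C * Q ^ r) :=
          mul_le_mul_of_nonneg_left h6 (by positivity)
      _ ≤ ‖A.val den q‖ ^ 2 * C₁ ^ (j * b₁) * (Q ^ ((n + 1) * b₁)) ^ j *
          (C * (Q ^ ((n + 1) * b₁)) ^ r) := by
          refine mul_le_mul_of_nonneg_left ?_ (by positivity)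
          exact mul_le_mul_of_nonneg_left (hQr q hq) hC
      _ = _ := by rw [pow_add]; ring
  · refine ⟨C₁ ^ b₁, by positivity, fun q hq => ?_⟩
    rw [hv q hq, hw q hq]
    set Q := sq fun i => Xi A i q with hQ
    have hQ0 : 0 ≤ Q := sq_nonneg' _
    set E := Real.exp (B.wt φ q) with hE
    have hE0 : 0 ≤ E := (Real.exp_pos _).le
    have hqz := qz_nonneg A.S (Xi A) q
    obtain ⟨h1, h2⟩ := hkx q hq
    constructor
    · calc ‖A.val s q‖ ^ 2 * E ^ b₁ * Q ^ ((n + 1) * b₁)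
          ≤ ‖A.val s q‖ ^ 2 * (C₁ * qz A.S (Xi A) q) ^ b₁ * Q ^ ((n + 1) * b₁) := by
            refine mul_le_mul_of_nonneg_right ?_ (by positivity)
            exact mul_le_mul_of_nonneg_left (pow_le_pow_left₀ hE0 h1 _) (by positivity)
        _ = _ := by rw [mul_pow, mul_pow, ← pow_mul]; ring
    · calc ‖A.val s q‖ ^ 2 * (qz A.S (Xi A) q * Q ^ (n + 1)) ^ b₁
          ≤ ‖A.val s q‖ ^ 2 * ((C₁ * E) * Q ^ (n + 1)) ^ b₁ := by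
            refine mul_le_mul_of_nonneg_left ?_ (by positivity)
            refine pow_le_pow_left₀ (by positivity) ?_ _
            exact mul_le_mul_of_nonneg_right h2 (by positivity)
        _ = _ := by rw [mul_pow, mul_pow, ← pow_mul]; ring

/-- Step (4') in the function field, with `K'` in place of degree `0` -/
theorem exists_s_kp (hex : ∃ (A : Mod n D.K) (B : Brg A.S X), Cmp A B) (k : ℕ)
    (h : ∀ m₀ : ℕ, ∃ m : ℕ, m₀ ≤ m ∧ ∃ s : Ten n k X, IsTen k m s ∧ TenNZ s) :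
    ∃ (b₁ : ℕ) (s : D.K), 0 < b₁ ∧ s ≠ 0 ∧ (compData hex).Lb b₁ s ∧
      (∀ (b : ℤ) (f : D.K), f ≠ 0 → (compData hex).Lb b f →
        ∃ (j : ℤ) (g : D.K), b = j * b₁ ∧ g ∈ kp D.K D.fm ∧ g ≠ 0 ∧ f = s ^ j * g) ∧
      ∃ (p N₀ : ℕ) (σ₀ : Ten n p X), IsTen p N₀ σ₀ ∧ TenNZ σ₀ ∧ ∀ j₀ : ℕ, ∃ j ≥ j₀,
        ∃ (σ : Ten n p X) (g : D.K), IsTen p (N₀ + j * b₁) σ ∧ g ∈ kp D.K D.fm ∧ g ≠ 0 ∧
          ∀ I, compK (D := D) (N₀ + j * b₁) σ I = s ^ j * g * compK N₀ σ₀ I := by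
  obtain ⟨b₁, s, hb₁, hs, hL, hgen, p, N₀, σ₀, h1, h2, h3⟩ := (compData hex).exists_s k h
  refine ⟨b₁, s, hb₁, hs, hL, fun b f hf hb => ?_, p, N₀, σ₀, h1, h2, fun j₀ => ?_⟩
  · obtain ⟨j, g, h4, h5, h6, h7⟩ := hgen b f hf hb
    exact ⟨j, g, h4, (Lb_zero_iff hex).1 h5, h6, h7⟩
  · obtain ⟨j, hj, σ, g, h4, -, h5, h6, h7⟩ := h3 j₀
    exact ⟨j, hj, σ, g, h4, (Lb_zero_iff hex).1 h5, h6, h7⟩

end Vale.Agent.P299.H212
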