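import Vale.Agent.P299.H212.Minor
import Vale.Agent.P299.H223.Sec
import Vale.Agent.P299.H216.BrgT

/-!
# P299 / H212: the minors of the affine coordinates and their derivatives

For a projective manifold with affine coordinates `ξ` and an open part with coordinates `z`, the
sum of the squares of the maximal minors of the matrix with rows `ξ, ∂_{z_1} ξ, …, ∂_{z_n} ξ`,
divided by `|ξ|^{2(n+1)}`, is comparable with the weight of the anticanonical bundle in the
frame given by the coordinates `z`.
-/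

set_option linter.all false

open scoped Manifold ContDiff Topology
open Filter Set
open Vale.Agent.P272.K (Cm Chart At jacM jmat dz IsCanonicalMetric)
open Vale.Agent.P299.H908 Vale.Agent.P299.H223 Vale.Agent.P299.H216
open Vale.Agent.P300.L2 (Sheets)

noncomputable section

namespace Vale.Agent.P299.H212

section lin

variable {κ : Type*} {n : ℕ}

/-- the minor with columns `K` -/
def mnr {r : ℕ} (R : Fin r → κ → ℂ) (K : Fin r → κ) : ℂ := (Matrix.of fun a b => R a (K b)).det

theorem mnr_mix {R R' : Fin (n + 1) → κ → ℂ} {c : ℂ} {d : Fin n → ℂ}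
    {A : Matrix (Fin n) (Fin n) ℂ} (h0 : ∀ i, R' 0 i = c * R 0 i)
    (h1 : ∀ p i, R' (Fin.succ p) i = d p * R 0 i + ∑ q, A p q * R (Fin.succ q) i)
    (K : Fin (n + 1) → κ) : mnr R' K = c * A.det * mnr R K := by
  let L : Matrix (Fin (n + 1)) (Fin (n + 1)) ℂ :=
    Matrix.of (Fin.cons (Fin.cons c fun _ => 0) fun p => Fin.cons (d p) (A p))
  have hL : (Matrix.of fun a b => R' a (K b)) = L * (Matrix.of fun a b => R a (K b)) := by
    ext a b
    rw [Matrix.mul_apply, Fin.sum_univ_succ]
    refine Fin.cases ?_ (fun p => ?_) a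
    · simp [L, h0]
    · simp [L, h1]
  have hdet : L.det = c * A.det := by
    rw [Matrix.det_succ_row_zero, Fin.sum_univ_succ]
    have h2 : L.submatrix Fin.succ (Fin.succAbove 0) = A := by
      ext p q
      simp [L]
    rw [h2]
    simp [L]
  rw [mnr, hL, Matrix.det_mul, hdet]
  rfl

/-- sum of squares -/
def sq {ι : Type*} [Fintype ι] (v : ι → ℂ) : ℝ := ∑ i, ‖v i‖ ^ 2

theorem sq_nonneg' {ι : Type*} [Fintype ι] (v : ι → ℂ) : 0 ≤ sq v :=
  Finset.sum_nonneg fun i _ => by positivity

theorem le_sq {ι : Type*} [Fintype ι] (v : ι → ℂ) (i : ι) : ‖v i‖ ^ 2 ≤ sq v :=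
  Finset.single_le_sum (f := fun i => ‖v i‖ ^ 2) (fun i _ => by positivity) (Finset.mem_univ i)

theorem sq_pos_of {ι : Type*} [Fintype ι] {v : ι → ℂ} {i : ι} (h : v i ≠ 0) : 0 < sq v :=
  lt_of_lt_of_le (by positivity) (le_sq v i)

theorem sq_mul {ι : Type*} [Fintype ι] (c : ℂ) (v : ι → ℂ) :
    sq (fun i => c * v i) = ‖c‖ ^ 2 * sq v := by
  simp only [sq, norm_mul, mul_pow, Finset.mul_sum]

theorem nsq_eq_sq {M : ℕ} (v : Fin M → ℂ) : nsq v = sq v := rfl

end lin

section unif

variable {X : Type*} [TopologicalSpace X]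

/-- local bounds on a compact space are uniform -/
theorem exists_unif [CompactSpace X] {P : ℝ → X → Prop}
    (hmono : ∀ x C C', C ≤ C' → P C x → P C' x)
    (h : ∀ x₀, ∃ C, ∀ᶠ x in 𝓝 x₀, P C x) : ∃ C, ∀ x, P C x := by
  have h1 : ∃ C, ∀ x ∈ (univ : Set X), P C x := by
    refine isCompact_univ.induction_on (p := fun s => ∃ C, ∀ x ∈ s, P C x) ⟨0, by simp⟩ ?_ ?_ ?_
    · rintro s t hst ⟨C, hC⟩
      exact ⟨C, fun x hx => hC x (hst hx)⟩
    · rintro s t ⟨C, hC⟩ ⟨C', hC'⟩
      refine ⟨max C C', fun x hx => ?_⟩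
      rcases hx with hx | hx
      · exact hmono x _ _ (le_max_left _ _) (hC x hx)
      · exact hmono x _ _ (le_max_right _ _) (hC' x hx)
    · intro x _
      obtain ⟨C, hC⟩ := h x
      exact ⟨_, mem_nhdsWithin_of_mem_nhds hC, C, fun y hy => hy⟩
  obtain ⟨C, hC⟩ := h1
  exact ⟨C, fun x => hC x trivial⟩

/-- a continuous function is bounded near a point -/
theorem bdd_of_continuousAt {f : X → ℝ} {x : X} (hf : ContinuousAt f x) :
    ∀ᶠ y in 𝓝 x, f y ≤ f x + 1 :=
  (hf.eventually (gt_mem_nhds (lt_add_one (f x)))).mono fun y hy => le_of_lt hy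

end unif

section rows

variable {n : ℕ} {X : Type} [TopologicalSpace X] [ChartedSpace (Cm n) X] (D : ProjData n X)

/-- the rows `dh_j, ∂_1 dh_j, …, ∂_n dh_j` in the chart `e` at `x` -/
def rwe (j : Fin (D.N + 1)) (e : Chart n X) (x : X) : Fin (n + 1) → Fin (D.N + 1) → ℂ :=
  Fin.cons (dh D j x) fun p i => dz p (fun z => dh D j (e.symm z) i) (e x)

theorem rwe_zero (j : Fin (D.N + 1)) (e : Chart n X) (x : X) (i : Fin (D.N + 1)) :
    rwe D j e x 0 i = dh D j x i := rfl

theorem rwe_succ (j : Fin (D.N + 1)) (e : Chart n X) (x : X) (p : Fin n) (i : Fin (D.N + 1)) :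
    rwe D j e x p.succ i = dz p (fun z => dh D j (e.symm z) i) (e x) := rfl

variable {D}

theorem tendsto_symm {e : Chart n X} {x : X} (he : At e x) : Tendsto e.symm (𝓝 (e x)) (𝓝 x) := by
  have := (e.continuousAt_symm he.mem_target).tendsto
  rwa [he.left_inv] at this

theorem continuousAt_chart {e : Chart n X} {x : X} (he : At e x) : ContinuousAt e x :=
  e.continuousAt he.2

theorem continuousAt_of_chart {F : Type*} [TopologicalSpace F] {g : X → F} {f : Cm n → F}
    {e : Chart n X} {x : X} (he : At e x) (hf : ContinuousAt f (e x))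
    (h : ∀ᶠ y in 𝓝 x, g y = f (e y)) : ContinuousAt g x :=
  (ContinuousAt.comp (g := f) hf (continuousAt_chart he)).congr (h.mono fun y hy => hy.symm)

theorem dh_comp_analyticAt {j : Fin (D.N + 1)} {x : X} (hj : D.Z x j ≠ 0) {e : Chart n X}
    (he : At e x) (i : Fin (D.N + 1)) : AnalyticAt ℂ (fun z => dh D j (e.symm z) i) (e x) :=
  (comp_cd (dh_holo D hj he) i).analyticAt

theorem dz_analyticAt {f : Cm n → ℂ} {z : Cm n} (hf : AnalyticAt ℂ f z) (p : Fin n) :
    AnalyticAt ℂ (fun y => dz p f y) z := by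
  have h1 : (fun y => dz p f y) =ᶠ[𝓝 z] fun y => fderiv ℂ f y (Pi.single p 1) := by
    filter_upwards [hf.eventually_analyticAt] with y hy
    exact Vale.Agent.P272.K.dz_of_holo hy.differentiableAt
  refine AnalyticAt.congr ?_ h1.symm
  exact ((ContinuousLinearMap.apply ℂ ℂ (Pi.single p (1 : ℂ) : Cm n)).analyticAt _).comp hf.fderiv

/-- the rows are continuous -/
theorem rwe_continuousAt {j : Fin (D.N + 1)} {x : X} (hj : D.Z x j ≠ 0) {e : Chart n X}
    (he : At e x) (a : Fin (n + 1)) (i : Fin (D.N + 1)) :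
    ContinuousAt (fun y => rwe D j e y a i) x := by
  have h0 : ∀ᶠ y in 𝓝 x, y ∈ e.source := e.open_source.mem_nhds he.2
  refine Fin.cases ?_ (fun p => ?_) a
  · refine continuousAt_of_chart he (dh_comp_analyticAt hj he i).continuousAt ?_
    filter_upwards [h0] with y hy
    rw [e.left_inv hy]
    rfl
  · refine continuousAt_of_chart he
      (dz_analyticAt (dh_comp_analyticAt hj he i) p).continuousAt ?_
    exact Eventually.of_forall fun y => rfl

/-- the rows are linearly independent -/
theorem rwe_linearIndependent {j : Fin (D.N + 1)} {x : X} (hj : D.Z x j ≠ 0) {e : Chart n X}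
    (he : At e x) : LinearIndependent ℂ (rwe D j e x) := by
  rw [Fintype.linearIndependent_iff]
  intro c hc
  have hd : ∀ i, DifferentiableAt ℂ (fun z => dh D j (e.symm z) i) (e x) := fun i =>
    (dh_comp_analyticAt hj he i).differentiableAt
  -- the component `j`
  have h1 : ∀ i, c 0 * dh D j x i + ∑ p : Fin n, c p.succ *
      dz p (fun z => dh D j (e.symm z) i) (e x) = 0 := by
    intro i
    have := congrFun hc i
    rw [Finset.sum_apply, Fin.sum_univ_succ] at this
    exact this
  have h2 : ∀ p : Fin n, dz p (fun z => dh D j (e.symm z) j) (e x) = 0 := by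
    intro p
    have h3 : (fun z => dh D j (e.symm z) j) =ᶠ[𝓝 (e x)] fun _ => (1 : ℂ) := by
      filter_upwards [(tendsto_symm he).eventually ((isOpen_Wj D j).mem_nhds hj)] with z hz
      exact dh_self D hz
    rw [Vale.Agent.P272.K.dz_congr h3, Vale.Agent.P272.K.dz_const]
  have h3 : c 0 = 0 := by
    have := h1 j
    simp only [h2, mul_zero, Finset.sum_const_zero, add_zero] at this
    rwa [dh_self D hj, mul_one] at this
  have h4 : (fun p : Fin n => c p.succ) = 0 := by
    refine D.imm e x he j hj _ fun i => ?_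
    have h5 := h1 i
    rw [h3, zero_mul, zero_add] at h5
    have h6 : ∀ p : Fin n, dz p (fun z => dh D j (e.symm z) i) (e x) =
        fderiv ℂ (fun z => dh D j (e.symm z) i) (e x) (Pi.single p 1) := fun p =>
      Vale.Agent.P272.K.dz_of_holo (hd i)
    have h7 : (fun p : Fin n => c p.succ) = ∑ p : Fin n, c p.succ • (Pi.single p (1 : ℂ) : Cm n) := by
      funext k
      simp [Finset.sum_apply, Pi.single_apply]
    show fderiv ℂ (fun z => dh D j (e.symm z) i) (e x) _ = 0
    rw [h7, map_sum, ← h5]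
    exact Finset.sum_congr rfl fun p _ => by rw [map_smul, smul_eq_mul, h6]
  intro a
  refine Fin.cases h3 (fun p => congrFun h4 p) a

/-- the local quantity `Σ|minors|² / |dh_j|^{2(n+1)}` -/
def qr (D : ProjData n X) (j : Fin (D.N + 1)) (e : Chart n X) (x : X) : ℝ :=
  sq (mnr (rwe D j e x)) / sq (dh D j x) ^ (n + 1)

theorem dh_sq_pos {j : Fin (D.N + 1)} {x : X} (hj : D.Z x j ≠ 0) : 0 < sq (dh D j x) :=
  sq_pos_of (i := j) (by rw [dh_self D hj]; exact one_ne_zero)

theorem mnr_continuousAt {r : ℕ} {κ : Type*} {Y : Type*} [TopologicalSpace Y]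
    {R : Y → Fin r → κ → ℂ} {x : Y} (h : ∀ a i, ContinuousAt (fun y => R y a i) x)
    (K : Fin r → κ) : ContinuousAt (fun y => mnr (R y) K) x := by
  unfold mnr
  simp only [Matrix.det_apply']
  refine tendsto_finsetSum _ fun σ _ => ?_
  refine ContinuousAt.mul continuousAt_const ?_
  refine tendsto_finsetProd _ fun i _ => ?_
  exact h _ _

theorem sq_continuousAt {ι Y : Type*} [Fintype ι] [TopologicalSpace Y] {v : Y → ι → ℂ} {x : Y}
    (h : ∀ i, ContinuousAt (fun y => v y i) x) : ContinuousAt (fun y => sq (v y)) x := by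
  unfold sq
  exact tendsto_finsetSum _ fun i _ => ((h i).norm.pow 2)

theorem qr_continuousAt {j : Fin (D.N + 1)} {x : X} (hj : D.Z x j ≠ 0) {e : Chart n X}
    (he : At e x) : ContinuousAt (qr D j e) x := by
  refine ContinuousAt.div (sq_continuousAt fun K => mnr_continuousAt
    (fun a i => rwe_continuousAt hj he a i) K) ((sq_continuousAt fun i =>
      rwe_continuousAt hj he 0 i).pow _) ?_
  exact pow_ne_zero _ (dh_sq_pos hj).ne'

theorem qr_pos {j : Fin (D.N + 1)} {x : X} (hj : D.Z x j ≠ 0) {e : Chart n X}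
    (he : At e x) : 0 < qr D j e x := by
  obtain ⟨K, hK⟩ := exists_minor (rwe_linearIndependent hj he)
  exact div_pos (sq_pos_of (i := K) hK) (pow_pos (dh_sq_pos hj) _)

end rows

end Vale.Agent.P299.H212
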