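import Vale.Agent.P299.H212.Adapt
import Vale.Agent.P299.H819.Main
import Vale.Agent.P299.H570.Base.Ex

/-!
# P299 / H212: the comparison theorem (5.1) on the points of the covers
-/

set_option linter.all false

open scoped Manifold ContDiff Topology
open Filter Set
open Vale.Agent.P272.K (Cm Chart At jacM jmat dz IsCanonicalMetric)
open Vale.Agent.P299.H908 Vale.Agent.P299.H223 Vale.Agent.P299.H216 Vale.Agent.P299.D
open Vale.Agent.P299.H908.ProjData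
open Vale.Agent.P300.L2 (Sheets)
open Vale.Agent.P282.L2 (Pol Prim IsPartials)
open Vale.Agent.P299.H340 (Mod)

open Vale.Agent.P299.H570.Base (baseAlg mem_baseAlg baseAlg_fg phi regAlg_frac)

noncomputable section

namespace Vale.Agent.P299.H212

section poly

variable {k : ℕ} {K₀ : Type} [Field K₀] [Algebra ℂ K₀] [Algebra (Pol k) K₀]
  [IsScalarTower ℂ (Pol k) K₀] [FaithfulSMul (Pol k) K₀]

/-- a nonzero regular element has no zero outside the zero set of a polynomial -/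
theorem exists_poly_val_ne (B : Mod k K₀) {a : K₀} (ha : B.IsReg a) (h0 : a ≠ 0) :
    ∃ g : Pol k, g ≠ 0 ∧ ∀ y ∈ B.S.M, MvPolynomial.eval y.1 g ≠ 0 → B.val a y ≠ 0 := by
  obtain ⟨g, hg, h⟩ := Vale.Agent.P299.H570.Base.exists_poly_ne B.E ha h0
  refine ⟨g, hg, fun q h1 h2 => ?_⟩
  refine h B.sh _ (B.link.pt_mem q h1) ?_
  rwa [B.link.pt_fst q h1]

end poly

variable {n : ℕ} {X : Type} [TopologicalSpace X] [ChartedSpace (Cm n) X] [ConnectedSpace X]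
  {D : ProjData n X}

variable [Algebra (Pol n) D.K] [IsScalarTower ℂ (Pol n) D.K] [FaithfulSMul (Pol n) D.K]
  {A : Mod n D.K} {B : Brg A.S X} [IsManifold 𝓘(ℂ, Cm n) ω X] [CompactSpace X]
  [Algebra (FractionRing (Pol n)) D.K] [IsScalarTower (Pol n) (FractionRing (Pol n)) D.K]
  [FiniteDimensional (FractionRing (Pol n)) D.K] {φ : Chart n X → Cm n → ℝ}
  {k : ℕ} {K₀ : Type} [Field K₀] [Algebra ℂ K₀] [Algebra (Pol k) K₀]
  [IsScalarTower ℂ (Pol k) K₀] [FaithfulSMul (Pol k) K₀] [Algebra K₀ D.K]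
  [IsScalarTower ℂ K₀ D.K]

/-- **(5.1) on the points of the covers** -/
theorem pts (hAB : Cmp A B) (hs : ∀ e x, At e x → ContinuousAt (φ e) (e x))
    (hc : ∀ e e' x, At e x → At e' x →
      φ e (e x) = φ e' (e' x) + Real.log (‖(jacM e e' x).det‖ ^ 2))
    {b₁ : ℕ} (hb₁ : 0 < b₁) {s : D.K} (hs0 : s ≠ 0) (hsr : A.IsReg s) (hsr' : A.IsReg s⁻¹)
    {p N₀ : ℕ} {σ₀ : Ten n p X} (hσ₀ : IsTen p N₀ σ₀) (hσ0 : TenNZ σ₀)
    (hinf : ∀ j₀ : ℕ, ∃ j ≥ j₀, ∃ (σ : Ten n p X) (g : D.K), IsTen p (N₀ + j * b₁) σ ∧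
      g ∈ kp D.K D.fm ∧ g ≠ 0 ∧
      ∀ I, compK (D := D) (N₀ + j * b₁) σ I = s ^ j * g * compK N₀ σ₀ I)
    {ι : Fin k ↪ Fin n} {Bm : Mod k K₀} (P : Vale.Agent.P299.H570.Base.Comp ι A Bm)
    (hkp : ∀ f ∈ kp D.K D.fm, ∃ a : K₀, algebraMap K₀ D.K a = f) :
    ∃ (g : Pol k) (e n₁ n₂ : ℕ) (h₁ : Fin n₁ → K₀) (h₂ : Fin n₂ → K₀)
      (r : (Fin n → ℂ) × ℕ → ℝ) (C : ℝ), g ≠ 0 ∧ 1 ≤ e ∧ 0 < C ∧
      (∀ i, Bm.IsReg (h₁ i)) ∧ (∀ i, Bm.IsReg (h₂ i)) ∧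
      (∀ q ∈ A.S.M, r q ≤ C * (‖A.val s q‖ ^ 2 * Real.exp (B.wt φ q) ^ b₁)) ∧
      (∀ q ∈ A.S.M, ‖A.val s q‖ ^ 2 * Real.exp (B.wt φ q) ^ b₁ ≤ C * r q) ∧
      ∀ y ∈ Bm.S.M, MvPolynomial.eval y.1 g ≠ 0 →
        0 < ∑ i, ‖Bm.val (h₁ i) y‖ ^ 2 ∧ 0 < ∑ i, ‖Bm.val (h₂ i) y‖ ^ 2 ∧
        ∃ ρ : ℝ, 0 < ρ ∧ IsLUB {x | ∃ q ∈ A.S.M, phi ι A Bm q = y ∧ x = r q} ρ ∧
          ρ ^ e * ∑ i, ‖Bm.val (h₁ i) y‖ ^ 2 ≤ C * ∑ i, ‖Bm.val (h₂ i) y‖ ^ 2 ∧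
          ∑ i, ‖Bm.val (h₂ i) y‖ ^ 2 ≤ C * (ρ ^ e * ∑ i, ‖Bm.val (h₁ i) y‖ ^ 2) := by
  classical
  set ψ : K₀ →ₐ[ℂ] D.K := IsScalarTower.toAlgHom ℂ K₀ D.K with hψ
  set Bs : Subalgebra ℂ D.K := baseAlg Bm.E ψ with hBs
  have hBA : Bs ≤ regC A := P.pair.baseAlg_le ψ fun a => rfl
  have hfrac : ∀ f ∈ kp D.K D.fm, ∃ a ∈ Bs, ∃ b ∈ Bs, b ≠ 0 ∧ f * b = a := by
    intro f hf
    obtain ⟨a, rfl⟩ := hkp f hf
    obtain ⟨u, v, hv, huv⟩ := regAlg_frac Bm.E a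
    refine ⟨ψ u, mem_baseAlg.2 ⟨u, u.2, rfl⟩, ψ v, mem_baseAlg.2 ⟨v, v.2, rfl⟩, ?_, ?_⟩
    · intro h0
      apply hv
      apply Subtype.ext
      exact ψ.toRingHom.injective (h0.trans (map_zero ψ).symm)
    · rw [← huv, map_mul]
      rfl
  obtain ⟨a, b, v, w, σ, r, hv0, hvx, hwpos, hσ, h4, h5, C, hC, hcmp⟩ :=
    in51 hAB hs hc hb₁ hs0 hsr hsr' hσ₀ hσ0 hinf Bs hBA hfrac
  -- a point
  obtain ⟨q₀, hq₀⟩ : ∃ q, q ∈ A.S.M := by
    obtain ⟨z, hz⟩ := A.nonempty_V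
    obtain ⟨W, sec, hW, hzW, -, hsec, -⟩ := A.S.loc z hz
    exact ⟨_, (hsec ⟨0, A.N_pos⟩).mem_M hzW⟩
  have hw0 : ∃ j, w j ≠ 0 := by
    by_contra hne
    push Not at hne
    have h6 := hwpos (evq hq₀)
    simp only [hne, map_zero, norm_zero] at h6
    simp at h6
  have hgen : ∀ x : regC A, IsAlgebraic
      (Algebra.adjoin ℂ ((Bs : Set D.K) ∪ Set.range fun i => (v i : D.K))) (x : D.K) := by
    intro x
    refine isAlgebraic_adjoin (fun i => ?_) _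
    obtain ⟨l, hl⟩ := hvx i
    exact Or.inr ⟨l, hl⟩
  obtain ⟨g, e, n₁, n₂, h₁, h₂, C', hg, he, hC', hmain⟩ :=
    Vale.Agent.P299.H819.sup_comparison_sub (regC A) Bs hBA (regC_fg A) (baseAlg_fg Bm.E ψ)
      v hv0 w hw0 hgen σ hσ r (by
        obtain ⟨C₁, h4⟩ := h4
        refine ⟨1, one_ne_zero, fun y _ => ⟨C₁, fun x _ => h4 x⟩⟩) (by
        intro m₀
        obtain ⟨m, hm, g, hg, h6⟩ := h5 m₀
        refine ⟨m, hm, g, hg, fun y hy => ?_⟩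
        obtain ⟨C₁, h7⟩ := h6 y hy
        exact ⟨C₁, fun x hx => h7 x (AlgHom.ext hx)⟩)
  -- the elements of the base
  have hbase : ∀ c : Bs, ∃ c' : K₀, Bm.IsReg c' ∧ ψ c' = c := fun c => mem_baseAlg.1 c.2
  obtain ⟨g', hg'r, hg'⟩ := hbase g
  choose h₁' h₁r h₁e using fun i => hbase (h₁ i)
  choose h₂' h₂r h₂e using fun i => hbase (h₂ i)
  have hg'0 : g' ≠ 0 := by
    rintro rfl
    rw [map_zero] at hg'
    exact hg (Subtype.ext hg'.symm)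
  obtain ⟨G, hG, hGne⟩ := exists_poly_val_ne Bm hg'r hg'0
  set R : (Fin n → ℂ) × ℕ → ℝ := fun q =>
    (∑ i, ‖A.val (w i) q‖ ^ 2) / ∑ i, ‖A.val (v i) q‖ ^ 2 with hR
  have hvpos : ∀ q (hq : q ∈ A.S.M), 0 < ∑ i, ‖A.val (v i) q‖ ^ 2 := by
    intro q hq
    have h6 : ‖A.val (v 0) q‖ ^ 2 ≤ ∑ i, ‖A.val (v i) q‖ ^ 2 :=
      Finset.single_le_sum (f := fun i => ‖A.val (v i) q‖ ^ 2) (fun i _ => by positivity)
        (Finset.mem_univ 0)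
    have h7 : A.val (v 0) q = 1 := by
      rw [hv0]
      exact Mod.val_one hq
    rw [h7, norm_one, one_pow] at h6
    exact lt_of_lt_of_le one_pos h6
  refine ⟨G, e, n₁, n₂, h₁', h₂', R, max C C', hG, he, lt_max_of_lt_left hC, h₁r, h₂r, ?_, ?_, ?_⟩
  · intro q hq
    obtain ⟨h6, h7⟩ := hcmp q hq
    rw [hR]
    simp only
    rw [div_le_iff₀ (hvpos q hq)]
    refine h7.trans ?_
    show C * (‖A.val s q‖ ^ 2 * Real.exp (B.wt φ q) ^ b₁ * ∑ i, ‖A.val (v i) q‖ ^ 2) ≤ _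
    rw [mul_assoc (max C C')]
    refine mul_le_mul_of_nonneg_right (le_max_left _ _) ?_
    have := hvpos q hq
    positivity
  · intro q hq
    obtain ⟨h6, h7⟩ := hcmp q hq
    rw [hR]
    simp only
    rw [← mul_div_assoc, le_div_iff₀ (hvpos q hq)]
    refine h6.trans ?_
    refine mul_le_mul_of_nonneg_right (le_max_left _ _) ?_
    exact Finset.sum_nonneg fun _ _ => by positivity
  · intro y hy hyG
    obtain ⟨x, hx⟩ := Vale.Agent.P299.H570.Base.exists_hom_base' Bm ψ hy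
    have hx' : ∀ (c : Bs) (c' : K₀), Bm.IsReg c' → ψ c' = c → x c = Bm.val c' y := by
      intro c c' hc' he'
      have h6 : c = ⟨ψ c', mem_baseAlg.2 ⟨c', hc', rfl⟩⟩ := Subtype.ext he'.symm
      rw [h6]
      exact hx c' hc'
    have hxg : x g ≠ 0 := by
      rw [hx' g g' hg'r hg']
      exact hGne y hy hyG
    obtain ⟨-, hp1, hp2, ρ, hρ, hlub, h6, h7⟩ := hmain x hxg
    have e1 : ∑ i, ‖x (h₁ i)‖ ^ 2 = ∑ i, ‖Bm.val (h₁' i) y‖ ^ 2 :=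
      Finset.sum_congr rfl fun i _ => by rw [hx' _ _ (h₁r i) (h₁e i)]
    have e2 : ∑ i, ‖x (h₂ i)‖ ^ 2 = ∑ i, ‖Bm.val (h₂' i) y‖ ^ 2 :=
      Finset.sum_congr rfl fun i _ => by rw [hx' _ _ (h₂r i) (h₂e i)]
    rw [e1] at hp1 h6 h7
    rw [e2] at hp2 h6 h7
    refine ⟨hp1, hp2, ρ, hρ, ?_, ?_, ?_⟩
    · have hset : {x | ∃ q ∈ A.S.M, phi ι A Bm q = y ∧ x = R q} =
          {t : ℝ | ∃ z : regC A →ₐ[ℂ] ℂ, (∀ c : Bs, z (Subalgebra.inclusion hBA c) = x c) ∧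
            t = Vale.Agent.P299.H819.nsq w z / Vale.Agent.P299.H819.nsq v z} := by
        ext t
        constructor
        · rintro ⟨q, hq, hqy, rfl⟩
          refine ⟨evq hq, fun c => ?_, rfl⟩
          obtain ⟨c', hc', he'⟩ := hbase c
          rw [hx' c c' hc' he']
          have h8 := (P.phi_eq_iff hq hy).1 hqy c' hc'
          rw [← h8]
          show A.val (c : D.K) q = A.val (algebraMap K₀ D.K c') q
          rw [← he']
          rfl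
        · rintro ⟨z, hz, rfl⟩
          obtain ⟨q, hq, hzq⟩ := exists_q z
          refine ⟨q, hq, (P.phi_eq_iff hq hy).2 fun c' hc' => ?_, ?_⟩
          · have h8 := hz ⟨ψ c', mem_baseAlg.2 ⟨c', hc', rfl⟩⟩
            rw [hx' _ c' hc' rfl, hzq] at h8
            exact h8
          · rw [hR]
            simp only
            unfold Vale.Agent.P299.H819.nsq
            simp only [hzq]
      rw [hset]
      exact hlub
    · exact h6.trans (mul_le_mul_of_nonneg_right (le_max_right _ _) hp2.le)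
    · refine h7.trans (mul_le_mul_of_nonneg_right (le_max_right _ _) ?_)
      positivity

end Vale.Agent.P299.H212
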