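import Vale.Agent.P299.H212.KX

/-!
# P299 / H212: bounds for the components of holomorphic tensors
-/

set_option linter.all false

open scoped Manifold ContDiff Topology
open Filter Set
open Vale.Agent.P272.K (Cm Chart At jacM jmat dz IsCanonicalMetric)
open Vale.Agent.P299.H908 Vale.Agent.P299.H223 Vale.Agent.P299.H216 Vale.Agent.P299.D
open Vale.Agent.P300.L2 (Sheets)

noncomputable section

namespace Vale.Agent.P299.H212

theorem norm_sum_mul_sq_le {ι : Type*} (s : Finset ι) (f g : ι → ℂ) :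
    ‖∑ i ∈ s, f i * g i‖ ^ 2 ≤ (∑ i ∈ s, ‖f i‖ ^ 2) * ∑ i ∈ s, ‖g i‖ ^ 2 := by
  have h1 : ‖∑ i ∈ s, f i * g i‖ ≤ ∑ i ∈ s, ‖f i‖ * ‖g i‖ :=
    (norm_sum_le _ _).trans (le_of_eq (Finset.sum_congr rfl fun i _ => norm_mul _ _))
  calc ‖∑ i ∈ s, f i * g i‖ ^ 2 ≤ (∑ i ∈ s, ‖f i‖ * ‖g i‖) ^ 2 :=
        pow_le_pow_left₀ (norm_nonneg _) h1 2
    _ ≤ _ := Finset.sum_mul_sq_le_sq_mul_sq s _ _

theorem tenPull_bound {n k : ℕ} (A : Matrix (Fin n) (Fin n) ℂ) {c : ℝ} (hc : 0 ≤ c)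
    (hA : ∀ a b, ‖A a b‖ ^ 2 ≤ c) (u : (Fin k → Fin n) → ℂ) (I : Fin k → Fin n) :
    ‖tenPull A u I‖ ^ 2 ≤ (n : ℝ) ^ k * c ^ k * sq u := by
  have h1 : tenPull A u I = ∑ K : Fin k → Fin n, (∏ t, A (K t) (I t)) * u K := rfl
  rw [h1]
  refine (norm_sum_mul_sq_le _ _ _).trans ?_
  refine mul_le_mul_of_nonneg_right ?_ (sq_nonneg' _)
  have h2 : ∀ K : Fin k → Fin n, ‖∏ t, A (K t) (I t)‖ ^ 2 ≤ c ^ k := by
    intro K
    rw [norm_prod, ← Finset.prod_pow]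
    calc ∏ t, ‖A (K t) (I t)‖ ^ 2 ≤ ∏ t : Fin k, c :=
          Finset.prod_le_prod (fun t _ => by positivity) fun t _ => hA _ _
      _ = c ^ k := by simp
  calc ∑ K : Fin k → Fin n, ‖∏ t, A (K t) (I t)‖ ^ 2 ≤ ∑ K : Fin k → Fin n, c ^ k :=
        Finset.sum_le_sum fun K _ => h2 K
    _ = (n : ℝ) ^ k * c ^ k := by
      rw [Finset.sum_const, nsmul_eq_mul, Finset.card_univ, Fintype.card_fun, Fintype.card_fin,
        Fintype.card_fin]
      push_cast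
      ring

variable {n N : ℕ} {X : Type} [TopologicalSpace X] [ChartedSpace (Cm n) X] [Nonempty X]
  {D : ProjData n X} {S : Sheets n N} {B : Brg S X}
  {Ξ : Fin (D.N + 1) → (Fin n → ℂ) × ℕ → ℂ}

/-- the inverse Jacobian matrix is bounded by the derivatives of the affine coordinates -/
theorem exists_Jinv (hΞ : XiData D B Ξ) (x₀ : X) {e : Chart n X} (he : At e x₀) :
    ∃ C : ℝ, 0 ≤ C ∧ ∀ᶠ x in 𝓝 x₀, x ∈ B.Xo → ∀ a b,
      ‖(B.J e x)⁻¹ a b‖ ^ 2 ≤ C * dsq S Ξ (B.θ x) := by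
  set j := jj D x₀ with hjd
  have hj : D.Z x₀ j ≠ 0 := jj_ne D x₀
  obtain ⟨K, hK⟩ := exists_minor (rwe_linearIndependent hj he)
  set M : X → Matrix (Fin (n + 1)) (Fin (n + 1)) ℂ := fun x =>
    Matrix.of fun a b => rwe D j e x a (K b) with hM
  have hMc : ContinuousAt M x₀ :=
    continuousAt_pi.2 fun a => continuousAt_pi.2 fun b => rwe_continuousAt hj he a (K b)
  have hdet : (M x₀).det ≠ 0 := hK
  have hinvc : ContinuousAt (fun x => (M x)⁻¹) x₀ := by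
    refine ContinuousAt.comp (g := Inv.inv) ?_ hMc
    refine continuousAt_matrix_inv _ ?_
    rw [Ring.inverse_eq_inv']
    exact continuousAt_inv₀ hdet
  have hdc : ContinuousAt (fun x => (M x).det) x₀ :=
    (Continuous.matrix_det continuous_id).continuousAt.comp hMc
  have hsq : ContinuousAt (fun x => sq fun ab : Fin (n + 1) × Fin (n + 1) =>
      (M x)⁻¹ ab.1 ab.2) x₀ := by
    refine sq_continuousAt fun ab => ?_
    exact (continuousAt_pi.1 ((continuousAt_pi.1 hinvc) ab.1)) ab.2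
  have b1 := bdd_of_continuousAt hsq
  have b2 := bdd_of_continuousAt (sq_continuousAt (v := fun x => dh D j x) (x := x₀) fun i =>
    rwe_continuousAt hj he 0 i)
  set C1 := (sq fun ab : Fin (n + 1) × Fin (n + 1) => (M x₀)⁻¹ ab.1 ab.2) + 1 with hC1
  set C2 := sq (dh D j x₀) + 1 with hC2
  have hC1p : 0 ≤ C1 := add_nonneg (sq_nonneg' _) zero_le_one
  have hC2p : 0 ≤ C2 := add_nonneg (sq_nonneg' _) zero_le_one
  refine ⟨C2 * (((n + 1 : ℕ) : ℝ) * C1), by positivity, ?_⟩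
  filter_upwards [b1, b2, hdc.eventually_ne hdet, e.open_source.mem_nhds he.2,
    (isOpen_Wj D j).mem_nhds hj] with x h1 h2 h3 h4 h5 hx a b
  have hex : At e x := ⟨he.1, h4⟩
  -- the row relation
  set L : Fin (n + 1) → ℂ := Fin.cons (S.D b (Ξ j) (B.θ x))
    fun q => D.xi j x * (B.J e x)⁻¹ q b with hL
  have hrel : (fun c => rwz S Ξ (B.θ x) b.succ (K c)) = Matrix.vecMul L (M x) := by
    funext c
    rw [rwz_succ_eq hΞ hx h5 hex b (K c), Matrix.vecMul, dotProduct, Fin.sum_univ_succ]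
    rfl
  have hLeq : L = Matrix.vecMul (fun c => rwz S Ξ (B.θ x) b.succ (K c)) (M x)⁻¹ := by
    rw [hrel, Matrix.vecMul_vecMul, Matrix.mul_nonsing_inv _ (isUnit_iff_ne_zero.2 h3),
      Matrix.vecMul_one]
  have h6 : D.xi j x * (B.J e x)⁻¹ a b =
      ∑ c, rwz S Ξ (B.θ x) b.succ (K c) * (M x)⁻¹ c a.succ := by
    have := congrFun hLeq a.succ
    rw [Matrix.vecMul, dotProduct] at this
    exact this
  have h7 : ‖D.xi j x * (B.J e x)⁻¹ a b‖ ^ 2 ≤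
      (((n + 1 : ℕ) : ℝ) * dsq S Ξ (B.θ x)) * C1 := by
    rw [h6]
    refine (norm_sum_mul_sq_le _ _ _).trans ?_
    refine mul_le_mul ?_ ?_ (by positivity) (mul_nonneg (by positivity) (dsq_nonneg _ _ _))
    · calc ∑ c, ‖rwz S Ξ (B.θ x) b.succ (K c)‖ ^ 2
          ≤ ∑ c : Fin (n + 1), dsq S Ξ (B.θ x) := Finset.sum_le_sum fun c _ =>
            le_dsq S Ξ (B.θ x) b (K c)
        _ = _ := by simp
    · refine le_trans ?_ h1
      calc ∑ c, ‖(M x)⁻¹ c a.succ‖ ^ 2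
          = ∑ ab ∈ (Finset.univ : Finset (Fin (n + 1))).map
              ⟨fun c => ((c, a.succ) : Fin (n + 1) × Fin (n + 1)), fun c c' h => (Prod.ext_iff.1 h).1⟩,
              ‖(M x)⁻¹ ab.1 ab.2‖ ^ 2 := by rw [Finset.sum_map]; rfl
        _ ≤ _ := Finset.sum_le_sum_of_subset_of_nonneg (Finset.subset_univ _)
            fun ab _ _ => by positivity
  have h8 : 1 ≤ ‖D.xi j x‖ ^ 2 * C2 := by
    have h9 := one_le_sq_Xi hΞ hx
    rw [sq_Xi hΞ hx h5] at h9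
    exact h9.trans (mul_le_mul_of_nonneg_left h2 (by positivity))
  rw [norm_mul, mul_pow] at h7
  calc ‖(B.J e x)⁻¹ a b‖ ^ 2 ≤ (‖D.xi j x‖ ^ 2 * C2) * ‖(B.J e x)⁻¹ a b‖ ^ 2 :=
        le_mul_of_one_le_left (by positivity) h8
    _ = C2 * (‖D.xi j x‖ ^ 2 * ‖(B.J e x)⁻¹ a b‖ ^ 2) := by ring
    _ ≤ C2 * ((((n + 1 : ℕ) : ℝ) * dsq S Ξ (B.θ x)) * C1) := mul_le_mul_of_nonneg_left h7 hC2p
    _ = _ := by ring

variable [IsManifold 𝓘(ℂ, Cm n) ω X] [CompactSpace X]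

/-- bound for the components of a holomorphic tensor, abstract form -/
theorem exists_comp_bound_aux (hΞ : XiData D B Ξ) {Wq : (Fin n → ℂ) × ℕ → ℝ}
    (hW0 : ∀ q, 0 ≤ Wq q)
    (hW : ∀ x₀ : X, ∀ e : Chart n X, At e x₀ → ∃ C : ℝ, 0 ≤ C ∧ ∀ᶠ x in 𝓝 x₀, x ∈ B.Xo →
      Wq (B.θ x) ≤ (‖(B.J e x).det‖ ^ 2)⁻¹ * C)
    {k m : ℕ} {u : Ten n k X} (hu : IsTen k m u) :
    ∃ C : ℝ, 0 ≤ C ∧ ∀ q ∈ S.M, ∀ I, ‖B.comp m u I q‖ ^ 2 * Wq q ^ m ≤
      C * dsq S Ξ q ^ k := by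
  obtain ⟨C, hC⟩ := exists_unif (X := X) (P := fun C x => x ∈ B.Xo → ∀ I,
    ‖B.comp m u I (B.θ x)‖ ^ 2 * Wq (B.θ x) ^ m ≤
      C * dsq S Ξ (B.θ x) ^ k) (by
    intro x C C' hCC h hx I
    exact (h hx I).trans (mul_le_mul_of_nonneg_right hCC (pow_nonneg (dsq_nonneg _ _ _) _))) (by
    intro x₀
    have he := at_chartAt' (n := n) x₀
    set e : Chart n X := chartAt (Cm n) x₀ with hed
    obtain ⟨C0, hC0, hev⟩ := exists_Jinv hΞ x₀ he
    obtain ⟨C1, hC1p, hev1⟩ := hW x₀ e he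
    have hu0 : ContinuousAt (fun x => sq (u e (e x))) x₀ := by
      refine sq_continuousAt fun I => ?_
      exact ContinuousAt.comp (g := fun z => u e z I) (hu.holo e x₀ he I).continuousAt
        (continuousAt_chart he)
    have b2 := bdd_of_continuousAt hu0
    set C2 := sq (u e (e x₀)) + 1 with hC2
    have hC2p : 0 ≤ C2 := add_nonneg (sq_nonneg' _) zero_le_one
    refine ⟨(n : ℝ) ^ k * C0 ^ k * C2 * C1 ^ m, ?_⟩
    filter_upwards [hev, hev1, b2, e.open_source.mem_nhds he.2] with x h1 h2 h3 h4 hx I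
    have hex : At e x := ⟨he.1, h4⟩
    have hJ : 0 < ‖(B.J e x).det‖ ^ 2 := by
      have := norm_pos_iff.2 (B.J_det hex hx)
      positivity
    have hcomp : B.comp m u I (B.θ x) = (B.J e x).det ^ m *
        tenPull (B.J e x)⁻¹ (u e (e x)) I := by
      have := B.comp_eq (m := m) (u := u) (B.maps x hx) (hu.chg _) (e := e)
        (by rw [B.j_θ hx]; exact hex) I
      rwa [B.j_θ hx] at this
    rw [hcomp, norm_mul, norm_pow, mul_pow]
    have h5 : (‖(B.J e x).det‖ ^ m) ^ 2 * ((‖(B.J e x).det‖ ^ 2)⁻¹) ^ m = 1 := by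
      rw [← pow_mul, mul_comm m 2, pow_mul, ← mul_pow, mul_inv_cancel₀ hJ.ne', one_pow]
    have h6 := tenPull_bound (B.J e x)⁻¹ (c := C0 * dsq S Ξ (B.θ x))
      (mul_nonneg hC0 (dsq_nonneg _ _ _)) (h1 hx) (u e (e x)) I
    calc (‖(B.J e x).det‖ ^ m) ^ 2 * ‖tenPull (B.J e x)⁻¹ (u e (e x)) I‖ ^ 2 * Wq (B.θ x) ^ m
        ≤ (‖(B.J e x).det‖ ^ m) ^ 2 * ‖tenPull (B.J e x)⁻¹ (u e (e x)) I‖ ^ 2 *
          ((‖(B.J e x).det‖ ^ 2)⁻¹ * C1) ^ m :=
          mul_le_mul_of_nonneg_left (pow_le_pow_left₀ (hW0 _) (h2 hx) m) (by positivity)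
      _ = ((‖(B.J e x).det‖ ^ m) ^ 2 * ((‖(B.J e x).det‖ ^ 2)⁻¹) ^ m) *
          (‖tenPull (B.J e x)⁻¹ (u e (e x)) I‖ ^ 2 * C1 ^ m) := by rw [mul_pow]; ring
      _ = ‖tenPull (B.J e x)⁻¹ (u e (e x)) I‖ ^ 2 * C1 ^ m := by
          rw [h5, one_mul]
      _ ≤ ((n : ℝ) ^ k * (C0 * dsq S Ξ (B.θ x)) ^ k * sq (u e (e x))) * C1 ^ m :=
          mul_le_mul_of_nonneg_right h6 (pow_nonneg hC1p _)
      _ ≤ ((n : ℝ) ^ k * (C0 * dsq S Ξ (B.θ x)) ^ k * C2) * C1 ^ m := by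
          refine mul_le_mul_of_nonneg_right ?_ (pow_nonneg hC1p _)
          refine mul_le_mul_of_nonneg_left h3 ?_
          exact mul_nonneg (by positivity)
            (pow_nonneg (mul_nonneg hC0 (dsq_nonneg _ _ _)) _)
      _ = _ := by rw [mul_pow]; ring)
  refine ⟨max C 0, le_max_right _ _, fun q hq I => ?_⟩
  have h1 := hC (B.j q) (B.j_mem hq) I
  rw [B.θ_j hq] at h1
  exact h1.trans (mul_le_mul_of_nonneg_right (le_max_left _ _)
    (pow_nonneg (dsq_nonneg _ _ _) _))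

/-- **bound for the components of a holomorphic tensor**, without metric -/
theorem exists_comp_bound_qz (hΞ : XiData D B Ξ) {k m : ℕ} {u : Ten n k X} (hu : IsTen k m u) :
    ∃ C : ℝ, 0 ≤ C ∧ ∀ q ∈ S.M, ∀ I, ‖B.comp m u I q‖ ^ 2 * qz S Ξ q ^ m ≤
      C * dsq S Ξ q ^ k := by
  refine exists_comp_bound_aux hΞ (qz_nonneg S Ξ) (fun x₀ e he => ?_) hu
  set j := jj D x₀ with hjd
  have hj : D.Z x₀ j ≠ 0 := jj_ne D x₀
  refine ⟨qr D j e x₀ + 1, add_nonneg (qr_pos hj he).le zero_le_one, ?_⟩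
  filter_upwards [bdd_of_continuousAt (qr_continuousAt hj he), e.open_source.mem_nhds he.2,
    (isOpen_Wj D j).mem_nhds hj] with x h1 h2 h3 hx
  rw [qz_eq hΞ hx h3 ⟨he.1, h2⟩]
  exact mul_le_mul_of_nonneg_left h1 (by positivity)

/-- **bound for the components of a holomorphic tensor** -/
theorem exists_comp_bound {φ : Chart n X → Cm n → ℝ} (hΞ : XiData D B Ξ)
    (hs : ∀ e x, At e x → ContinuousAt (φ e) (e x))
    (hc : ∀ e e' x, At e x → At e' x →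
      φ e (e x) = φ e' (e' x) + Real.log (‖(jacM e e' x).det‖ ^ 2))
    {k m : ℕ} {u : Ten n k X} (hu : IsTen k m u) :
    ∃ C : ℝ, 0 ≤ C ∧ ∀ q ∈ S.M, ∀ I, ‖B.comp m u I q‖ ^ 2 * Real.exp (B.wt φ q) ^ m ≤
      C * dsq S Ξ q ^ k := by
  refine exists_comp_bound_aux hΞ (Wq := fun q => Real.exp (B.wt φ q))
    (fun q => (Real.exp_pos _).le) (fun x₀ e he => ?_) hu
  have hφ : ContinuousAt (fun x => Real.exp (φ e (e x))) x₀ :=
    Real.continuous_exp.continuousAt.comp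
      (ContinuousAt.comp (g := φ e) (hs e x₀ he) (continuousAt_chart he))
  refine ⟨Real.exp (φ e (e x₀)) + 1, add_nonneg (Real.exp_pos _).le zero_le_one, ?_⟩
  filter_upwards [bdd_of_continuousAt hφ, e.open_source.mem_nhds he.2] with x h1 h2 hx
  rw [exp_wt_eq hc hx ⟨he.1, h2⟩]
  exact mul_le_mul_of_nonneg_left h1 (by positivity)

end Vale.Agent.P299.H212
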